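import Vale.Agent.P354XI.Defs

/-!
Jets along a finite family of letters: the sum of the squares of the words, and its pointwise
calculus.
-/

namespace Vale.Agent.P354YF

open Vale.Agent.P354XG (Der D_mul D_add D_sub D_neg D_alg D_zero)
open Vale.Agent.P354XI Vale.Agent.P354XI.Ibp Finset

variable {A : Type} [CommRing A] [Algebra ℂ A] {ι : Type} [Fintype ι]

/-- The sum of the squares of the words of length at most n. -/
def sq (c : A →+* A) (X : ι → Der A) : ℕ → A → A
  | 0, f => f * c f
  | n + 1, f => sq c X n f + ∑ a, sq c X n (X a f)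

/-- Its value at a point. -/
noncomputable def qq (B : Ibp A) (X : ι → Der A) (x : B.Pt) : ℕ → A → ℝ
  | 0, f => B.md x f ^ 2
  | n + 1, f => qq B X x n f + ∑ a, qq B X x n (X a f)

variable {B : Ibp A} {X : ι → Der A} {x : B.Pt}

theorem sq_re (h : B.Is) (n : ℕ) (f : A) : B.Re (sq B.c X n f) := by
  induction n generalizing f with
  | zero => rw [Ibp.Re, sq, map_mul, h.cc, mul_comm]
  | succ n ih =>
    rw [Ibp.Re, sq, map_add, map_sum, ih f]
    exact congrArg _ (sum_congr rfl fun a _ => ih _)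

theorem val_sq (h : B.Is) (n : ℕ) (f : A) : B.val x (sq B.c X n f) = qq B X x n f := by
  induction n generalizing f with
  | zero =>
    have := h.val_nsq (w := 1) (map_one B.c) x f
    rw [one_mul] at this
    rw [sq, qq, this, Ibp.val, map_one, Complex.one_re, one_mul]
  | succ n ih => simp only [sq, qq, val_add, val_sum, ih]

theorem qq_nonneg (n : ℕ) (f : A) : 0 ≤ qq B X x n f := by
  induction n generalizing f with
  | zero => exact sq_nonneg _
  | succ n ih => exact add_nonneg (ih f) (sum_nonneg fun a _ => ih _)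

theorem qq_le_succ (n : ℕ) (f : A) : qq B X x n f ≤ qq B X x (n + 1) f :=
  le_add_of_nonneg_right (sum_nonneg fun _ _ => qq_nonneg _ _)

theorem qq_mono {m n : ℕ} (e : m ≤ n) (f : A) : qq B X x m f ≤ qq B X x n f :=
  monotone_nat_of_le_succ (f := fun n => qq B X x n f) (fun n => qq_le_succ n f) e

theorem md_le_qq (n : ℕ) (f : A) : B.md x f ^ 2 ≤ qq B X x n f := qq_mono (Nat.zero_le n) f

theorem sum_der_le (n : ℕ) (f : A) : ∑ a, qq B X x n (X a f) ≤ qq B X x (n + 1) f :=
  le_add_of_nonneg_left (qq_nonneg _ _)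

theorem qq_der (n : ℕ) (a : ι) (f : A) : qq B X x n (X a f) ≤ qq B X x (n + 1) f :=
  (single_le_sum (f := fun a => qq B X x n (X a f)) (fun _ _ => qq_nonneg _ _)
    (mem_univ a)).trans (sum_der_le n f)

theorem qq_zero (n : ℕ) : qq B X x n 0 = 0 := by
  induction n with
  | zero => simp [qq, md]
  | succ n ih => simp [qq, ih]

theorem qq_neg (n : ℕ) (f : A) : qq B X x n (-f) = qq B X x n f := by
  induction n generalizing f with
  | zero => rw [qq, qq, md_neg]
  | succ n ih => simp only [qq, D_neg, ih]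

theorem qq_add (n : ℕ) (f g : A) :
    qq B X x n (f + g) ≤ 2 * qq B X x n f + 2 * qq B X x n g := by
  induction n generalizing f g with
  | zero =>
    have := pow_le_pow_left₀ (md_nonneg x _) (md_add x f g) 2
    simp only [qq]
    nlinarith [sq_nonneg (B.md x f - B.md x g)]
  | succ n ih =>
    simp only [qq, D_add]
    have := sum_le_sum fun a (_ : a ∈ univ) => ih (X a f) (X a g)
    rw [sum_add_distrib, ← mul_sum, ← mul_sum] at this
    linarith [ih f g]

theorem qq_sub (n : ℕ) (f g : A) :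
    qq B X x n (f - g) ≤ 2 * qq B X x n f + 2 * qq B X x n g := by
  have := qq_add (B := B) (X := X) (x := x) n f (-g)
  rwa [qq_neg, ← sub_eq_add_neg] at this

theorem qq_sum {κ : Type} (s : Finset κ) (n : ℕ) (f : κ → A) :
    qq B X x n (∑ i ∈ s, f i) ≤ 2 ^ s.card * ∑ i ∈ s, qq B X x n (f i) := by
  classical
  induction s using Finset.induction_on with
  | empty => simp [qq_zero]
  | insert i s hi ih =>
    rw [sum_insert hi, sum_insert hi, card_insert_of_notMem hi, pow_succ]
    have h1 : (1 : ℝ) ≤ 2 ^ s.card := one_le_pow₀ one_le_two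
    have h2 := qq_nonneg (B := B) (X := X) (x := x) n (f i)
    nlinarith [qq_add (B := B) (X := X) (x := x) n (f i) (∑ i ∈ s, f i)]

/-- A factor which is killed by all letters. -/
theorem qq_cst {k : A} (hk : ∀ a, X a k = 0) (n : ℕ) (f : A) :
    qq B X x n (k * f) = B.md x k ^ 2 * qq B X x n f := by
  induction n generalizing f with
  | zero => rw [qq, qq, md_mul, mul_pow]
  | succ n ih => simp only [qq, D_mul, hk, mul_zero, add_zero, ih, mul_add, mul_sum]

theorem qq_alg (h : B.Is) (z : ℂ) (n : ℕ) (f : A) :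
    qq B X x n (algebraMap ℂ A z * f) = ‖z‖ ^ 2 * qq B X x n f := by
  rw [qq_cst fun a => D_alg _ z, md, h.ev_alg]

theorem qq_c (h : B.Is) (hX : ∀ a f, B.c (X a f) = X a (B.c f)) (n : ℕ) (f : A) :
    qq B X x n (B.c f) = qq B X x n f := by
  induction n generalizing f with
  | zero => rw [qq, qq, h.md_c]
  | succ n ih => simp only [qq, ← hX, ih]

/-- The Leibniz rule. -/
theorem qq_mul (n : ℕ) (f g : A) :
    qq B X x n (f * g) ≤ 5 ^ n * ∑ i ∈ range (n + 1), qq B X x i f * qq B X x (n - i) g := by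
  induction n generalizing f g with
  | zero => simp [qq, md_mul, mul_pow]
  | succ n ih =>
    have p : ∀ i j, 0 ≤ qq B X x i f * qq B X x j g := fun i j =>
      mul_nonneg (qq_nonneg _ _) (qq_nonneg _ _)
    set S := ∑ i ∈ range (n + 1 + 1), qq B X x i f * qq B X x (n + 1 - i) g with hS
    have e1 : ∑ i ∈ range (n + 1), qq B X x i f * qq B X x (n - i + 1) g ≤ S := by
      rw [hS, sum_range_succ _ (n + 1)]
      refine le_add_of_le_of_nonneg (sum_le_sum fun i hi => ?_) (p _ _)
      rw [show n + 1 - i = n - i + 1 by have := mem_range.1 hi; omega]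
    have e2 : ∑ i ∈ range (n + 1), qq B X x (i + 1) f * qq B X x (n - i) g ≤ S := by
      rw [hS, sum_range_succ' _ (n + 1)]
      refine le_add_of_le_of_nonneg (sum_le_sum fun i _ => ?_) (p _ _)
      rw [show n + 1 - (i + 1) = n - i by omega]
    have e0 : ∑ i ∈ range (n + 1), qq B X x i f * qq B X x (n - i) g ≤ S :=
      (sum_le_sum fun i _ => mul_le_mul_of_nonneg_left (qq_le_succ _ _) (qq_nonneg _ _)).trans e1
    have e3 : ∑ a, ∑ i ∈ range (n + 1), qq B X x i f * qq B X x (n - i) (X a g) ≤ S := by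
      rw [sum_comm]
      refine le_trans (sum_le_sum fun i _ => ?_) e1
      rw [← mul_sum]
      exact mul_le_mul_of_nonneg_left (sum_der_le _ _) (qq_nonneg _ _)
    have e4 : ∑ a, ∑ i ∈ range (n + 1), qq B X x i (X a f) * qq B X x (n - i) g ≤ S := by
      rw [sum_comm]
      refine le_trans (sum_le_sum fun i _ => ?_) e2
      rw [← sum_mul]
      exact mul_le_mul_of_nonneg_right (sum_der_le _ _) (qq_nonneg _ _)
    have h5 : (0 : ℝ) ≤ 5 ^ n := by positivity
    have e5 : ∑ a, qq B X x n (X a (f * g)) ≤ ∑ a, (2 * (5 ^ n *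
        ∑ i ∈ range (n + 1), qq B X x i f * qq B X x (n - i) (X a g)) + 2 * (5 ^ n *
        ∑ i ∈ range (n + 1), qq B X x i (X a f) * qq B X x (n - i) g)) := by
      refine sum_le_sum fun a _ => ?_
      rw [D_mul, mul_comm g]
      linarith [qq_add (B := B) (X := X) (x := x) n (f * X a g) (X a f * g), ih f (X a g),
        ih (X a f) g]
    rw [sum_add_distrib, ← mul_sum, ← mul_sum, ← mul_sum, ← mul_sum] at e5
    rw [qq, pow_succ]
    nlinarith [ih f g, mul_le_mul_of_nonneg_left e0 h5, mul_le_mul_of_nonneg_left e3 h5,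
      mul_le_mul_of_nonneg_left e4 h5]

/-- The constant of the Leibniz rule. -/
def cL (n : ℕ) : ℝ := 5 ^ n * (n + 1)

theorem cL_pos (n : ℕ) : 0 < cL n := by unfold cL; positivity

theorem cL_mono {m n : ℕ} (e : m ≤ n) : cL m ≤ cL n := by
  unfold cL
  have : (m : ℝ) ≤ n := by exact_mod_cast e
  gcongr
  norm_num

theorem sum_le_cL {n : ℕ} {F : ℕ → ℝ} {c : ℝ} (h : ∀ i ≤ n, F i ≤ c) :
    5 ^ n * ∑ i ∈ range (n + 1), F i ≤ cL n * c := by
  have := sum_le_card_nsmul (range (n + 1)) F c fun i hi => h i (by have := mem_range.1 hi; omega)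
  rw [card_range, nsmul_eq_mul] at this
  rw [cL, mul_assoc]
  push_cast at this
  gcongr

theorem qq_mul_le (n : ℕ) (f g : A) :
    qq B X x n (f * g) ≤ cL n * (qq B X x n f * qq B X x n g) :=
  (qq_mul n f g).trans (sum_le_cL fun _ hi => mul_le_mul (qq_mono hi _) (qq_mono (by omega) _)
    (qq_nonneg _ _) (qq_nonneg _ _))

/-- One of the two factors is of low order. -/
theorem qq_mul_split {n m m' : ℕ} (e : n ≤ m + m' + 1) (f g : A) : qq B X x n (f * g) ≤
    cL n * (qq B X x m f * qq B X x n g + qq B X x n f * qq B X x m' g) := by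
  refine (qq_mul n f g).trans (sum_le_cL fun i hi => ?_)
  have p : ∀ i j, 0 ≤ qq B X x i f * qq B X x j g := fun i j =>
    mul_nonneg (qq_nonneg _ _) (qq_nonneg _ _)
  rcases le_or_gt i m with c | c
  · exact le_add_of_le_of_nonneg (mul_le_mul (qq_mono c _) (qq_mono (by omega) _)
      (qq_nonneg _ _) (qq_nonneg _ _)) (p _ _)
  · exact le_add_of_nonneg_of_le (p _ _) (mul_le_mul (qq_mono hi _) (qq_mono (by omega) _)
      (qq_nonneg _ _) (qq_nonneg _ _))

/-- An element on which the letters act by bounded constant matrices. -/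
theorem qq_rep (h : B.Is) {κ : Type} [Fintype κ] {e : κ → A} {m : ι → κ → κ → ℝ}
    (he : ∀ a k, X a (e k) = ∑ l, rl A (m a k l) * e l) (hm : ∀ a k l, |m a k l| ≤ 1) (n : ℕ) :
    ∑ k, qq B X x n (e k) ≤ (1 + Fintype.card ι * (Fintype.card κ * 2 ^ Fintype.card κ)) ^ n *
      ∑ k, B.md x (e k) ^ 2 := by
  induction n with
  | zero => simp [qq]
  | succ n ih =>
    have p : 0 ≤ ∑ k, qq B X x n (e k) := sum_nonneg fun _ _ => qq_nonneg _ _
    have e1 : ∀ a k, qq B X x n (X a (e k)) ≤ 2 ^ Fintype.card κ * ∑ l, qq B X x n (e l) := by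
      intro a k
      rw [he]
      refine (qq_sum _ _ _).trans (mul_le_mul_of_nonneg_left (sum_le_sum fun l _ => ?_)
        (by positivity))
      rw [rl, qq_alg h, Complex.norm_real, Real.norm_eq_abs]
      exact mul_le_of_le_one_left (qq_nonneg _ _) (pow_le_one₀ (abs_nonneg _) (hm a k l))
    have e2 : ∑ k, ∑ a, qq B X x n (X a (e k)) ≤ Fintype.card ι * (Fintype.card κ *
        (2 ^ Fintype.card κ * ∑ l, qq B X x n (e l))) := by
      rw [sum_comm]
      refine (sum_le_card_nsmul _ _ _ fun a _ =>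
        sum_le_card_nsmul _ _ _ fun k _ => e1 a k).trans_eq ?_
      simp
    simp only [qq, sum_add_distrib]
    rw [pow_succ]
    have q : (0 : ℝ) ≤ 1 + Fintype.card ι * (Fintype.card κ * 2 ^ Fintype.card κ) := by positivity
    nlinarith [mul_le_mul_of_nonneg_left ih q]

end Vale.Agent.P354YF
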