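import Vale.Agent.P354YF.Jet
import Vale.Agent.P354XI.Tool

/-!
Weighted norms of jets and the Hardy inequality for a transport equation.
-/

namespace Vale.Agent.P354YF

open Vale.Agent.P354XG (Der D_mul D_add D_sub D_neg D_alg D_zero)
open Vale.Agent.P354XI Vale.Agent.P354XI.Ibp Finset

variable {A : Type} [CommRing A] [Algebra ℂ A] {ι : Type} [Fintype ι]

/-- The square of the norm of the jet of order n with the weight w. -/
def nj (B : Ibp A) (X : ι → Der A) (w : A) (n : ℕ) (f : A) : ℝ := B.J (w * sq B.c X n f)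

variable {B : Ibp A} {X : ι → Der A}

theorem nj_zero (w f : A) : nj B X w 0 f = B.nsq w f := rfl

theorem nj_succ (w : A) (n : ℕ) (f : A) :
    nj B X w (n + 1) f = nj B X w n f + ∑ a, nj B X w n (X a f) := by
  simp only [nj, sq, mul_add, mul_sum, J_add, J_sum]

theorem nj_add_w (w w' : A) (n : ℕ) (f : A) :
    nj B X (w + w') n f = nj B X w n f + nj B X w' n f := by rw [nj, add_mul, J_add]; rfl

theorem nj_rl_w (t : ℝ) (w : A) (n : ℕ) (f : A) :
    nj B X (rl A t * w) n f = t * nj B X w n f := by rw [nj, mul_assoc, J_rl]; rfl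

theorem val_nj (h : B.Is) (x : B.Pt) (w : A) (n : ℕ) (f : A) :
    B.val x (w * sq B.c X n f) = B.val x w * qq B X x n f := by
  rw [mul_comm w, h.val_mul (sq_re h n f), val_sq h, mul_comm]

/-- A pointwise inequality between jets can be integrated. -/
theorem nj_le_sum (h : B.Is) {κ : Type} (s : Finset κ) {w : A} (hw : w ∈ B.K) {W : κ → A}
    (hW : ∀ i ∈ s, W i ∈ B.K) (n : ℕ) (f : A) (m : κ → ℕ) (g : κ → A)
    (e : ∀ x, B.val x w * qq B X x n f ≤ ∑ i ∈ s, B.val x (W i) * qq B X x (m i) (g i)) :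
    nj B X w n f ≤ ∑ i ∈ s, nj B X (W i) (m i) (g i) := by
  simp only [nj]
  rw [← J_sum]
  refine h.J_le (B.K.mul_mem_right _ hw) (B.K.sum_mem fun i hi => B.K.mul_mem_right _ (hW i hi))
    fun x => ?_
  simpa only [val_sum, val_nj h] using e x

theorem nj_le (h : B.Is) {w W : A} (hw : w ∈ B.K) (hW : W ∈ B.K) {n m : ℕ} {f g : A}
    (e : ∀ x, B.val x w * qq B X x n f ≤ B.val x W * qq B X x m g) :
    nj B X w n f ≤ nj B X W m g :=
  h.J_le (B.K.mul_mem_right _ hw) (B.K.mul_mem_right _ hW) fun x => by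
    simpa only [val_nj h] using e x

theorem nj_le2 (h : B.Is) {w W W' : A} (hw : w ∈ B.K) (hW : W ∈ B.K) (hW' : W' ∈ B.K)
    {n m m' : ℕ} {f g g' : A} (e : ∀ x, B.val x w * qq B X x n f ≤
      B.val x W * qq B X x m g + B.val x W' * qq B X x m' g') :
    nj B X w n f ≤ nj B X W m g + nj B X W' m' g' := by
  simp only [nj]
  rw [← J_add]
  exact h.J_le (B.K.mul_mem_right _ hw)
    (B.K.add_mem (B.K.mul_mem_right _ hW) (B.K.mul_mem_right _ hW')) fun x => by
    simpa only [val_add, val_nj h] using e x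

theorem nj_nonneg (h : B.Is) {w : A} (hw : B.Wt w) (n : ℕ) (f : A) : 0 ≤ nj B X w n f := by
  have := nj_le (X := X) h B.K.zero_mem hw.K (n := 0) (m := n) (f := 0) (g := f) fun x => by
    rw [val_zero, zero_mul]; exact mul_nonneg (hw.pos x) (qq_nonneg _ _)
  rwa [nj, zero_mul, J_zero] at this

theorem nj_mono_w (h : B.Is) {w W : A} (hw : w ∈ B.K) (hW : W ∈ B.K) (n : ℕ) (f : A)
    (e : ∀ x, B.val x w ≤ B.val x W) : nj B X w n f ≤ nj B X W n f :=
  nj_le h hw hW fun x => mul_le_mul_of_nonneg_right (e x) (qq_nonneg _ _)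

/-- The Hardy inequality for the jets of a solution of L f = - k f + G. -/
theorem hardy (h : B.Is) {L : Der A} {d : A} (v : B.Dv L d) (c : ∀ f, B.c (L f) = L (B.c f))
    (hX : ∀ a f, L (X a f) = X a (L f)) {k : ℝ} {w D D1 E Y : A} (hw : B.Wt w) (hD : D ∈ B.K)
    (h1 : B.Wt D1) (hE : B.Wt E) (hY : Y ∈ B.K)
    (e1 : ∀ x, B.val x D + B.val x D1 + B.val x (L w + d * w) ≤ 2 * k * B.val x w + B.val x Y)
    (e2 : ∀ x, B.val x w ^ 2 ≤ B.val x E * B.val x D1) (n : ℕ) {f G : A}
    (hf : L f = -(rl A k * f) + G) : nj B X D n f ≤ nj B X Y n f + nj B X E n G := by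
  induction n generalizing f G with
  | zero =>
    have kL : L w + d * w ∈ B.K := B.K.add_mem (v.K_D w hw.K) (B.K.mul_mem_left _ hw.K)
    have a1 := v.move c hw.K f f
    rw [h.bil_comm hw.K hw.re f, hf, bil_add_l, bil_neg_l, bil_mul_l, mul_comm w, bil_rl_w] at a1
    have a2 := h.young (B.K.mul_mem_left 2 hw.K) hE h1 G f fun x => by
      rw [md_mul, h.md_re re_two, val_two, h.md_re hw.re, mul_pow, sq_abs, sq_abs]
      linarith [e2 x]
    rw [bil_two_w] at a2
    have a3 := nj_mono_w (X := X) h (B.K.add_mem (B.K.add_mem hD h1.K) kL)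
      (B.K.add_mem (B.K.mul_mem_left (rl A (2 * k)) hw.K) hY) 0 f fun x => by
        rw [val_add, val_add, val_add x (_ * _), h.val_mul (h.re_rl _), h.val_rl]; exact e1 x
    rw [nj_add_w, nj_add_w, nj_add_w _ Y, nj_rl_w] at a3
    simp only [nj_zero, nsq] at a2 a3 ⊢
    linarith [(abs_le.1 a2).2]
  | succ n ih =>
    have := sum_le_sum fun a (_ : a ∈ univ) => ih (f := X a f) (G := X a G) (by
      rw [hX, hf, D_add, D_neg, D_mul, D_rl, mul_zero, add_zero])
    rw [sum_add_distrib] at this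
    simp only [nj_succ]
    linarith [ih hf]

/-! ### The order of the monomials r^a v^b t^c -/

/-- The monomial of the exponent p is at most a constant times the monomial of the exponent q if
1 ≤ r, 1 ≤ t and v is comparable with r + t. -/
def Dom (p q : ℝ × ℝ × ℝ) : Prop :=
  p.1 + p.2.1 ≤ q.1 + q.2.1 ∧ p.2.1 + p.2.2 ≤ q.2.1 + q.2.2 ∧
    p.1 + p.2.1 + p.2.2 ≤ q.1 + q.2.1 + q.2.2

/-- The monomial. -/
noncomputable def mon (p : ℝ × ℝ × ℝ) (r v t : ℝ) : ℝ := r ^ p.1 * v ^ p.2.1 * t ^ p.2.2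

theorem mon_pos (p : ℝ × ℝ × ℝ) {r v t : ℝ} (hr : 0 < r) (hv : 0 < v) (ht : 0 < t) :
    0 < mon p r v t := by unfold mon; positivity

theorem mon_add (p q : ℝ × ℝ × ℝ) {r v t : ℝ} (hr : 0 < r) (hv : 0 < v) (ht : 0 < t) :
    mon (p + q) r v t = mon p r v t * mon q r v t := by
  simp only [mon, Prod.fst_add, Prod.snd_add, Real.rpow_add hr, Real.rpow_add hv,
    Real.rpow_add ht]
  ring

theorem Dom.le {p q : ℝ × ℝ × ℝ} (h : Dom p q) {r v t : ℝ} (hr : 1 ≤ r) (ht : 1 ≤ t)
    (h1 : r ≤ v) (h2 : t ≤ 4 * v) (h3 : v ≤ t + 2 * r) :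
    mon p r v t ≤ 4 ^ |p.2.1 - q.2.1| * mon q r v t := by
  obtain ⟨a, b, c⟩ := p
  obtain ⟨a', b', c'⟩ := q
  obtain ⟨e1, e2, e3⟩ := h
  dsimp only at e1 e2 e3 ⊢
  have r0 : 0 < r := by linarith
  have t0 : 0 < t := by linarith
  have v0 : 0 < v := by linarith
  have x0 := Real.log_nonneg hr
  have y0 := Real.log_nonneg ht
  have l4 : 0 < Real.log 4 := Real.log_pos (by norm_num)
  have z1 : Real.log r ≤ Real.log v := Real.log_le_log r0 h1
  have z2 : Real.log t ≤ Real.log 4 + Real.log v := by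
    rw [← Real.log_mul (by norm_num) v0.ne']; exact Real.log_le_log t0 h2
  have z3 : Real.log v ≤ Real.log 4 + max (Real.log r) (Real.log t) := by
    rcases le_total r t with c | c
    · rw [max_eq_right (Real.log_le_log r0 c), ← Real.log_mul (by norm_num) t0.ne']
      exact Real.log_le_log v0 (by linarith)
    · rw [max_eq_left (Real.log_le_log t0 c), ← Real.log_mul (by norm_num) r0.ne']
      exact Real.log_le_log v0 (by linarith)
  simp only [mon, Real.rpow_def_of_pos r0, Real.rpow_def_of_pos v0, Real.rpow_def_of_pos t0,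
    Real.rpow_def_of_pos (show (0 : ℝ) < 4 by norm_num), ← Real.exp_add]
  refine Real.exp_le_exp.2 ?_
  set x := Real.log r
  set y := Real.log t
  set z := Real.log v
  have k : (b - b') * (z - max x y) ≤ Real.log 4 * |b - b'| := by
    have : |z - max x y| ≤ Real.log 4 := by
      refine abs_le.2 ⟨?_, by linarith⟩
      have : max x y ≤ Real.log 4 + z := max_le (by linarith) z2
      linarith
    calc _ ≤ |(b - b') * (z - max x y)| := le_abs_self _
      _ = |z - max x y| * |b - b'| := by rw [abs_mul, mul_comm]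
      _ ≤ _ := mul_le_mul_of_nonneg_right this (abs_nonneg _)
  rcases le_total x y with c | c
  · rw [max_eq_right c] at k
    nlinarith [mul_nonneg x0 (sub_nonneg.2 e3), mul_nonneg (sub_nonneg.2 c) (sub_nonneg.2 e2)]
  · rw [max_eq_left c] at k
    nlinarith [mul_nonneg y0 (sub_nonneg.2 e3), mul_nonneg (sub_nonneg.2 c) (sub_nonneg.2 e1)]

theorem Dom.refl (p : ℝ × ℝ × ℝ) : Dom p p := ⟨le_rfl, le_rfl, le_rfl⟩

theorem Dom.trans {p q s : ℝ × ℝ × ℝ} (h : Dom p q) (h' : Dom q s) : Dom p s :=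
  ⟨h.1.trans h'.1, h.2.1.trans h'.2.1, h.2.2.trans h'.2.2⟩

end Vale.Agent.P354YF
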