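import Vale.Agent.P354YF.Je
import Vale.Agent.P354YF.Hardy

/-!
Symbols and weights in the far chart.
-/

open scoped ContDiff

namespace Vale.Agent.P354YF

open Vale.Agent.P354XG (Der D_mul D_add D_sub D_neg D_alg D_zero D_one)
open Vale.Agent.P354XI Vale.Agent.P354XZ Finset

variable {A : Type} [CommRing A] [Algebra ℂ A] {C : Ch A} {x : C.Pt}

/-! ### The domain -/

theorem ut_ge (j : C.J) (u : ℝ) : |u| ≤ C.ut j u := Real.abs_le_sqrt (by nlinarith)

theorem one_le_ut (h : C.Is) (j : C.J) (u : ℝ) : 1 ≤ C.ut j u := by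
  have := (h.one_le j).1.trans (h.one_le j).2
  exact Real.le_sqrt_of_sq_le (by nlinarith [sq_nonneg u])

theorem R0_le_ut (h : C.Is) (j : C.J) (u : ℝ) : C.R0 j ≤ C.ut j u := by
  have := h.one_le j
  exact Real.le_sqrt_of_sq_le (by nlinarith [sq_nonneg u])

theorem two_le_vv (j : C.J) (u r : ℝ) : 2 * r ≤ C.vv j u r := by
  have := abs_le.1 (ut_ge j u); unfold Ch.vv; linarith

theorem vv_le (j : C.J) (u r : ℝ) : C.vv j u r ≤ C.ut j u + 2 * r := by
  have := abs_le.1 (ut_ge j u); unfold Ch.vv; linarith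

theorem ut_le (h : C.Is) {j : C.J} {p : ℝ × ℝ} (hp : p ∈ C.Dom j) :
    C.ut j p.1 ≤ 2 * C.vv j p.1 p.2 := by
  have := h.rng j p hp
  have := (h.one_le j).1
  unfold Ch.vv; linarith

theorem R0_le_rr (h : C.Is) (x : C.Pt) : C.R0 x.1 ≤ C.rr x := (h.rng _ _ (h.dom x)).1
theorem one_le_rr (h : C.Is) (x : C.Pt) : 1 ≤ C.rr x := (h.one_le _).1.trans (R0_le_rr h x)
theorem rr_pos (h : C.Is) (x : C.Pt) : 0 < C.rr x := one_pos.trans_le (one_le_rr h x)

theorem ev_re (h : C.Is) {f : A} (hf : C.c f = f) (x : C.Pt) :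
    (C.B x.1).ev x.2 f = (C.val x f : ℝ) :=
  (h.ibp x.1).ev_re (by rw [Ibp.Re, h.c_eq, hf]) x.2

theorem md_re (h : C.Is) {f : A} (hf : C.c f = f) : C.md x f = |C.val x f| := by
  rw [Ch.md, Ibp.md, ev_re h hf, Complex.norm_real, Real.norm_eq_abs]

theorem vl_mul (h : C.Is) {f : A} (hf : C.c f = f) (g : A) :
    C.val x (f * g) = C.val x f * C.val x g := by
  rw [Ch.val, Ibp.val, map_mul, ev_re h hf, Complex.re_ofReal_mul]; rfl

theorem md_r (h : C.Is) : C.md x C.r = C.rr x := (md_re h h.c_r).trans (abs_of_pos (rr_pos h x))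

theorem md_ri (h : C.Is) : C.md x C.ri = (C.rr x)⁻¹ := by
  have : C.md x (C.r * C.ri) = 1 := by rw [h.hr, md_one]
  rw [md_mul, md_r h] at this
  exact eq_inv_of_mul_eq_one_right this

theorem c_ri (h : C.Is) : C.c C.ri = C.ri := by
  have := congrArg C.c h.hr
  rw [map_mul, h.c_r, map_one] at this
  linear_combination C.ri * this - C.c C.ri * h.hr

/-! ### Smooth families -/

theorem smF_const (c : C.J → ℝ) : SmF fun j _ _ => c j := fun _ => contDiffOn_const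
theorem smF_add {φ ψ : Fam C.J} (a : SmF φ) (b : SmF ψ) : SmF (φ + ψ) := fun j => (a j).add (b j)
theorem smF_sub {φ ψ : Fam C.J} (a : SmF φ) (b : SmF ψ) : SmF (φ - ψ) := fun j => (a j).sub (b j)
theorem smF_mul {φ ψ : Fam C.J} (a : SmF φ) (b : SmF ψ) : SmF (φ * ψ) := fun j => (a j).mul (b j)

theorem smF_mon (h : C.Is) (a b e : ℝ) : SmF (C.mon a b e) := fun j => by
  have u0 := (h.one_le j).1.trans (h.one_le j).2
  have t : ContDiff ℝ ∞ fun p : ℝ × ℝ => C.ut j p.1 :=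
    ((contDiff_fst.pow 2).add contDiff_const).sqrt fun p => by positivity
  have v : ContDiff ℝ ∞ fun p : ℝ × ℝ => C.vv j p.1 p.2 :=
    (contDiff_const.mul contDiff_snd).add ((contDiff_fst.add t).div_const 2)
  refine ((contDiffOn_snd.rpow_const_of_ne fun p hp => ne_of_gt hp).mul
    (v.contDiffOn.rpow_const_of_ne fun p hp => ?_)).mul
    (t.contDiffOn.rpow_const_of_ne fun p _ => (one_pos.trans_le (one_le_ut h j _)).ne')
  have : 0 < p.2 := hp
  exact (lt_of_lt_of_le (by positivity) (two_le_vv j p.1 p.2)).ne'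

theorem smF_at {φ : Fam C.J} (a : SmF φ) (j : C.J) (u : ℝ) {r : ℝ} (hr : 0 < r) :
    DifferentiableAt ℝ (fun p : ℝ × ℝ => φ j p.1 p.2) (u, r) :=
  ((a j).contDiffAt ((isOpen_lt continuous_const continuous_snd).mem_nhds hr)).differentiableAt
    (by simp)

theorem smF_hasDeriv {φ : Fam C.J} (a : SmF φ) (j : C.J) (u : ℝ) {r : ℝ} (hr : 0 < r) :
    HasDerivAt (φ j u) (fderiv ℝ (fun p : ℝ × ℝ => φ j p.1 p.2) (u, r) (0, 1)) r :=
  (smF_at a j u hr).hasFDerivAt.comp_hasDerivAt r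
    ((hasDerivAt_const r u).prodMk (hasDerivAt_id r))

theorem smF_diff {φ : Fam C.J} (a : SmF φ) (j : C.J) (u : ℝ) {r : ℝ} (hr : 0 < r) :
    DifferentiableAt ℝ (φ j u) r := (smF_hasDeriv a j u hr).differentiableAt

theorem smF_dr {φ : Fam C.J} (a : SmF φ) : SmF fun j u r => deriv (φ j u) r := fun j =>
  (((a j).fderiv_of_isOpen (isOpen_lt continuous_const continuous_snd) (m := ∞) (by simp)).clm_apply
    contDiffOn_const).congr fun p hp => (smF_hasDeriv a j p.1 hp).deriv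

theorem smF_du {φ : Fam C.J} (a : SmF φ) : SmF fun j u r => deriv (fun u => φ j u r) u := fun j =>
  (((a j).fderiv_of_isOpen (isOpen_lt continuous_const continuous_snd) (m := ∞) (by simp)).clm_apply
    (contDiffOn_const (c := (1, 0)))).congr fun p hp =>
    (HasFDerivAt.comp_hasDerivAt (f := fun u => (u, p.2)) p.1 (smF_at a j p.1 hp).hasFDerivAt
      ((hasDerivAt_id p.1).prodMk (hasDerivAt_const p.1 p.2))).deriv

theorem vl_fn (h : C.Is) {φ : Fam C.J} (a : SmF φ) : C.val x (C.fn φ) = C.at' φ x := by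
  rw [Ch.val, Ibp.val, h.fn_val φ a, Complex.ofReal_re]

theorem md_fn (h : C.Is) {φ : Fam C.J} (a : SmF φ) : C.md x (C.fn φ) = |C.at' φ x| := by
  rw [md_re h (h.fn_c φ a), vl_fn h a]

theorem vl_fn_mul (h : C.Is) {φ : Fam C.J} (a : SmF φ) (f : A) :
    C.val x (C.fn φ * f) = C.at' φ x * C.val x f := by rw [vl_mul h (h.fn_c φ a), vl_fn h a]

theorem vl_R_fn (h : C.Is) {φ : Fam C.J} (a : SmF φ) :
    C.val x (C.R (C.fn φ)) = deriv (φ x.1 (C.uu x)) (C.rr x) := by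
  rw [h.fn_R φ a, vl_fn h (smF_dr a)]; rfl

theorem vl_T_fn (h : C.Is) {φ : Fam C.J} (a : SmF φ) :
    C.val x (C.T (C.fn φ)) = deriv (fun u => φ x.1 u (C.rr x)) (C.uu x) := by
  rw [h.fn_T φ a, vl_fn h (smF_du a)]; rfl

/-! ### Monomials -/

theorem at_mul (φ ψ : Fam C.J) : C.at' (φ * ψ) x = C.at' φ x * C.at' ψ x := rfl
theorem at_add (φ ψ : Fam C.J) : C.at' (φ + ψ) x = C.at' φ x + C.at' ψ x := rfl

theorem mn_pos (h : C.Is) (a b e : ℝ) (j : C.J) (u : ℝ) {r : ℝ} (hr : 0 < r) :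
    0 < C.mon a b e j u r :=
  mon_pos (a, b, e) hr (lt_of_lt_of_le (by positivity) (two_le_vv j u r))
    (one_pos.trans_le (one_le_ut h j u))

theorem at_pos (h : C.Is) (a b e : ℝ) (x : C.Pt) : 0 < C.at' (C.mon a b e) x :=
  mn_pos h a b e _ _ (rr_pos h x)

theorem at_mon_mul (h : C.Is) (a b e a' b' e' : ℝ) (x : C.Pt) :
    C.at' (C.mon a b e) x * C.at' (C.mon a' b' e') x = C.at' (C.mon (a + a') (b + b') (e + e')) x :=
  (mon_add (a, b, e) (a', b', e') (rr_pos h x)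
    (lt_of_lt_of_le (mul_pos two_pos (rr_pos h x)) (two_le_vv ..))
    (one_pos.trans_le (one_le_ut h ..))).symm

theorem at_r (a : ℝ) (x : C.Pt) : C.at' (C.mon a 0 0) x = C.rr x ^ a := by simp [Ch.at', Ch.mon]
theorem at_r1 (x : C.Pt) : C.at' (C.mon 1 0 0) x = C.rr x := by rw [at_r, Real.rpow_one]
theorem at_r0 (x : C.Pt) : C.at' (C.mon 0 0 0) x = 1 := by rw [at_r, Real.rpow_zero]

/-- The order of the monomials. -/
theorem at_le (h : C.Is) {a b e a' b' e' : ℝ} (e1 : a + b ≤ a' + b') (e2 : b + e ≤ b' + e')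
    (e3 : a + b + e ≤ a' + b' + e') (x : C.Pt) :
    C.at' (C.mon a b e) x ≤ 4 ^ |b - b'| * C.at' (C.mon a' b' e') x := by
  have r := one_le_rr h x
  have v := two_le_vv x.1 (C.uu x) (C.rr x)
  have t := ut_le h (h.dom x)
  exact Dom.le (p := (a, b, e)) (q := (a', b', e')) ⟨e1, e2, e3⟩ r (one_le_ut h ..) (by linarith)
    (by dsimp only at t; linarith) (vv_le ..)

/-- The same with the constant 4 ^ 3. -/
theorem at_le' (h : C.Is) {a b e a' b' e' : ℝ} (e1 : a + b ≤ a' + b') (e2 : b + e ≤ b' + e')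
    (e3 : a + b + e ≤ a' + b' + e') (e4 : |b - b'| ≤ 3) (x : C.Pt) :
    C.at' (C.mon a b e) x ≤ 64 * C.at' (C.mon a' b' e') x := by
  refine (at_le h e1 e2 e3 x).trans (mul_le_mul_of_nonneg_right ?_ (at_pos h ..).le)
  refine (Real.rpow_le_rpow_of_exponent_le (by norm_num) e4).trans (le_of_eq ?_)
  rw [show (3 : ℝ) = (3 : ℕ) by norm_num, Real.rpow_natCast]; norm_num

/-- A negative power of r is small. -/
theorem rr_le_R0 (h : C.Is) {s : ℝ} (hs : s ≤ 0) (x : C.Pt) : C.rr x ^ s ≤ C.R0 x.1 ^ s :=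
  Real.rpow_le_rpow_of_nonpos (one_pos.trans_le (h.one_le _).1) (R0_le_rr h x) hs

theorem mon_deriv (a b e : ℝ) (j : C.J) (u : ℝ) {r : ℝ} (hr : 0 < r) :
    HasDerivAt (C.mon a b e j u) ((a / r + 2 * b / C.vv j u r) * C.mon a b e j u r) r := by
  have v : 0 < C.vv j u r := lt_of_lt_of_le (by positivity) (two_le_vv j u r)
  have d : HasDerivAt (C.vv j u) 2 r :=
    (((hasDerivAt_id r).const_mul 2).add_const ((u + C.ut j u) / 2)).congr_deriv (mul_one 2)
  have := (((hasDerivAt_id r).rpow_const (p := a) (Or.inl hr.ne')).mul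
    (d.rpow_const (p := b) (Or.inl v.ne'))).mul_const (C.ut j u ^ e)
  refine this.congr_deriv ?_
  simp only [Ch.mon, id, Real.rpow_sub_one hr.ne', Real.rpow_sub_one v.ne']
  field_simp

/-! ### Powers of T -/

theorem Tk_add (k : ℕ) (f g : A) : (C.T)^[k] (f + g) = (C.T)^[k] f + (C.T)^[k] g := by
  induction k generalizing f g with
  | zero => rfl
  | succ k ih => simp only [Function.iterate_succ_apply, D_add, ih]

theorem Tk_neg (k : ℕ) (f : A) : (C.T)^[k] (-f) = -(C.T)^[k] f := by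
  induction k generalizing f with
  | zero => rfl
  | succ k ih => simp only [Function.iterate_succ_apply, D_neg, ih]

theorem Tk_mul {s : A} (hs : C.T s = 0) (k : ℕ) (f : A) : (C.T)^[k] (s * f) = s * (C.T)^[k] f := by
  induction k generalizing f with
  | zero => rfl
  | succ k ih => simp only [Function.iterate_succ_apply, D_mul, hs, mul_zero, add_zero, ih]

theorem Tk_comm {φ : A → A} (hφ : ∀ f, φ (C.T f) = C.T (φ f)) (k : ℕ) (f : A) :
    φ ((C.T)^[k] f) = (C.T)^[k] (φ f) := by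
  induction k generalizing f with
  | zero => rfl
  | succ k ih => simp only [Function.iterate_succ_apply, ih, hφ]

/-! ### Symbols -/

theorem jet_fam (h : C.Is) {ι : Type} [Fintype ι] {g : ι → A} {e : Fin 5 → ι → ι → ℂ}
    (hg : ∀ a i, C.X a (g i) = ∑ l, algebraMap ℂ A (e a i l) * g l) {M : C.Pt → ℝ}
    (hM : ∀ i x, C.md x (g i) ≤ M x) (n : ℕ) : ∃ K, 0 ≤ K ∧ ∀ i x, C.jet n (g i) x ≤ K * M x := by
  induction n with
  | zero => exact ⟨1, zero_le_one, fun i x => by rw [jet_zero, one_mul]; exact hM i x⟩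
  | succ n ih =>
    obtain ⟨K, K0, hK⟩ := ih
    refine ⟨1 + (∑ i, ∑ a, ∑ l, ‖e a i l‖) * K, by positivity, fun i x => ?_⟩
    have M0 := (md0 _).trans (hM i x)
    rw [jet_succ, add_mul, one_mul, mul_assoc]
    refine add_le_add (hM i x) (le_trans ?_ (mul_le_mul_of_nonneg_right (single_le_sum
      (f := fun i => ∑ a, ∑ l, ‖e a i l‖) (fun _ _ => by positivity) (mem_univ i)) (by positivity)))
    rw [sum_mul]
    refine sum_le_sum fun a _ => ?_
    rw [hg, sum_mul]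
    refine (jet_sum ..).trans (sum_le_sum fun l _ => ?_)
    rw [jet_cst fun a => D_alg _ _, md_alg h]
    exact mul_le_mul_of_nonneg_left (hK l x) (norm_nonneg _)

variable {a b : ℝ} {f g : A}

theorem sy_pos (h : C.Is) (s : C.Sy a f) (n : ℕ) :
    ∃ K, 0 ≤ K ∧ ∀ x, C.jet n f x ≤ K * C.rr x ^ (-a) := by
  obtain ⟨K, hK⟩ := s.2 n
  exact ⟨|K|, abs_nonneg K, fun x => (hK x).trans (mul_le_mul_of_nonneg_right (le_abs_self K)
    (Real.rpow_nonneg (rr_pos h x).le _))⟩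

theorem sy_zero : C.Sy a 0 := ⟨D_zero _, fun _ => ⟨0, fun x => by rw [jet_null, zero_mul]⟩⟩

theorem sy_add (s : C.Sy a f) (t : C.Sy a g) : C.Sy a (f + g) :=
  ⟨by rw [D_add, s.1, t.1, add_zero], fun n => by
    obtain ⟨K, hK⟩ := s.2 n
    obtain ⟨L, hL⟩ := t.2 n
    exact ⟨K + L, fun x => by linarith [jet_add (x := x) n f g, hK x, hL x]⟩⟩

theorem sy_neg (s : C.Sy a f) : C.Sy a (-f) :=
  ⟨by rw [D_neg, s.1, neg_zero], fun n => by simpa only [jet_neg] using s.2 n⟩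

theorem sy_sub (s : C.Sy a f) (t : C.Sy a g) : C.Sy a (f - g) := by
  rw [sub_eq_add_neg]; exact sy_add s (sy_neg t)

theorem sy_sum {ι : Type} (s : Finset ι) {f : ι → A} (hf : ∀ i ∈ s, C.Sy a (f i)) :
    C.Sy a (∑ i ∈ s, f i) := sum_induction f (C.Sy a) (fun _ _ => sy_add) sy_zero hf

theorem sy_c (h : C.Is) (j : C.J) (s : C.Sy a f) : C.Sy a (C.c f) :=
  ⟨by rw [← T_c h j, s.1, map_zero], fun n => by simpa only [jet_c h] using s.2 n⟩

theorem sy_mono (h : C.Is) (e : b ≤ a) (s : C.Sy a f) : C.Sy b f :=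
  ⟨s.1, fun n => by
    obtain ⟨K, K0, hK⟩ := sy_pos h s n
    exact ⟨K, fun x => (hK x).trans (mul_le_mul_of_nonneg_left
      (Real.rpow_le_rpow_of_exponent_le (one_le_rr h x) (by linarith)) K0)⟩⟩

/-- Multiplication by a symbol. -/
theorem sy_jet (h : C.Is) (s : C.Sy a f) (n : ℕ) :
    ∃ K, 0 ≤ K ∧ ∀ g x, C.jet n (f * g) x ≤ K * (C.rr x ^ (-a) * C.jet n g x) := by
  obtain ⟨K, K0, hK⟩ := sy_pos h s n
  refine ⟨2 ^ n * K, by positivity, fun g x => (jet_mul_le n f g).trans ?_⟩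
  rw [mul_assoc, ← mul_assoc K]
  exact mul_le_mul_of_nonneg_left (mul_le_mul_of_nonneg_right (hK x) (jet0 ..)) (by positivity)

theorem sy_mul (h : C.Is) (s : C.Sy a f) (t : C.Sy b g) : C.Sy (a + b) (f * g) :=
  ⟨by rw [D_mul, s.1, t.1, mul_zero, mul_zero, add_zero], fun n => by
    obtain ⟨K, K0, hK⟩ := sy_jet h s n
    obtain ⟨L, hL⟩ := t.2 n
    refine ⟨K * L, fun x => (hK g x).trans ?_⟩
    rw [neg_add, Real.rpow_add (rr_pos h x), mul_assoc, mul_left_comm L]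
    exact mul_le_mul_of_nonneg_left (mul_le_mul_of_nonneg_left (hL x)
      (Real.rpow_nonneg (rr_pos h x).le _)) K0⟩

theorem sy_mul' (h : C.Is) (s : C.Sy a f) (t : C.Sy b g) {d : ℝ} (e : d ≤ a + b) :
    C.Sy d (f * g) := sy_mono h e (sy_mul h s t)

theorem sy_X (h : C.Is) (i : Fin 5) (s : C.Sy a f) : C.Sy a (C.X i f) :=
  ⟨by rw [T_X h, s.1, D_zero], fun n => by
    obtain ⟨K, hK⟩ := s.2 (n + 1)
    exact ⟨K, fun x => (jet_der n i f).trans (hK x)⟩⟩

theorem sy_cst (hk : ∀ a, C.X a f = 0) {M : ℝ} (hM : ∀ x, C.md x f ≤ M) : C.Sy 0 f :=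
  ⟨hk 0, fun n => ⟨M, fun x => by
    rw [← mul_one f, jet_cst hk, jet_one, neg_zero, Real.rpow_zero]; simpa using hM x⟩⟩

theorem sy_alg (h : C.Is) (z : ℂ) : C.Sy 0 (algebraMap ℂ A z) :=
  sy_cst (fun _ => D_alg _ z) fun _ => (md_alg h z).le
theorem sy_rl (h : C.Is) (t : ℝ) : C.Sy 0 (Ibp.rl A t) := sy_alg h _
theorem sy_nat (h : C.Is) (n : ℕ) : C.Sy 0 (n : A) := by simpa using sy_alg h n
theorem sy_one (h : C.Is) : C.Sy 0 1 := by simpa using sy_alg h 1

theorem sy_r (h : C.Is) : C.Sy (-1) C.r :=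
  ⟨T_r h, fun n => by
    obtain ⟨K, -, hK⟩ := jet_fam h (ι := Unit) (g := fun _ => C.r) (M := C.rr)
      (e := fun a _ _ => if a = 1 then 1 else 0) (fun a _ => by rw [X_r h]; split_ifs <;> simp)
      (fun _ x => (md_r h).le) n
    exact ⟨K, fun x => by simpa using hK () x⟩⟩

theorem sy_ri (h : C.Is) : C.Sy 1 C.ri :=
  ⟨X_ri h 0, fun n => by
    obtain ⟨K, -, hK⟩ := jet_fam h (ι := Unit) (g := fun _ => C.ri) (M := fun x => (C.rr x)⁻¹)
      (e := fun a _ _ => if a = 1 then -1 else 0) (fun a _ => by rw [X_ri h]; split_ifs <;> simp)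
      (fun _ x => (md_ri h).le) n
    exact ⟨K, fun x => by simpa only [Real.rpow_neg_one] using hK () x⟩⟩

theorem sy_mu (h : C.Is) (a i : Fin 3) : C.Sy 0 (C.mu a i) :=
  ⟨h.T_mu a i, fun n => by
    obtain ⟨K, -, hK⟩ := jet_fam h (g := C.mu a) (M := fun _ => 2)
      (e := Fin.cases 0 (Fin.cases 0 fun k i l => C.eo k i l))
      (fun b i => by
        revert b
        refine X_cases ?_ ?_ fun k => ?_
        · rw [X0, h.T_mu]; simp
        · rw [X1, h.R_mu, mul_zero]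
          exact (sum_eq_zero fun l _ => (congrArg (· * _) (map_zero _)).trans (zero_mul _)).symm
        · rw [XO, h.O_mu]; rfl)
      (h.mu_le a) n
    exact ⟨K * 2, fun x => by simpa using hK i x⟩⟩

theorem R_eq (h : C.Is) (f : A) : C.R f = C.ri * C.X 1 f := by
  rw [X1]; linear_combination -C.R f * h.hr

theorem an_eq' (h : C.Is) (i : Fin 3) (f : A) :
    C.an i f = ∑ l, C.mu i l * C.X l.succ.succ f := by simp only [h.an_eq, XO]

theorem sy_R (h : C.Is) (s : C.Sy a f) : C.Sy (a + 1) (C.R f) := by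
  rw [R_eq h, add_comm]; exact sy_mul h (sy_ri h) (sy_X h 1 s)

theorem sy_an (h : C.Is) (i : Fin 3) (s : C.Sy a f) : C.Sy a (C.an i f) := by
  rw [an_eq' h]
  exact sy_sum _ fun l _ => sy_mul' h (sy_mu h i l) (sy_X h _ s) (zero_add a).ge

/-- The angular fields are bounded by the letters. -/
theorem jet_an (h : C.Is) (n : ℕ) :
    ∃ K, 0 ≤ K ∧ ∀ i f x, C.jet n (C.an i f) x ≤ K * C.jet (n + 1) f x := by
  choose K K0 hK using fun i l => sy_jet h (sy_mu h i l) n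
  refine ⟨∑ i, ∑ l, K i l, sum_nonneg fun i _ => sum_nonneg fun l _ => K0 i l, fun i f x => ?_⟩
  rw [an_eq' h]
  refine (jet_sum ..).trans (le_trans ?_ (mul_le_mul_of_nonneg_right (single_le_sum
    (f := fun i => ∑ l, K i l) (fun i _ => sum_nonneg fun l _ => K0 i l) (mem_univ i)) (jet0 ..)))
  rw [sum_mul]
  refine sum_le_sum fun l _ => (hK i l _ x).trans (mul_le_mul_of_nonneg_left ?_ (K0 i l))
  rw [neg_zero, Real.rpow_zero, one_mul]; exact jet_der ..

end Vale.Agent.P354YF
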