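import Vale.Agent.P354XZ.Defs

/-!
The pointwise calculus of the jets in the far chart.
-/

namespace Vale.Agent.P354YF

open Vale.Agent.P354XG (Der D_mul D_add D_sub D_neg D_alg D_zero D_one)
open Vale.Agent.P354XI Vale.Agent.P354XZ Finset

variable {A : Type} [CommRing A] [Algebra ℂ A] {C : Ch A} {x : C.Pt}

/-! ### Values -/

theorem md0 (f : A) : 0 ≤ C.md x f := Ibp.md_nonneg _ _
theorem md_zero : C.md x 0 = 0 := by simp [Ch.md, Ibp.md]
theorem md_one : C.md x 1 = 1 := by simp [Ch.md, Ibp.md]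
theorem md_add (f g : A) : C.md x (f + g) ≤ C.md x f + C.md x g := Ibp.md_add _ _ _
theorem md_neg (f : A) : C.md x (-f) = C.md x f := Ibp.md_neg _ _
theorem md_mul (f g : A) : C.md x (f * g) = C.md x f * C.md x g := Ibp.md_mul _ _ _
theorem md_c (h : C.Is) (f : A) : C.md x (C.c f) = C.md x f := by
  rw [← h.c_eq x.1]; exact (h.ibp x.1).md_c _ _
theorem md_alg (h : C.Is) (z : ℂ) : C.md x (algebraMap ℂ A z) = ‖z‖ := by
  rw [Ch.md, Ibp.md, (h.ibp x.1).ev_alg]
theorem vl_add (f g : A) : C.val x (f + g) = C.val x f + C.val x g := Ibp.val_add _ _ _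
theorem vl_zero : C.val x 0 = 0 := by simp [Ch.val, Ibp.val]
theorem vl_sum {ι : Type} (s : Finset ι) (f : ι → A) :
    C.val x (∑ i ∈ s, f i) = ∑ i ∈ s, C.val x (f i) := Ibp.val_sum _ _ _
theorem vl_nsq (h : C.Is) (f : A) : C.val x (f * C.c f) = C.md x f ^ 2 := by
  have := (h.ibp x.1).val_nsq (w := 1) (map_one _) x.2 f
  rw [one_mul, h.c_eq] at this
  rw [Ch.val, this, Ibp.val, map_one, Complex.one_re, one_mul, Ch.md]

/-! ### The letters -/

theorem X0 (f : A) : C.X 0 f = C.T f := rfl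
theorem X1 (f : A) : C.X 1 f = C.r * C.R f := rfl
theorem XO (i : Fin 3) (f : A) : C.X i.succ.succ f = C.Om i f := by fin_cases i <;> rfl

/-- Case distinction on the letters. -/
theorem X_cases {P : Fin 5 → Prop} (h0 : P 0) (h1 : P 1) (h2 : ∀ i : Fin 3, P i.succ.succ)
    (a : Fin 5) : P a := by
  refine Fin.cases h0 (Fin.cases h1 h2) a

theorem T_r (h : C.Is) : C.T C.r = 0 := h.D_r 0
theorem R_r (h : C.Is) : C.R C.r = 1 := h.D_r 1
theorem an_r (h : C.Is) (b : Fin 3) : C.an b C.r = 0 := by simp [h.an_eq, h.O_r]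

theorem D_ri (h : C.Is) (D : Der A) : D C.ri = -(C.ri * C.ri * D C.r) := by
  have := congrArg D h.hr
  rw [D_mul, D_one] at this
  linear_combination C.ri * this - D C.ri * h.hr

theorem X_r (h : C.Is) (a : Fin 5) : C.X a C.r = if a = 1 then C.r else 0 := by
  refine X_cases (P := fun a => C.X a C.r = if a = 1 then C.r else 0) ?_ ?_ (fun i => ?_) a
  · rw [X0, T_r h]; rfl
  · rw [X1, R_r h, mul_one]; rfl
  · rw [XO, h.O_r, if_neg (by fin_cases i <;> decide)]

theorem X_ri (h : C.Is) (a : Fin 5) : C.X a C.ri = if a = 1 then -C.ri else 0 := by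
  rw [D_ri h, X_r h]
  split_ifs
  · linear_combination -C.ri * h.hr
  · simp

theorem cc (h : C.Is) (j : C.J) (f : A) : C.c (C.c f) = f := by
  rw [← h.c_eq j]; exact (h.ibp j).cc f
theorem T_c (h : C.Is) (j : C.J) (f : A) : C.c (C.T f) = C.T (C.c f) := by
  rw [← h.c_eq j]; exact (h.skT j).re f
theorem R_c (h : C.Is) (j : C.J) (f : A) : C.c (C.R f) = C.R (C.c f) := by
  rw [← h.c_eq j]; exact (h.skR j).re f
theorem O_c (h : C.Is) (j : C.J) (i : Fin 3) (f : A) : C.c (C.Om i f) = C.Om i (C.c f) := by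
  rw [← h.c_eq j]; exact (h.skO j i).re f

theorem X_c (h : C.Is) (j : C.J) (a : Fin 5) (f : A) : C.c (C.X a f) = C.X a (C.c f) := by
  refine X_cases (P := fun a => C.c (C.X a f) = C.X a (C.c f)) ?_ ?_ (fun i => ?_) a
  · exact T_c h j f
  · rw [X1, X1, map_mul, h.c_r, R_c h j]
  · rw [XO, XO, O_c h j]

/-- A derivation which commutes with T, R, Om and kills r commutes with the letters. -/
theorem X_comm {D : Der A} (hT : ∀ f, D (C.T f) = C.T (D f)) (hR : ∀ f, D (C.R f) = C.R (D f))
    (hO : ∀ i f, D (C.Om i f) = C.Om i (D f)) (hr : D C.r = 0) (a : Fin 5) (f : A) :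
    D (C.X a f) = C.X a (D f) := by
  refine X_cases (P := fun a => D (C.X a f) = C.X a (D f)) (hT f) ?_ (fun i => ?_) a
  · rw [X1, X1, D_mul, hr, hR, mul_zero, add_zero]
  · rw [XO, XO, hO]

theorem T_X (h : C.Is) (a : Fin 5) (f : A) : C.T (C.X a f) = C.X a (C.T f) :=
  X_comm (fun _ => rfl) (h.T_D 1) (fun i f => (h.O_D i 0 f).symm) (T_r h) a f

theorem S_X (h : C.Is) (a : Fin 5) (f : A) : C.S (C.X a f) = C.X a (C.S f) :=
  X_comm (h.S_D 0) (h.S_D 1) h.S_O h.S_r a f

theorem an_X (h : C.Is) (b : Fin 3) (a : Fin 5) (f : A) : C.an b (C.X a f) = C.X a (C.an b f) := by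
  have e : C.D b.succ.succ = C.an b := by fin_cases b <;> rfl
  refine X_comm (fun f => ?_) (fun f => ?_) (fun i f => ?_) (an_r h b) a f <;> rw [← e]
  exacts [(h.T_D _ f).symm, (h.R_D _ f).symm, (h.O_D i _ f).symm]

theorem R_X (h : C.Is) (a : Fin 5) (f : A) :
    C.R (C.X a f) = C.X a (C.R f) + if a = 1 then C.R f else 0 := by
  refine X_cases (P := fun a => C.R (C.X a f) = C.X a (C.R f) + if a = 1 then C.R f else 0)
    ?_ ?_ (fun i => ?_) a
  · rw [if_neg (by decide), add_zero]; exact h.R_D 0 f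
  · rw [if_pos rfl, X1, X1, D_mul, R_r h, mul_one]
  · rw [if_neg (by fin_cases i <;> decide), add_zero, XO, XO]; exact (h.O_D i 1 f).symm

/-- The letter r R commutes with all letters. -/
theorem X1_X (h : C.Is) (a : Fin 5) (f : A) : C.X 1 (C.X a f) = C.X a (C.X 1 f) := by
  rw [X1, X1, R_X h, D_mul, X_r h]
  split_ifs <;> ring

theorem X_N (h : C.Is) (a : Fin 5) : C.X a C.N = 0 := by
  refine X_cases (P := fun a => C.X a C.N = 0) (h.D_N 0) ?_ (fun i => ?_) a
  · rw [X1, show C.R C.N = 0 from h.D_N 1, mul_zero]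
  · rw [XO, h.O_N]

theorem vf_ap (b : Fin 5 → A) (f : A) : C.vf b f = b 0 * C.T f + b 1 * C.R f + b 2 * C.an 0 f +
    b 3 * C.an 1 f + b 4 * C.an 2 f := by
  simp only [Ch.vf, Fin.sum_univ_five, Derivation.add_apply, Derivation.smul_apply, smul_eq_mul]
  rfl

/-- The commutator of a letter with a tangent field. -/
theorem X_vf (h : C.Is) (a : Fin 5) (b : Fin 5 → A) (f : A) : C.X a (C.vf b f) =
    C.vf b (C.X a f) + C.vf (fun i => C.X a (b i)) f - if a = 1 then b 1 * C.R f else 0 := by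
  simp only [vf_ap, D_add, D_mul, T_X h, R_X h, an_X h]
  split_ifs <;> ring

/-! ### The jets -/

theorem je0 (n : ℕ) (f : A) : 0 ≤ C.je n f x := by
  induction n generalizing f with
  | zero => exact md0 f
  | succ n ih => exact sum_nonneg fun a _ => ih _

theorem jet0 (n : ℕ) (f : A) : 0 ≤ C.jet n f x := sum_nonneg fun _ _ => je0 _ _

theorem jet_zero (f : A) : C.jet 0 f x = C.md x f := by simp [Ch.jet, Ch.je]

theorem jet_succ (n : ℕ) (f : A) : C.jet (n + 1) f x = C.md x f + ∑ a, C.jet n (C.X a f) x := by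
  rw [Ch.jet, sum_range_succ', add_comm]
  simp only [Ch.je, Ch.jet]
  rw [sum_comm]

theorem je_le_jet (n : ℕ) (f : A) : C.je n f x ≤ C.jet n f x :=
  single_le_sum (f := fun i => C.je i f x) (fun _ _ => je0 _ _) (self_mem_range_succ n)

theorem jet_mono {m n : ℕ} (e : m ≤ n) (f : A) : C.jet m f x ≤ C.jet n f x :=
  sum_le_sum_of_subset_of_nonneg (range_mono (by omega)) fun _ _ _ => je0 _ _

theorem md_le_jet (n : ℕ) (f : A) : C.md x f ≤ C.jet n f x :=
  (jet_zero f).ge.trans (jet_mono (Nat.zero_le n) f)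

theorem sum_jet_le (n : ℕ) (f : A) : ∑ a, C.jet n (C.X a f) x ≤ C.jet (n + 1) f x := by
  rw [jet_succ]; exact le_add_of_nonneg_left (md0 f)

theorem jet_der (n : ℕ) (a : Fin 5) (f : A) : C.jet n (C.X a f) x ≤ C.jet (n + 1) f x :=
  (single_le_sum (f := fun a => C.jet n (C.X a f) x) (fun _ _ => jet0 _ _) (mem_univ a)).trans
    (sum_jet_le n f)

theorem jet_null (n : ℕ) : C.jet n 0 x = 0 := by
  induction n with
  | zero => rw [jet_zero, md_zero]
  | succ n ih => simp [jet_succ, md_zero, ih]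

theorem jet_neg (n : ℕ) (f : A) : C.jet n (-f) x = C.jet n f x := by
  induction n generalizing f with
  | zero => rw [jet_zero, jet_zero, md_neg]
  | succ n ih => simp only [jet_succ, md_neg, D_neg, ih]

theorem jet_add (n : ℕ) (f g : A) : C.jet n (f + g) x ≤ C.jet n f x + C.jet n g x := by
  induction n generalizing f g with
  | zero => simpa only [jet_zero] using md_add f g
  | succ n ih =>
    simp only [jet_succ, D_add]
    have := sum_le_sum fun a (_ : a ∈ univ) => ih (C.X a f) (C.X a g)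
    rw [sum_add_distrib] at this
    linarith [md_add (x := x) f g]

theorem jet_sub (n : ℕ) (f g : A) : C.jet n (f - g) x ≤ C.jet n f x + C.jet n g x := by
  have := jet_add (x := x) n f (-g)
  rwa [jet_neg, ← sub_eq_add_neg] at this

theorem jet_sum {ι : Type} (s : Finset ι) (n : ℕ) (f : ι → A) :
    C.jet n (∑ i ∈ s, f i) x ≤ ∑ i ∈ s, C.jet n (f i) x := by
  classical
  induction s using Finset.induction_on with
  | empty => simp [jet_null]
  | insert i s hi ih => rw [sum_insert hi, sum_insert hi]; linarith [jet_add (x := x) n (f i) (∑ i ∈ s, f i)]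

/-- A factor which is killed by all letters. -/
theorem jet_cst {k : A} (hk : ∀ a, C.X a k = 0) (n : ℕ) (f : A) :
    C.jet n (k * f) x = C.md x k * C.jet n f x := by
  induction n generalizing f with
  | zero => rw [jet_zero, jet_zero, md_mul]
  | succ n ih => simp only [jet_succ, md_mul, D_mul, hk, mul_zero, add_zero, ih, mul_add, mul_sum]

theorem jet_one (n : ℕ) : C.jet n 1 x = 1 := by
  cases n with
  | zero => rw [jet_zero, md_one]
  | succ n => simp [jet_succ, md_one, jet_null]

theorem jet_c (h : C.Is) (n : ℕ) (f : A) : C.jet n (C.c f) x = C.jet n f x := by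
  induction n generalizing f with
  | zero => rw [jet_zero, jet_zero, md_c h]
  | succ n ih => simp only [jet_succ, md_c h, ← X_c h x.1, ih]

/-- The Leibniz rule. -/
theorem jet_mul_le (n : ℕ) (f g : A) : C.jet n (f * g) x ≤ 2 ^ n * (C.jet n f x * C.jet n g x) := by
  induction n generalizing f g with
  | zero => simp [jet_zero, md_mul]
  | succ n ih =>
    have e : ∑ a, C.jet n (C.X a (f * g)) x ≤ ∑ a, (2 ^ n * C.jet n f x * C.jet n (C.X a g) x +
        2 ^ n * C.jet n g x * C.jet n (C.X a f) x) := sum_le_sum fun a _ => by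
      rw [D_mul]; linarith [jet_add (x := x) n (f * C.X a g) (g * C.X a f), ih f (C.X a g), ih g (C.X a f)]
    rw [sum_add_distrib, ← mul_sum, ← mul_sum] at e
    have f1 := jet_mono (x := x) n.le_succ f
    have g1 := jet_mono (x := x) n.le_succ g
    rw [jet_succ] at f1 g1
    rw [jet_succ, jet_succ, jet_succ, md_mul, pow_succ]
    have p : (1 : ℝ) ≤ 2 ^ n := one_le_pow₀ one_le_two
    have a0 := sum_nonneg fun a (_ : a ∈ univ) => jet0 (x := x) n (C.X a f)
    have b0 := sum_nonneg fun a (_ : a ∈ univ) => jet0 (x := x) n (C.X a g)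
    have f0 := md0 (x := x) f
    have g0 := md0 (x := x) g
    have := mul_le_mul_of_nonneg_left (add_le_add (mul_le_mul_of_nonneg_right f1 b0)
      (mul_le_mul_of_nonneg_right g1 a0)) (zero_le_one.trans p)
    nlinarith [mul_nonneg f0 g0, mul_nonneg f0 b0, mul_nonneg g0 a0, mul_nonneg a0 b0,
      mul_nonneg (sub_nonneg.2 p) (mul_nonneg f0 g0), mul_nonneg (zero_le_one.trans p)
      (add_nonneg (mul_nonneg f0 b0) (mul_nonneg g0 a0))]

/-- One of the two factors is of low order. -/
theorem jet_mul_split {n m m' : ℕ} (e : n ≤ m + m' + 1) (f g : A) : C.jet n (f * g) x ≤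
    2 ^ n * (C.jet m f x * C.jet n g x + C.jet n f x * C.jet m' g x) := by
  induction n generalizing m m' f g with
  | zero =>
    rw [jet_zero, jet_zero, jet_zero, md_mul, pow_zero, one_mul]
    nlinarith [mul_le_mul_of_nonneg_right (md_le_jet (x := x) m f) (md0 (x := x) g),
      mul_nonneg (md0 (x := x) f) (jet0 (x := x) m' g)]
  | succ n ih =>
    have p : (1 : ℝ) ≤ 2 ^ n := one_le_pow₀ one_le_two
    have p0 := zero_le_one.trans p
    have key : ∀ {m m' : ℕ} (f g : A), n + 1 ≤ m + m' + 1 → ∑ a, C.jet n (f * C.X a g) x ≤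
        2 ^ n * (C.jet m f x * (C.jet (n + 1) g x - C.md x g) + C.jet (n + 1) f x * C.jet m' g x) := by
      intro m m' f g e
      have t := mul_nonneg (jet0 (x := x) (n + 1) f) (jet0 (x := x) m' g)
      rw [jet_succ n g, add_sub_cancel_left]
      cases m' with
      | zero =>
        refine (sum_le_sum fun a _ => (jet_mul_le n f (C.X a g)).trans (mul_le_mul_of_nonneg_left
          (mul_le_mul_of_nonneg_right (jet_mono (m := n) (n := m) (by omega) f) (jet0 _ _)) p0)).trans ?_
        rw [← mul_sum, ← mul_sum]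
        exact mul_le_mul_of_nonneg_left (le_add_of_nonneg_right t) p0
      | succ m' =>
        refine (sum_le_sum fun a _ => ih (m := m) (m' := m') (by omega) f (C.X a g)).trans ?_
        rw [← mul_sum, sum_add_distrib, ← mul_sum, ← mul_sum]
        exact mul_le_mul_of_nonneg_left (add_le_add le_rfl (mul_le_mul (jet_mono n.le_succ f)
          (sum_jet_le m' g) (sum_nonneg fun _ _ => jet0 _ _) (jet0 _ _))) p0
    have k1 := key f g e
    have k2 := key (m := m') (m' := m) g f (by omega)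
    have e : ∑ a, C.jet n (C.X a (f * g)) x ≤ ∑ a, (C.jet n (f * C.X a g) x +
        C.jet n (g * C.X a f) x) := sum_le_sum fun a _ => by rw [D_mul]; exact jet_add ..
    rw [sum_add_distrib] at e
    rw [jet_succ n (f * g), md_mul, pow_succ]
    have q := mul_le_mul_of_nonneg_right (md_le_jet (x := x) m f) (md0 (x := x) g)
    nlinarith [mul_nonneg (sub_nonneg.2 p) (mul_nonneg (jet0 (x := x) m f) (md0 (x := x) g)),
      mul_nonneg p0 (mul_nonneg (jet0 (x := x) m' g) (md0 (x := x) f))]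

/-! ### Words -/

theorem wd_append (I I' : List (Fin 5)) (f : A) : C.wd (I ++ I') f = C.wd I' (C.wd I f) := by
  induction I generalizing f with
  | nil => rfl
  | cons a I ih => exact ih _

theorem wd_add (I : List (Fin 5)) (f g : A) : C.wd I (f + g) = C.wd I f + C.wd I g := by
  induction I generalizing f g with
  | nil => rfl
  | cons a I ih => simp only [Ch.wd, D_add, ih]

theorem wd_cst {k : A} (hk : ∀ a, C.X a k = 0) (I : List (Fin 5)) (f : A) :
    C.wd I (k * f) = k * C.wd I f := by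
  induction I generalizing f with
  | nil => rfl
  | cons a I ih => simp only [Ch.wd, D_mul, hk, mul_zero, add_zero, ih]

theorem wd_comm {φ : A → A} (hφ : ∀ a f, φ (C.X a f) = C.X a (φ f)) (I : List (Fin 5)) (f : A) :
    φ (C.wd I f) = C.wd I (φ f) := by
  induction I generalizing f with
  | nil => rfl
  | cons a I ih => simp only [Ch.wd, ih, hφ]

theorem jet_wd (I : List (Fin 5)) (n : ℕ) (f : A) :
    C.jet n (C.wd I f) x ≤ C.jet (n + I.length) f x := by
  induction I generalizing f with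
  | nil => exact le_rfl
  | cons a I ih => exact (ih _).trans (jet_der _ a f)

theorem md_wd (I : List (Fin 5)) (f : A) : C.md x (C.wd I f) ≤ C.jet I.length f x := by
  simpa only [jet_zero, zero_add] using jet_wd (x := x) I 0 f

theorem jet_Tk (k n : ℕ) (f : A) : C.jet n ((C.T)^[k] f) x ≤ C.jet (n + k) f x := by
  induction k generalizing f with
  | zero => exact le_rfl
  | succ k ih => exact (ih _).trans (jet_der _ 0 f)

/-! ### Sums of squares -/

theorem sw_re (h : C.Is) (j : C.J) (n k : ℕ) (f : A) : C.c (C.sw n k f) = C.sw n k f := by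
  induction n generalizing k f with
  | zero => rw [Ch.sw]; split_ifs; exacts [by rw [map_mul, cc h j, mul_comm], map_zero _]
  | succ n ih => simp only [Ch.sw, map_sum, ih]

theorem sl_re (h : C.Is) (j : C.J) (n : ℕ) (f : A) : C.c (C.sl n f) = C.sl n f := by
  simp only [Ch.sl, map_sum, sw_re h j]

theorem vl_sw00 (h : C.Is) (f : A) : C.val x (C.sw 0 0 f) = C.md x f ^ 2 := vl_nsq h f

theorem vl_sw0 (h : C.Is) (n k : ℕ) (f : A) : 0 ≤ C.val x (C.sw n k f) := by
  induction n generalizing k f with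
  | zero => rw [Ch.sw]; split_ifs; exacts [by rw [vl_nsq h]; positivity, vl_zero.ge]
  | succ n ih => rw [Ch.sw, vl_sum]; exact sum_nonneg fun a _ => ih _ _

theorem vl_sw_mono (h : C.Is) (n : ℕ) {k k' : ℕ} (e : k ≤ k') (f : A) :
    C.val x (C.sw n k' f) ≤ C.val x (C.sw n k f) := by
  induction n generalizing k k' f with
  | zero =>
    by_cases c : k' = 0
    · rw [c, show k = 0 by omega]
    · rw [Ch.sw, if_neg c, vl_zero]; exact vl_sw0 h ..
  | succ n ih => rw [Ch.sw, Ch.sw, vl_sum, vl_sum]; exact sum_le_sum fun a _ => ih (by omega) _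

theorem md_wd_sw (h : C.Is) (I : List (Fin 5)) {k : ℕ} (e : k ≤ Ch.om I) (f : A) :
    C.md x (C.wd I f) ^ 2 ≤ C.val x (C.sw I.length k f) := by
  induction I generalizing k f with
  | nil => rw [show k = 0 from Nat.le_zero.1 e]; exact (vl_sw00 h f).ge
  | cons a I ih =>
    rw [List.length_cons, Ch.sw, vl_sum]
    refine (ih (k := k - Ch.om1 a) ?_ _).trans (single_le_sum
      (f := fun a => C.val x (C.sw I.length (k - Ch.om1 a) (C.X a f))) (fun _ _ => vl_sw0 h ..)
      (mem_univ a))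
    simp only [Ch.om, List.map_cons, List.sum_cons] at e ⊢
    omega

theorem sl_one (f : A) : C.sl 1 f = f * C.c f := by simp [Ch.sl, Ch.sw]

theorem sl_succ (n : ℕ) (f : A) : C.sl (n + 1) f = f * C.c f + ∑ a, C.sl n (C.X a f) := by
  rw [Ch.sl, sum_range_succ', add_comm]
  simp only [Ch.sw, Ch.sl, Nat.zero_sub, if_true]
  rw [sum_comm]

theorem vl_sl0 (h : C.Is) (n : ℕ) (f : A) : 0 ≤ C.val x (C.sl n f) := by
  rw [Ch.sl, vl_sum]; exact sum_nonneg fun _ _ => vl_sw0 h ..

theorem vl_sl_mono (h : C.Is) {m n : ℕ} (e : m ≤ n) (f : A) :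
    C.val x (C.sl m f) ≤ C.val x (C.sl n f) := by
  rw [Ch.sl, Ch.sl, vl_sum, vl_sum]
  exact sum_le_sum_of_subset_of_nonneg (range_mono e) fun _ _ _ => vl_sw0 h ..

theorem vl_sw_le_sl (h : C.Is) (n k : ℕ) (f : A) :
    C.val x (C.sw n k f) ≤ C.val x (C.sl (n + 1) f) := by
  rw [Ch.sl, sum_range_succ, vl_add]
  exact (vl_sw_mono h n (Nat.zero_le k) f).trans (le_add_of_nonneg_left (vl_sl0 h n f))

theorem vl_sl_le (h : C.Is) (n : ℕ) (f : A) : C.val x (C.sl (n + 1) f) ≤ C.jet n f x ^ 2 := by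
  induction n generalizing f with
  | zero => rw [zero_add, sl_one, vl_nsq h, jet_zero]
  | succ n ih =>
    rw [sl_succ, vl_add, vl_nsq h, vl_sum, jet_succ]
    have := (sum_le_sum fun a (_ : a ∈ univ) => ih (C.X a f)).trans
      (sum_sq_le_sq_sum_of_nonneg fun a _ => jet0 (x := x) n (C.X a f))
    nlinarith [mul_nonneg (md0 (x := x) f)
      (sum_nonneg fun a (_ : a ∈ univ) => jet0 (x := x) n (C.X a f))]

theorem jet_sq_le (h : C.Is) (n : ℕ) (f : A) :
    C.jet n f x ^ 2 ≤ 10 ^ n * C.val x (C.sl (n + 1) f) := by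
  induction n generalizing f with
  | zero => rw [zero_add, sl_one, vl_nsq h, jet_zero, pow_zero, one_mul]
  | succ n ih =>
    rw [sl_succ, vl_add, vl_nsq h, vl_sum, jet_succ, pow_succ (10 : ℝ)]
    have e1 := sq_sum_le_card_mul_sum_sq (s := univ) (f := fun a => C.jet n (C.X a f) x)
    have e2 := sum_le_sum fun a (_ : a ∈ univ) => ih (C.X a f)
    rw [← mul_sum] at e2
    rw [card_univ, Fintype.card_fin] at e1
    have p : (1 : ℝ) ≤ 10 ^ n := one_le_pow₀ (by norm_num)
    push_cast at e1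
    nlinarith [sq_nonneg (C.md x f - ∑ a, C.jet n (C.X a f) x),
      mul_nonneg (sub_nonneg.2 p) (sq_nonneg (C.md x f))]

end Vale.Agent.P354YF
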