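import Vale.Agent.P354YF.Fte3
import Vale.Agent.P354FY.Vw
import Vale.Agent.P354BO.Q2

/-!
The raw bounds in the far chart of a family of states; the passage between charts.
-/

noncomputable section

namespace Vale.Agent.P354YF

open Vale.Agent.P354XG Vale.Agent.P354XD Vale.Agent.P354XI Vale.Agent.P354XR Vale.Agent.P354Z
open Vale.Agent.P354XZ (Gi Lt NF)
open Vale.Agent.P354YK (Fm out onc omc cm_V alp hhom_Om hpi_hom)
open Vale.Agent.P354FA (Vw val bw)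
open Vale.Agent.P354FX (dv)
open Vale.Agent.P354BO (q2_val q2_der q2_nonneg)
open Finset

/-- The differences to Kerr. -/
def dd (Φ : Fm) (i : Ix) : Φ.A := fun j => (Φ.E j).d2 (Φ.c j) i

variable {Φ : Fm} (h : Φ.Ok)

/-- The raw bounds. -/
abbrev Rw (n N : ℕ) (e : ℝ) (x : h.ch.Pt) : Prop :=
  Raw h.ch Φ.nf Φ.nf0 (Vw Φ.nf Φ.nf0 h.ch) n N e x

include h

theorem dd_n (e : Fin 6) : dd Φ (.inl (1, e)) =
    (fun j => cm (hp _) ((Φ.E j).p2 (Φ.c j)) (Φ.E j).G2.tp e) - onc Φ.kc e := funext fun j =>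
  congrArg₂ (· - ·) rfl ((congrFun (cm_V (h.og j).is _ _ _ _ _ _) e).trans (by fin_cases e <;> rfl))

theorem dd_m (e : Fin 6) : dd Φ (.inl (2, e)) =
    (fun j => cm (hp _) ((Φ.E j).p2 (Φ.c j)) (Φ.E j).G2.et e) - omc Φ.kc e := funext fun j =>
  congrArg₂ (· - ·) rfl ((congrFun (cm_V (h.og j).is _ _ _ _ _ _) e).trans (by fin_cases e <;> rfl))

omit h in
theorem dd_s (i : Fin 13) : dd Φ (.inr i) = sc Φ.G i - sc (out Φ.kc) i := by fin_cases i <;> rfl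

theorem al_rel : Φ.nf.mc 0 = (h.ch.r * h.ch.c Φ.al + h.ch.c (ii _ * Φ.kc.a * Φ.kc.s)) * Φ.nf.mc 2 +
    (h.ch.r * Φ.al + ii _ * Φ.kc.a * Φ.kc.s) * Φ.nf.mc 3 := by
  have e : h.ch.r * Φ.al + ii _ * Φ.kc.a * Φ.kc.s =
      fun j => -P354YK.la (hp _) (ge _ (Φ.E j).g) (Φ.E j).F2.l 1 := funext fun j => by
    have := (h.og j).is.hr
    change (hp _).z 1 * alp _ _ _ _ + ii _ * ((Φ.E j).p2 (Φ.c j)).a * (hp _).kc.s = _
    rw [alp]
    linear_combination -(P354YK.la (hp _) (ge _ (Φ.E j).g) (Φ.E j).F2.l 1 +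
      ii _ * ((Φ.E j).p2 (Φ.c j)).a * (hp _).kc.s) * this
  rw [← h.is.c_r, ← map_mul, ← map_add, h.is.c_r, e]
  funext j
  have a := (h.og j).la_m
  have b := congrArg (hp _).c (h.og j).c_la
  rw [(h.og j).is.cc] at b
  change cm _ _ (Fr.ghp _ _).et 0 = (hp (on (Φ.E j).O2)).c (-_) * cm _ _ (Fr.ghp _ _).et 2 +
    -_ * cm _ _ (Fr.ghp _ _).et 3
  rw [map_neg, ← b]
  linear_combination a

theorem om_a : P354FX.OmA h.ch := by
  have s := fun a i => sy_mul' h.is h.cmp.z_hf.sy (sy_mu h.is a i) (zero_add 0).ge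
  refine ⟨fun i => ![Geo.hf _ * h.ch.mu 1 i, Geo.hf _ * h.ch.mu 0 i,
    -(Geo.hf _ * (Geo.hf _ * h.ch.mu 2 i))], fun i a => ?_, fun i f => ?_⟩
  · fin_cases a
    exacts [s 1 i, s 0 i, sy_neg (sy_mul' h.is h.cmp.z_hf.sy (s 2 i) (zero_add 0).ge)]
  · rw [Fin.sum_univ_three]
    change Om Φ.hK i f = Geo.hf _ * -(ii _ * wm Φ.hK i) * Φ.hK.P f +
      Geo.hf _ * (ii _ * wb Φ.hK i) * Φ.hK.Q f +
      -(Geo.hf _ * (Geo.hf _ * (2 * (ii _ * ww Φ.hK i)))) * (Φ.hK.H f - Φ.hK.B f)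
    rw [Om_eq h.hK_is]
    linear_combination Geo.hf _ * ii _ * ww Φ.hK i * (Φ.hK.H f - Φ.hK.B f) * Geo.two_hf (A := Φ.A)

theorem jet_q2 (P : h.ch.Pt → Prop) (s : Fin 5 → Φ.A) (Z : Fin 5 → Φ.A → Φ.A)
    (Y : ∀ j, Fin 5 → Der (Sm (on (Φ.E j).O2))) (e1 : ∀ a f, h.ch.X a f = s a * Z a f)
    (e2 : ∀ a f j, Z a f j = Y j a (f j))
    (hs : ∀ n a, ∃ K, 0 ≤ K ∧ ∀ g x, P x → h.ch.jet n (s a * g) x ≤ K * h.ch.jet n g x) (n : ℕ) :
    ∃ B, 0 ≤ B ∧ ∀ f x, P x → h.ch.jet n f x ≤ B * √(P354Z.q2 (Y x.1) (h.pt x) n (f x.1)) := by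
  have z : ∀ n f x, h.ch.md x f ≤ √(P354Z.q2 (Y x.1) (h.pt x) n (f x.1)) := fun n f x =>
    Real.le_sqrt_of_sq_le (q2_val _ _ n _)
  induction n with
  | zero => exact ⟨1, zero_le_one, fun f x _ => by rw [jet_zero, one_mul]; exact z 0 f x⟩
  | succ n ih =>
    obtain ⟨B, B0, hB⟩ := ih
    choose K K0 hK using hs n
    refine ⟨1 + ∑ a, K a * B, add_nonneg zero_le_one (sum_nonneg fun a _ => mul_nonneg (K0 a) B0),
      fun f x p => ?_⟩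
    rw [jet_succ, add_mul, one_mul, sum_mul]
    refine add_le_add (z _ f x) (sum_le_sum fun a _ => ?_)
    rw [e1, mul_assoc]
    refine (hK a _ x p).trans (mul_le_mul_of_nonneg_left ((hB _ x p).trans
      (mul_le_mul_of_nonneg_left (Real.sqrt_le_sqrt ?_) B0)) (K0 a))
    exact (congrArg (P354Z.q2 _ _ n) (e2 a f x.1)).le.trans (q2_der _ _ n a _)

theorem jet_ll (n : ℕ) : ∃ B, 0 ≤ B ∧ ∀ f x,
    h.ch.jet n f x ≤ B * √(P354Z.q2 (ll (hp _) ((Φ.E x.1).p2 (Φ.c x.1))) (h.pt x) n (f x.1)) := by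
  obtain ⟨B, B0, hB⟩ := jet_q2 h (fun _ => True) ![h.ch.ri, 1, 1, 1, 1]
    ![fun f => h.ch.r * h.ch.T f, h.ch.X 1, h.ch.X 2, h.ch.X 3, h.ch.X 4]
    (fun j => ll (hp _) ((Φ.E j).p2 (Φ.c j))) (fun a f => by
      fin_cases a
      · change h.ch.T f = h.ch.ri * (h.ch.r * h.ch.T f)
        linear_combination -h.ch.T f * h.is.hr
      all_goals exact (one_mul _).symm)
    (fun a f j => by
      fin_cases a
      exacts [rfl, h.X_ap 1 f j, h.X_ap 2 f j, h.X_ap 3 f j, h.X_ap 4 f j])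
    (fun n a => by
      obtain ⟨K, K0, hK⟩ := sy_jet h.is (a := 0) (f := ![h.ch.ri, 1, 1, 1, 1] a) (by
        fin_cases a
        exacts [sy_mono h.is zero_le_one (sy_ri h.is), sy_one h.is, sy_one h.is, sy_one h.is,
          sy_one h.is]) n
      exact ⟨K, K0, fun g x _ => by simpa using hK g x⟩) n
  exact ⟨B, B0, fun f x => hB f x trivial⟩

theorem jet_lt (n : ℕ) (ρ : ℝ) : ∃ B, 0 ≤ B ∧ ∀ f x, h.ch.rr x ≤ ρ →
    h.ch.jet n f x ≤ B * √(P354Z.q2 (lt (hp _) ((Φ.E x.1).p2 (Φ.c x.1))) (h.pt x) n (f x.1)) :=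
  jet_q2 h (fun x => h.ch.rr x ≤ ρ) ![1, h.ch.r, 1, 1, 1]
    ![h.ch.T, h.ch.R, h.ch.X 2, h.ch.X 3, h.ch.X 4]
    (fun j => lt (hp _) ((Φ.E j).p2 (Φ.c j))) (fun a f => by
      fin_cases a
      exacts [(one_mul _).symm, rfl, (one_mul _).symm, (one_mul _).symm, (one_mul _).symm])
    (fun a f j => by
      fin_cases a
      exacts [rfl, Fm.Ok.R_ap f j, h.X_ap 2 f j, h.X_ap 3 f j, h.X_ap 4 f j])
    (fun n a => by
      have o := sy_mono h.is (show (-1 : ℝ) ≤ 0 by norm_num) (sy_one h.is)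
      obtain ⟨K, K0, hK⟩ := sy_jet h.is (a := -1) (f := ![1, h.ch.r, 1, 1, 1] a) (by
        fin_cases a
        exacts [o, sy_r h.is, o, o, o]) n
      refine ⟨K * |ρ|, by positivity, fun g x p => (hK g x).trans ?_⟩
      rw [neg_neg, Real.rpow_one, mul_assoc]
      exact mul_le_mul_of_nonneg_left (mul_le_mul_of_nonneg_right (p.trans (le_abs_self ρ))
        (jet0 ..)) K0) n

variable (hR : ∀ j, 4 * Φ.M0 ≤ Φ.R0 j)
include hR

theorem a_le (x : h.ch.Pt) : 3 * h.ch.md x Φ.kc.a ≤ h.ch.rr x := by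
  have e := (h.eqs x.1).par
  have a : h.ch.md x Φ.kc.a = |(Φ.E x.1).a| :=
    (congrArg norm (P354YK.fv_rs (rs_cst _) (h.pt_mem x).1)).trans (Complex.norm_real _)
  have r : Φ.R0 x.1 ≤ _ := R0_le_rr h.is x
  rw [h.M x.1] at e
  linarith [hR x.1, e.1, e.2, abs_nonneg (Φ.E x.1).a]

theorem raw_dd (N : ℕ) : ∃ B, 0 ≤ B ∧ ∀ x e, e ≤ 1 / 10 →
    (∀ i, h.ch.jet N (dd Φ i) x ≤ e * h.ch.rr x ^ (-(dm i : ℝ))) → Rw h N N (B * e) x :=
  raw_d h.cmp (dd_n h) (dd_m h) dd_s h.ga (a_le h hR) (al_rel h) N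

/-- The layer along the initial slice. -/
theorem raw_lay (N : ℕ) : ∃ c > 0, ∃ B, 0 ≤ B ∧ ∀ (x : h.ch.Pt) (e : ℝ), 0 ≤ e → e ≤ c →
    (∀ i, P354Z.q2 (ll (hp _) ((Φ.E x.1).p2 (Φ.c x.1))) (h.pt x) N ((Φ.E x.1).d2 (Φ.c x.1) i) ≤
      (e / (h.pt x).2.1 ^ dm i) ^ 2) → Rw h N N (B * e) x := by
  obtain ⟨B, B0, hB⟩ := raw_dd h hR N
  obtain ⟨K, K0, hK⟩ := jet_ll h N
  refine ⟨1 / (10 * (K + 1)), by positivity, B * K, mul_nonneg B0 K0, fun x e e0 e1 a => ?_⟩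
  have k : K * e ≤ 1 / 10 := by rw [le_div_iff₀ (by positivity)] at e1; linarith
  have r : 0 < (h.pt x).2.1 := (rr_pos h.is x).trans_eq (h.rr_eq x)
  rw [mul_assoc]
  refine hB x _ k fun i => (hK (dd Φ i) x).trans ?_
  have b := mul_le_mul_of_nonneg_left
    (Real.sqrt_le_iff.2 ⟨div_nonneg e0 (pow_nonneg r.le _), a i⟩) K0
  refine b.trans_eq ?_
  rw [h.rr_eq, Real.rpow_neg r.le, Real.rpow_natCast, div_eq_mul_inv, mul_assoc]

/-- Bounded radii, low order. -/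
theorem raw_low (n : ℕ) (ρ : ℝ) : ∃ c > 0, ∃ B, 0 ≤ B ∧ ∀ x (d : ℝ), h.ch.rr x ≤ ρ → 0 ≤ d → d ≤ c →
    (∀ i, P354Z.q2 (lt (hp _) ((Φ.E x.1).p2 (Φ.c x.1))) (h.pt x) n ((Φ.E x.1).d2 (Φ.c x.1) i) ≤ d ^ 2) →
    Rw h n n (B * d) x := by
  obtain ⟨B, B0, hB⟩ := raw_dd h hR n
  obtain ⟨K, K0, hK⟩ := jet_lt h n ρ
  refine ⟨1 / (10 * (K * |ρ| ^ 3 + 1)), by positivity, B * (K * |ρ| ^ 3), by positivity,
    fun x d p e0 e1 a => ?_⟩
  rw [mul_assoc]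
  refine hB x _ (by rw [le_div_iff₀ (by positivity)] at e1; linarith) fun i =>
    (hK _ x p).trans ((mul_le_mul_of_nonneg_left (Real.sqrt_le_iff.2 ⟨e0, a i⟩) K0).trans ?_)
  have r := one_le_rr h.is x
  have d3 : dm i ≤ 3 := by rcases i with i | i <;> simp only [dm, Sum.elim_inl, Sum.elim_inr] <;>
    split_ifs <;> norm_num
  rw [Real.rpow_neg (by linarith), Real.rpow_natCast, ← div_eq_mul_inv, le_div_iff₀ (by positivity),
    mul_right_comm K _ d]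
  exact mul_le_mul_of_nonneg_left ((pow_le_pow_right₀ r d3).trans
    (pow_le_pow_left₀ (by linarith) (p.trans (le_abs_self ρ)) 3)) (mul_nonneg K0 e0)

/-- Bounded radii, all orders. -/
theorem raw_near (n N : ℕ) (ρ : ℝ) : ∃ c > 0, ∃ B, 0 ≤ B ∧ ∀ x (d y : ℝ), h.ch.rr x ≤ ρ → 0 ≤ d →
    d ≤ c →
    (∀ i, P354Z.q2 (lt (hp _) ((Φ.E x.1).p2 (Φ.c x.1))) (h.pt x) n ((Φ.E x.1).d2 (Φ.c x.1) i) ≤ d ^ 2) →
    (∀ w k, List.length w ≤ N → k ≤ 4 → dv (Φ.c x.1) (Φ.E x.1) (h.pt x) w k ≤ y) →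
    Rw h n N (B * (y + d)) x := by
  obtain ⟨c1, p1, B1, q1, h1⟩ := raw_low h hR n ρ
  obtain ⟨c2, p2, B2, o2, h2⟩ := tube h.ga (om_a h) (fun x => by
    have := sg_ge h.cmp x (a_le h hR x)
    have t : h.ch.md x 2 = 2 := by
      simpa only [map_ofNat, RCLike.norm_ofNat] using md_alg (x := x) h.is 2
    rw [show P354YS.De Φ.nf0.nc Φ.nf0.mc (h.ch.cj Φ.nf0.mc) = _ from De0 h.cmp, md_neg, md_mul, t]
    linarith) n N ρ
  refine ⟨min c1 (c2 / (B1 + 1)), by positivity, B1 + B2 * (2 ^ (N + 2) + B1) * |ρ| ^ 3,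
    by positivity, fun x d y p d0 d1 a b => ?_⟩
  have R := h1 x d p d0 (d1.trans (min_le_left ..)) a
  have r := one_le_rr h.is x
  have y0 : 0 ≤ y := (norm_nonneg _).trans (b [] 0 (Nat.zero_le _) (by norm_num))
  have bd := mul_nonneg q1 d0
  have u : ∀ s : ℝ, s ≤ 0 → B1 * d * h.ch.rr x ^ s ≤ B1 * d := fun s e =>
    mul_le_of_le_one_right bd (Real.rpow_le_one_of_one_le_of_nonpos r e)
  have v : B1 * d ≤ (B1 + B2 * (2 ^ (N + 2) + B1) * |ρ| ^ 3) * (y + d) :=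
    mul_le_mul (le_add_of_nonneg_right (by positivity)) (le_add_of_nonneg_left y0) d0
      (by positivity)
  refine ⟨(R.mono h.is le_rfl le_rfl v).g, (R.mono h.is le_rfl le_rfl v).a, fun i w k e1 e2 => ?_⟩
  refine (h2 x (B1 * d) (2 ^ (N + 2) * y) p (by
    have := (le_div_iff₀ (by positivity)).1 (d1.trans (min_le_right ..)); linarith)
    (fun g => (R.g g).trans (u _ (by norm_num))) (R.a.trans (u _ (by norm_num)))
    (fun w k e => (P354FY.dv_le h e k x).2.trans (mul_le_mul_of_nonneg_left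
      (b w k e (by omega)) (by positivity))) i w k e1 e2).trans ?_
  rw [Real.rpow_neg (by linarith), ← div_eq_mul_inv, le_div_iff₀ (by positivity),
    show (3 : ℝ) = (3 : ℕ) by norm_num, Real.rpow_natCast]
  have k1 := pow_le_pow_left₀ (by linarith) (p.trans (le_abs_self ρ)) 3
  have k2 : 2 ^ (N + 2) * y + B1 * d ≤ (2 ^ (N + 2) + B1) * (y + d) := by
    nlinarith [mul_nonneg q1 y0, mul_nonneg (show (0 : ℝ) ≤ 2 ^ (N + 2) by positivity) d0]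
  have k3 := mul_le_mul (mul_le_mul_of_nonneg_left k2 o2) k1 (by positivity) (by positivity)
  nlinarith [mul_nonneg q1 (add_nonneg y0 d0)]

omit hR

/-! ### The passage between charts -/

/-- The jets along five letters. -/
def jE {O : Set E6} (X : Fin 5 → Der (Sm (on O))) (y : E6) : ℕ → Sm (on O) → ℝ
  | 0, f => ‖fv f y‖
  | n + 1, f => ‖fv f y‖ + ∑ a, jE X y n (X a f)

section
variable (c : Cs) (E : Est)

def lx : Fin 5 → Der (Sm (on E.O2)) :=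
  ![(hp _).d 0, (hp (on E.O2)).z 1 • (E.K2 c).R, Om (hp _) 0, Om (hp _) 1, Om (hp _) 2]
def aE : Sm (on E.O2) := alp (hp _) (E.p2 c) (ge _ E.g) E.F2.l
def gE (g : Gi) : Sm (on E.O2) := gf (hp _).N (hp _).Ni (hp _).ri (E.d2 c) (aE c E) g
def vE (w : List Lt) (k : Fin 5) : Sm (on E.O2) := nu (hp _).N (hp _).Ni (bw w k) *
  (val E.G2 (false, w, k) - val (out (E.K2 c)) (false, w, k))

end

theorem jet_eq (n : ℕ) (f : Φ.A) (x : h.ch.Pt) :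
    h.ch.jet n f x = jE (lx (Φ.c x.1) (Φ.E x.1)) (h.pt x) n (f x.1) := by
  induction n generalizing f with
  | zero => exact jet_zero f
  | succ n ih =>
    simp only [jet_succ, ih]
    exact congrArg₂ (· + ·) rfl (sum_congr rfl fun a _ => congrArg (jE _ _ n) (h.X_ap a f x.1))

theorem at_ap (g : Gi) (j : Φ.J) : (Φ.nf.df Φ.nf0 h.ch).at g j = gE (Φ.c j) (Φ.E j) g := by
  refine (congrFun (at_gf h.cmp (dd_n h) (dd_m h) dd_s g) j).trans ?_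
  rcases g with g | g | g <;> fin_cases g <;> rfl

theorem Vw_ap (w : List Lt) (k : Fin 5) (j : Φ.J) :
    Vw Φ.nf Φ.nf0 h.ch w k j = vE (Φ.c j) (Φ.E j) w k := by
  rw [P354FY.Vw_ap, nz_nu h.cmp]; rfl

variable {Ψ : Fm} (h' : Ψ.Ok)

/-- The points x and y lie over the same state and the same point. -/
structure Same (x : h.ch.Pt) (y : h'.ch.Pt) : Prop where
  c : Ψ.c y.1 = Φ.c x.1
  E : Ψ.E y.1 = Φ.E x.1
  pt : h'.pt y = h.pt x

variable {h h'} {x : h.ch.Pt} {y : h'.ch.Pt} (s : Same h h' x y)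
include s

theorem Same.tr {α : Type} (F : Cs → Est → E6 → α) :
    F (Φ.c x.1) (Φ.E x.1) (h.pt x) = F (Ψ.c y.1) (Ψ.E y.1) (h'.pt y) := by rw [s.c, s.E, s.pt]

theorem Same.g (n : ℕ) (g : Gi) : h.ch.jet n ((Φ.nf.df Φ.nf0 h.ch).at g) x =
    h'.ch.jet n ((Ψ.nf.df Ψ.nf0 h'.ch).at g) y := by
  rw [jet_eq, jet_eq]
  exact (congrArg (jE _ _ n) (at_ap h g x.1)).trans
    ((s.tr fun c E z => jE (lx c E) z n (gE c E g)).trans (congrArg (jE _ _ n) (at_ap h' g y.1)).symm)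

theorem Same.a (n : ℕ) : h.ch.jet n Φ.nf.al x = h'.ch.jet n Ψ.nf.al y := by
  rw [jet_eq, jet_eq]
  exact s.tr fun c E z => jE (lx c E) z n (aE c E)

theorem Same.V (n : ℕ) (w : List Lt) (k : Fin 5) : h.ch.jet n (Vw Φ.nf Φ.nf0 h.ch w k) x =
    h'.ch.jet n (Vw Ψ.nf Ψ.nf0 h'.ch w k) y := by
  rw [jet_eq, jet_eq]
  exact (congrArg (jE _ _ n) (Vw_ap h w k x.1)).trans ((s.tr fun c E z =>
    jE (lx c E) z n (vE c E w k)).trans (congrArg (jE _ _ n) (Vw_ap h' w k y.1)).symm)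

theorem Same.rr : h.ch.rr x = h'.ch.rr y := by rw [h.rr_eq, h'.rr_eq, s.pt]

theorem Same.uu : h.ch.uu x = h'.ch.uu y := by
  rw [h.uu_eq, h'.uu_eq, s.pt, ← h.M x.1, ← h'.M y.1, s.c]

theorem Same.raw {n N : ℕ} {e : ℝ} (R : Rw h' n N e y) : Rw h n N e x :=
  ⟨fun g => by rw [s.g, s.rr]; exact R.g g, by rw [s.a, s.rr]; exact R.a,
    fun i w k a b => by rw [s.V, s.rr]; exact R.V i w k a b⟩

end Vale.Agent.P354YF
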