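import Vale.Agent.P354YF.Fte1
import Vale.Agent.P354YL.Defs
import Vale.Agent.P354XZ.Src

/-!
Raw bounds at a point; the tables and the density of the layer from the raw bounds.
-/

noncomputable section

namespace Vale.Agent.P354YF

open Vale.Agent.P354XZ
open Vale.Agent.P354YS (Cj De cj_sy cj_step cj_n cj_m cj_b cj_fr)
open Vale.Agent.P354FA (VN)
open Vale.Agent.P354YL (Tb Od Ql Ss Sa)
open Finset

variable {A : Type} [CommRing A] [Algebra ℂ A] {C : Ch A}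

theorem cj_unif {S : Type} {p : S → C.Pt} {τ : S → ℝ} (τ0 : ∀ σ, 0 ≤ τ σ) {n N : ℕ}
    {V : List Lt → Fin 5 → A} (s : ∀ i w k, i ≤ n → i + w.length ≤ N → Cj p τ i (V w k)) :
    ∃ B, 0 ≤ B ∧ ∀ σ i w k, i ≤ n → i + w.length ≤ N → C.jet i (V w k) (p σ) ≤ B * τ σ := by
  have key : ∀ q : ℕ × List Lt × Fin 5, ∃ B, q.1 ≤ n → q.1 + q.2.1.length ≤ N → ∀ σ,
      C.jet q.1 (V q.2.1 q.2.2) (p σ) ≤ B * τ σ := fun q => by
    by_cases e : q.1 ≤ n ∧ q.1 + q.2.1.length ≤ N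
    · obtain ⟨B, -, hB⟩ := s _ _ q.2.2 e.1 e.2
      exact ⟨B, fun _ _ => hB⟩
    · exact ⟨0, fun y z => absurd ⟨y, z⟩ e⟩
  choose B hB using key
  obtain ⟨M, hM⟩ := (((Set.finite_le_nat n).prod
    ((List.finite_length_le Lt N).prod Set.finite_univ)).image B).bddAbove
  exact ⟨|M|, abs_nonneg M, fun σ i w k a b => (hB (i, w, k) a b σ).trans
    (mul_le_mul_of_nonneg_right ((hM ⟨(i, w, k), ⟨a, le_of_add_le_right b, trivial⟩, rfl⟩).trans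
      (le_abs_self M)) (τ0 σ))⟩

theorem cj_fin {S ι : Type} [Fintype ι] {p : S → C.Pt} {τ : S → ℝ} (τ0 : ∀ σ, 0 ≤ τ σ) {n : ℕ}
    {V : ι → A} (s : ∀ i, Cj p τ n (V i)) :
    ∃ B, 0 ≤ B ∧ ∀ σ i, C.jet n (V i) (p σ) ≤ B * τ σ := by
  choose B B0 hB using s
  exact ⟨∑ i, B i, sum_nonneg fun i _ => B0 i, fun σ i => (hB i σ).trans
    (mul_le_mul_of_nonneg_right (single_le_sum (fun i _ => B0 i) (mem_univ i)) (τ0 σ))⟩

/-- The data at one point. -/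
structure Sr (C : Ch A) (F F0 : NF A) (c ρ : ℝ) (n N : ℕ) where
  x : C.Pt
  d : ℝ
  y : ℝ
  e2 : C.rr x ≤ ρ
  e3 : d ≤ c
  e4 : ∀ g : Gi, C.jet n ((F.df F0 C).at g) x ≤ d
  e5 : C.jet n F.al x ≤ d
  e6 : ∀ (w : List Lt) k, w.length ≤ N → C.md x (P354FA.Vw F F0 C w k) ≤ y

section
variable {F F0 : NF A} {t : Fin 4 → A} {c ρ : ℝ} {n N : ℕ}

theorem Sr.d0 (σ : Sr C F F0 c ρ n N) : 0 ≤ σ.d := (jet0 ..).trans σ.e5
theorem Sr.y0 (σ : Sr C F F0 c ρ n N) : 0 ≤ σ.y := (md0 _).trans (σ.e6 [] 0 (Nat.zero_le _))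

variable (G : F.Ga F0 C t) (j : C.J)
include G

theorem Sr.bas {m : ℕ} (e : m ≤ n) : Cj (fun σ : Sr C F F0 c ρ n N => σ.x) 1 m C.r ∧
    (∀ g, Cj (fun σ : Sr C F F0 c ρ n N => σ.x) Sr.d m ((F.df F0 C).at g)) ∧
    Cj (fun σ : Sr C F F0 c ρ n N => σ.x) Sr.d m F.al := by
  obtain ⟨K, K0, hK⟩ := sy_pos G.ch (sy_r G.ch) m
  exact ⟨⟨K * |ρ|, by positivity, fun σ => (hK _).trans (by
      rw [neg_neg, Real.rpow_one, Pi.one_apply, mul_one]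
      exact mul_le_mul_of_nonneg_left (σ.e2.trans (le_abs_self ρ)) K0)⟩,
    fun g => ⟨1, zero_le_one, fun σ => ((jet_mono e _).trans (σ.e4 g)).trans_eq (one_mul _).symm⟩,
    ⟨1, zero_le_one, fun σ => ((jet_mono e _).trans σ.e5).trans_eq (one_mul _).symm⟩⟩

include j

theorem Sr.de : Cj (fun σ : Sr C F F0 1 ρ n N => σ.x) Sr.d 0
    (De F.nc F.mc (C.cj F.mc) - De F0.nc F0.mc (C.cj F0.mc)) := by
  obtain ⟨hr, hg, ha⟩ := Sr.bas (c := 1) (ρ := ρ) (N := N) G (Nat.zero_le n)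
  obtain ⟨a, b, d⟩ := cj_fr G j hr hg ha Sr.e3
  let P : A → A → Prop := fun f f0 => Cj (fun σ : Sr C F F0 1 ρ n N => σ.x) Sr.d 0 (f - f0) ∧
    Cj (fun σ : Sr C F F0 1 ρ n N => σ.x) 1 0 f
  have m : ∀ {f f0 g g0}, P f f0 → P g g0 → P (f * g) (f0 * g0) := fun s u =>
    ⟨((s.2.mul u.1).add ((u.2.sub (u.1.mono Sr.e3)).mul s.1)).of (by ring), s.2.mul u.2⟩
  have s : ∀ {f f0 g g0}, P f f0 → P g g0 → P (f - g) (f0 - g0) := fun s u =>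
    ⟨(s.1.sub u.1).of (by ring), s.2.sub u.2⟩
  have u : ∀ {f f0 g g0}, P f f0 → P g g0 → P (f + g) (f0 + g0) := fun s u =>
    ⟨(s.1.add u.1).of (by ring), s.2.add u.2⟩
  have a' : ∀ i, P _ _ := fun i => ⟨cj_n G hr hg i, a i⟩
  have b' : ∀ i, P _ _ := fun i => ⟨cj_m G hr hg ha i, b i⟩
  have d' : ∀ i, P _ _ := fun i => ⟨cj_b G hr hg ha i, d i⟩
  exact (u (s (m (a' 0) (s (m (b' 2) (d' 3)) (m (b' 3) (d' 2))))
    (m (a' 2) (s (m (b' 0) (d' 3)) (m (b' 3) (d' 0)))))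
    (m (a' 3) (s (m (b' 0) (d' 2)) (m (b' 2) (d' 0))))).1

theorem Sr.key (om : P354FX.OmA C) (c1 : c ≤ 1) {κ : ℝ} (κ0 : 0 ≤ κ)
    (hκ : ∀ σ : Sr C F F0 c ρ n N, 1 ≤ κ * C.md σ.x (De F.nc F.mc (C.cj F.mc))) (m : ℕ)
    (e : m ≤ n) (w : List Lt) (k : ℕ) (e' : m + w.length ≤ N) (hk : k ≤ 4) :
    Cj (fun σ : Sr C F F0 c ρ n N => σ.x) (fun σ => σ.y + σ.d) m (VN C F F0 false w k) := by
  induction m generalizing w k with
  | zero =>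
    exact ⟨1, zero_le_one, fun σ => by
      rw [jet_zero, one_mul]
      exact le_add_of_le_of_nonneg (σ.e6 w ⟨k, by omega⟩ (by omega)) σ.d0⟩
  | succ m ih =>
    have e1 : m ≤ n := by omega
    obtain ⟨hr, hg, ha⟩ := Sr.bas (c := c) (ρ := ρ) (N := N) G e1
    exact cj_step G j hr hg ha (fun σ => σ.e3.trans c1) (fun σ => le_add_of_nonneg_left σ.y0) hk
      (fun v i z hi => ih e1 v i (by omega) hi) om κ0 hκ
      fun x => ih e1 _ k (by rw [List.length_cons]; omega) hk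

omit j in
/-- The jets of the words on bounded radii. -/
theorem tube (om : P354FX.OmA C)
    (hD : ∀ x, 1 ≤ C.rr x ^ 2 * C.md x (De F0.nc F0.mc (C.cj F0.mc))) (n N : ℕ) (ρ : ℝ) :
    ∃ c > 0, ∃ B, 0 ≤ B ∧ ∀ (x : C.Pt) (d y : ℝ), C.rr x ≤ ρ → d ≤ c →
      (∀ g : Gi, C.jet n ((F.df F0 C).at g) x ≤ d) → C.jet n F.al x ≤ d →
      (∀ (w : List Lt) k, w.length ≤ N → C.md x (P354FA.Vw F F0 C w k) ≤ y) →
      ∀ i (w : List Lt) k, i ≤ n → i + w.length ≤ N →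
        C.jet i (P354FA.Vw F F0 C w k) x ≤ B * (y + d) := by
  by_cases j : Nonempty C.J
  swap
  · exact ⟨1, one_pos, 0, le_rfl, fun x => absurd ⟨x.1⟩ j⟩
  obtain ⟨B, B0, hB⟩ := Sr.de (ρ := ρ) (n := n) (N := N) G j.some
  have p : 0 < 2 * ρ ^ 2 * B + 1 := by positivity
  have c1 : 1 / (2 * ρ ^ 2 * B + 1) ≤ 1 := (div_le_one p).2 (le_add_of_nonneg_left (by positivity))
  obtain ⟨D, D0, hD'⟩ := cj_unif (p := fun σ : Sr C F F0 (1 / (2 * ρ ^ 2 * B + 1)) ρ n N => σ.x)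
    (fun σ => add_nonneg σ.y0 σ.d0) (V := P354FA.Vw F F0 C) fun i w k a b =>
    Sr.key G j.some om c1 (κ := 2 * ρ ^ 2) (by positivity) (fun σ => by
      have a := hB ⟨σ.x, σ.d, σ.y, σ.e2, σ.e3.trans c1, σ.e4, σ.e5, σ.e6⟩
      have b := (hD σ.x).trans (mul_le_mul (pow_le_pow_left₀ (rr_pos G.ch _).le σ.e2 2)
        (P354YS.le_sub (le_refl (C.md σ.x (De F.nc F.mc (C.cj F.mc))))
          (((jet_zero _).symm.trans_le a))
        |>.trans' (le_of_eq (by rw [sub_sub_cancel]))) (md0 _) (sq_nonneg ρ))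
      have d := (le_div_iff₀ p).1 σ.e3
      nlinarith [σ.d0]) i a w k b (by omega)
  exact ⟨_, by positivity, D, D0, fun x d y a b e f g => hD' ⟨x, d, y, a, b, e, f, g⟩⟩

end

variable (C) (F F0 : NF A) (Vw : List Lt → Fin 5 → A)

/-- The raw bounds at the point x. -/
structure Raw (n N : ℕ) (e : ℝ) (x : C.Pt) : Prop where
  g : ∀ g, C.jet n ((F.df F0 C).at g) x ≤ e * C.rr x ^ (-2 : ℝ)
  a : C.jet n F.al x ≤ e * C.rr x ^ (-1 : ℝ)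
  V : ∀ i w k, i ≤ n → i + w.length ≤ N → C.jet i (Vw w k) x ≤ e * C.rr x ^ (-3 : ℝ)

variable {C F F0 Vw} {n N : ℕ} {e μ : ℝ} {x : C.Pt} (h : C.Is)
include h

theorem Raw.e0 (R : Raw C F F0 Vw n N e x) : 0 ≤ e :=
  nonneg_of_mul_nonneg_left ((jet0 ..).trans R.a) (Real.rpow_pos_of_pos (rr_pos h x) _)

theorem Raw.mono (R : Raw C F F0 Vw n N e x) {n' N' : ℕ} {e' : ℝ} (a : n' ≤ n) (b : N' ≤ N)
    (c : e ≤ e') : Raw C F F0 Vw n' N' e' x :=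
  have r := fun s => mul_le_mul_of_nonneg_right c (Real.rpow_nonneg (rr_pos h x).le s)
  ⟨fun g => ((jet_mono a _).trans (R.g g)).trans (r _), ((jet_mono a _).trans R.a).trans (r _),
    fun i w k u v => (R.V i w k (u.trans a) (v.trans b)).trans (r _)⟩

variable (μ1 : 1 ≤ μ) (hμ : C.ut x.1 (C.uu x) ≤ μ * C.rr x)
include μ1 hμ

theorem mon_up {a b c t : ℝ} (s1 s2 S : ℝ) (k : 0 ≤ s1 ∧ 0 ≤ s2 ∧ b ≤ s1 ∧ c ≤ s2 ∧ s1 + s2 ≤ S ∧
    a + s1 + s2 ≤ t) : C.at' (C.mon a b c) x ≤ (3 * μ) ^ S * C.rr x ^ t := by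
  obtain ⟨k1, k2, k3, k4, k5, k6⟩ := k
  have r := one_le_rr h x
  have u := one_le_ut h x.1 (C.uu x)
  have v := two_le_vv x.1 (C.uu x) (C.rr x)
  have v' := vv_le x.1 (C.uu x) (C.rr x)
  have m := le_mul_of_one_le_left (zero_le_one.trans r) μ1
  have q : ∀ {y b s : ℝ}, 1 ≤ y → y ≤ 3 * μ * C.rr x → 0 ≤ s → b ≤ s →
      y ^ b ≤ (3 * μ) ^ s * C.rr x ^ s := fun a b c d => by
    rw [← Real.mul_rpow (by linarith) (by linarith)]
    exact (Real.rpow_le_rpow_of_exponent_le a d).trans (Real.rpow_le_rpow (by linarith) b c)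
  have q1 := q (y := C.vv x.1 (C.uu x) (C.rr x)) (by linarith) (by linarith) k1 k3
  have q2 := q u (by linarith) k2 k4
  refine (mul_le_mul (mul_le_mul_of_nonneg_left q1 (Real.rpow_nonneg (by linarith) a)) q2
    (Real.rpow_nonneg (by linarith) _) (by positivity)).trans ?_
  have e1 := Real.rpow_le_rpow_of_exponent_le (x := 3 * μ) (by linarith) k5
  have e2 := Real.rpow_le_rpow_of_exponent_le r k6
  rw [Real.rpow_add (by linarith)] at e1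
  rw [Real.rpow_add (by linarith), Real.rpow_add (by linarith)] at e2
  exact le_of_eq_of_le (by ring) (mul_le_mul e1 e2 (by positivity) (by positivity))

theorem mon_lo {a b c t : ℝ} (s1 s2 : ℝ) (k : 0 ≤ s1 ∧ 0 ≤ s2 ∧ -b ≤ s1 ∧ -c ≤ s2 ∧
    s1 + s2 ≤ 7 / 5 ∧ -a + s1 + s2 ≤ -t) (e0 : 0 ≤ e) :
    e * C.rr x ^ t ≤ 2 * e * (3 * μ) ^ (7 / 5 : ℝ) * C.at' (C.mon a b c) x := by
  have q := mul_le_mul_of_nonneg_right (mon_up h μ1 hμ s1 s2 _ k)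
    (mul_pos (at_pos h a b c x) (Real.rpow_pos_of_pos (rr_pos h x) t)).le
  rw [← mul_assoc, at_mon_mul h, neg_add_cancel, neg_add_cancel, neg_add_cancel, at_r0, one_mul,
    mul_mul_mul_comm, ← Real.rpow_add (rr_pos h x), neg_add_cancel, Real.rpow_zero, mul_one] at q
  have := mul_le_mul_of_nonneg_left q e0
  have := mul_nonneg e0 ((Real.rpow_nonneg (rr_pos h x).le t).trans q)
  linarith

variable {p : Fam C.J} {P l : ℝ} (l0 : 0 ≤ l) (P1 : 1 ≤ P) (hp : C.at' p x ≤ P)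
include l0 P1 hp

omit l0 in
theorem pm_up {a b c t : ℝ} (s1 s2 : ℝ) (k : 0 ≤ s1 ∧ 0 ≤ s2 ∧ b ≤ s1 ∧ c ≤ s2 ∧
    s1 + s2 ≤ 14 / 5 ∧ a + s1 + s2 ≤ t) :
    C.at' (C.mon a b c) x ≤ P * ((3 * μ) ^ (14 / 5 : ℝ) * C.rr x ^ t) ∧
      C.at' p x * C.at' (C.mon a b c) x ≤ P * ((3 * μ) ^ (14 / 5 : ℝ) * C.rr x ^ t) :=
  have q := mon_up h μ1 hμ s1 s2 _ k
  ⟨q.trans (le_mul_of_one_le_left ((at_pos h ..).le.trans q) P1),
    mul_le_mul hp q (at_pos h ..).le (zero_le_one.trans P1)⟩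

theorem w_up (a c : ℝ) (c0 : c ≤ 0) (i : Fin 4) {t : ℝ}
    (k : a + (if (i : ℕ) = 3 then 14 / 5 else 59 / 20) ≤ t) :
    C.at' (C.mon a 0 c * C.w p l i) x ≤ P * ((3 * μ) ^ (14 / 5 : ℝ) * C.rr x ^ t) := by
  have q := fun {a b c} s1 s2 k => pm_up h μ1 hμ P1 hp (a := a) (b := b) (c := c) (t := t) s1 s2 k
  fin_cases i <;> simp only [Ch.w, Fin.zero_eta, Fin.mk_one, Fin.reduceFinMk, Matrix.cons_val,
    at_mul, mul_left_comm _ (C.at' p x), at_mon_mul h] <;> norm_num at k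
  · exact (q (14 / 5) 0 (by refine ⟨?_, ?_, ?_, ?_, ?_, ?_⟩ <;> linarith)).2
  · exact (q (14 / 5) 0 (by refine ⟨?_, ?_, ?_, ?_, ?_, ?_⟩ <;> linarith)).1
  · exact (q (17 / 10) (11 / 10) (by refine ⟨?_, ?_, ?_, ?_, ?_, ?_⟩ <;> linarith)).1
  · exact (q 0 (14 / 5) (by refine ⟨?_, ?_, ?_, ?_, ?_, ?_⟩ <;> linarith)).1

theorem DL_up (i : Fin 5) :
    C.at' (C.DL p l i) x ≤ P * ((3 * μ) ^ (14 / 5 : ℝ) * C.rr x ^ (79 / 20 : ℝ)) := by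
  have q := fun a i k => w_up h μ1 hμ l0 P1 hp a 0 le_rfl i (t := 79 / 20) k
  have e : ∀ a b (φ : Fam C.J), C.at' (C.mon a 0 0 * (C.mon b 0 0 * φ)) x =
      C.at' (C.mon (a + b) 0 0 * φ) x := fun a b φ => by
    rw [at_mul, at_mul, ← mul_assoc, at_mon_mul h, add_zero, at_mul]
  fin_cases i <;> simp only [Ch.DL, Ch.Db, Fin.zero_eta, Fin.mk_one, Fin.reduceFinMk,
    Matrix.cons_val, e] <;> exact q _ _ (by norm_num)

theorem Dw_up (i : Fin 5) :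
    C.at' (C.Dw p l i) x ≤ 2 * (P * ((3 * μ) ^ (14 / 5 : ℝ) * C.rr x ^ (5 : ℝ))) := by
  have q := fun a c c0 i k => w_up h μ1 hμ l0 P1 hp a c c0 i (t := 5) k
  have z : C.at' 0 x ≤ P * ((3 * μ) ^ (14 / 5 : ℝ) * C.rr x ^ (5 : ℝ)) :=
    (by have := rr_pos h x; positivity : (0 : ℝ) ≤ _)
  rw [two_mul, Ch.Dw, at_add]
  fin_cases i <;> simp only [Ch.Dd, Ch.Db, Fin.zero_eta, Fin.mk_one, Fin.reduceFinMk,
    Matrix.cons_val] <;> refine add_le_add (q _ _ le_rfl _ (by norm_num)) ?_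
  exacts [q _ _ (by norm_num) _ (by norm_num), q _ _ (by norm_num) _ (by norm_num),
    q _ _ (by norm_num) _ (by norm_num), q _ _ (by norm_num) _ (by norm_num), z]

theorem Z_up (g : Gi) :
    C.at' (Zf C p l g) x ≤ P * ((3 * μ) ^ (14 / 5 : ℝ) * C.rr x ^ (39 / 20 : ℝ)) := by
  have q := fun {a b c} s1 s2 k =>
    pm_up h μ1 hμ P1 hp (a := a) (b := b) (c := c) (t := 39 / 20) s1 s2 k
  rcases g with g | g | g
  · exact (q 0 (14 / 5) (by refine ⟨?_, ?_, ?_, ?_, ?_, ?_⟩ <;> linarith)).1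
  · exact (q (46 / 25) (24 / 25) (by refine ⟨?_, ?_, ?_, ?_, ?_, ?_⟩ <;> linarith)).1
  · fin_cases g
    · exact (q (14 / 5) 0 (by refine ⟨?_, ?_, ?_, ?_, ?_, ?_⟩ <;> linarith)).2
    · exact (q (14 / 5) 0 (by refine ⟨?_, ?_, ?_, ?_, ?_, ?_⟩ <;> linarith)).1

omit l0 P1 hp

/-- The tables. -/
theorem raw_tb (R : Raw C F F0 Vw n N e x) {o : Od} (k : o.m ≤ n ∧ o.m' ≤ n ∧ o.ia ≤ n ∧ o.N ≤ N) :
    Tb C F F0 Vw o (2 * e * (3 * μ) ^ (7 / 5 : ℝ)) x := by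
  have e0 := R.e0 h
  have g := fun g => (jet_mono k.1 _).trans (R.g g)
  have a := (jet_mono k.2.2.1 _).trans R.a
  refine ⟨fun i => (g (.inl i)).trans (mon_lo h μ1 hμ 0 (6 / 5) (by norm_num) e0),
    fun i => (g (.inr (.inl i))).trans (mon_lo h μ1 hμ (37 / 40) (3 / 10) (by norm_num) e0),
    fun i => (g (.inr (.inr i))).trans (mon_lo h μ1 hμ (11 / 8) 0 (by norm_num) e0),
    a.trans (mon_lo h μ1 hμ 0 0 (by norm_num) e0),
    a.trans (mon_lo h μ1 hμ (11 / 8) 0 (by norm_num) e0), fun i w c u v => ?_⟩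
  have r := rr_pos h x
  have q := pow_le_pow_left₀ (jet0 ..) (R.V i w c (u.trans k.2.1) (v.trans k.2.2.2)) 2
  have d := Dw_up h μ1 hμ (p := 1) le_rfl le_rfl le_rfl c
  have d1 : C.at' (C.mon 0 0 (-3 / 10)) x ≤ 1 := by
    simpa [Ch.at', Ch.mon] using Real.rpow_le_one_of_one_le_of_nonpos
      (one_le_ut h x.1 (C.uu x)) (by norm_num : (-3 / 10 : ℝ) ≤ 0)
  have d2 : C.at' (C.Dt 0 c) x ≤ _ := (mul_le_of_le_one_left
    (Dw_pos h (fun _ _ _ _ => one_pos) c _ _ r).le d1).trans d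
  refine (mul_le_mul (mul_le_mul_of_nonneg_left d2 r.le) q (sq_nonneg _) (by positivity)).trans ?_
  have z1 : ((3 * μ) ^ (7 / 5 : ℝ)) ^ 2 = (3 * μ) ^ (14 / 5 : ℝ) := by
    rw [pow_two, ← Real.rpow_add (by linarith)]; norm_num
  have z2 : C.rr x * C.rr x ^ (5 : ℝ) * (C.rr x ^ (-3 : ℝ)) ^ 2 = 1 := by
    rw [pow_two, ← Real.rpow_add r, ← Real.rpow_one_add' r.le (by norm_num), ← Real.rpow_add r]
    norm_num
  have z3 : 0 ≤ e ^ 2 * (3 * μ) ^ (14 / 5 : ℝ) := by positivity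
  rw [mul_pow, mul_pow, mul_pow, z1]
  calc _ = 2 * (e ^ 2 * (3 * μ) ^ (14 / 5 : ℝ)) *
        (C.rr x * C.rr x ^ (5 : ℝ) * (C.rr x ^ (-3 : ℝ)) ^ 2) := by ring
    _ ≤ _ := by rw [z2]; linarith

/-- The number of terms. -/
def cnt (s : ℕ) : ℝ := ∑ i ∈ range (s + 1), 4 ^ i * 5 + 19

/-- The density of the layer. -/
theorem raw_ql {K : Cut C} (k : K.Is) {l P : ℝ} (l0 : 0 ≤ l) (hp : C.at' K.p x ≤ P) {s : ℕ}
    (R : Raw C F F0 Vw n (n + s) e x) : C.val x (Ql C F F0 K Vw l n s) ≤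
      cnt s * (P * (3 * μ) ^ (14 / 5 : ℝ) * e ^ 2 * C.rr x ^ (-41 / 20 : ℝ)) := by
  have r := rr_pos h x
  have P1 := (k.ple x.1 _ (h.dom x)).1.trans hp
  have q : ∀ {φ : Fam C.J} {f : A} {a b : ℝ}, SmF φ → C.at' φ x ≤ P *
      ((3 * μ) ^ (14 / 5 : ℝ) * C.rr x ^ a) → C.jet n f x ≤ e * C.rr x ^ b →
      a + (b + b) = -41 / 20 → C.val x (C.fn φ * C.sl (n + 1) f) ≤
        P * (3 * μ) ^ (14 / 5 : ℝ) * e ^ 2 * C.rr x ^ (-41 / 20 : ℝ) := fun s a b c => by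
    rw [vl_fn_mul h s, ← c, Real.rpow_add r, Real.rpow_add r]
    exact (mul_le_mul a ((vl_sl_le h n _).trans (pow_le_pow_left₀ (jet0 ..) b 2)) (vl_sl0 h ..)
      (by positivity)).trans_eq (by ring)
  have sD : ∀ i, SmF (C.DL K.p l i) := fun i => smF_mul (smF_mon h _ _ _) (by
    have m := fun a i => smF_mul (smF_mon h a 0 0) (smF_w h (l := l) k.sm.2.2 i)
    fin_cases i
    exacts [m _ _, m _ _, m _ _, m _ _, m _ _])
  have a := q (smF_mul (smF_mon h (-2) 0 0) (smF_mon h _ _ _)) (f := F.al) ((at_mon_mul h ..).trans_le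
    (pm_up h μ1 hμ P1 hp (t := -1 / 20) (b := 0 + 46 / 25) (a := -2 + -17 / 20)
      (c := 0 + (24 / 25 - l)) (46 / 25) (24 / 25)
      (by refine ⟨?_, ?_, ?_, ?_, ?_, ?_⟩ <;> linarith)).1) R.a (by norm_num)
  have b := sum_le_sum fun g (_ : g ∈ univ) => q (smF_Z h k.sm.2.2 g)
    (Z_up h μ1 hμ l0 P1 hp g) (R.g g) (by norm_num)
  have c := sum_le_sum fun i (u : i ∈ range (s + 1)) => sum_le_sum
    fun (w : Fin i → Lt) (_ : w ∈ univ) => sum_le_sum fun d (_ : d ∈ univ) => q (sD d)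
      (DL_up h μ1 hμ l0 P1 hp d) (R.V n (List.ofFn w) d le_rfl (by
        have := mem_range.1 u
        rw [List.length_ofFn]; omega)) (by norm_num)
  simp only [Ql, dG_eq, Ch.dWl, Ch.dW, Ch.dn, Ch.Vs, vl_add, vl_sum, Function.iterate_zero, id]
  refine (add_le_add (add_le_add c b) a).trans_eq ?_
  simp [cnt, sum_mul, add_mul, mul_assoc]
  ring

end Vale.Agent.P354YF
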