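import Vale.Agent.P354YF.L2

/-!
The transport in the mean.
-/

noncomputable section

namespace Vale.Agent.P354YF

open Vale.Agent.P354XI Vale.Agent.P354XZ Finset
open Vale.Agent.P354YS (Ps ps_mon ps_Dw ps_Zh val_dn le_dn dn_nonneg)

variable {A : Type} [CommRing A] [Algebra ℂ A] {C : Ch A} {K : Cut C} {l : ℝ}

theorem p_ge (h : C.Is) (hK : K.Is) (x : C.Pt) : 1 ≤ C.at' K.p x ∧ C.at' K.p x ≤ K.pm x.1 :=
  ⟨(hK.ple _ _ (h.dom x)).1, (hK.ple _ _ (h.dom x)).2.1⟩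

theorem Zh_ge (h : C.Is) (hK : K.Is) (i : Fin 2) (x : C.Pt) :
    C.at' (C.mon (-17 / 20) (14 / 5 - l) 0) x ≤ C.at' (C.Zh K.p l i) x ∧
    C.at' (C.Zh K.p l i) x ≤ C.at' K.p x * C.at' (C.mon (-17 / 20) (14 / 5 - l) 0) x := by
  have := le_mul_of_one_le_left (at_pos h (-17 / 20) (14 / 5 - l) 0 x).le (p_ge h hK x).1
  fin_cases i
  exacts [⟨this, le_rfl⟩, ⟨le_rfl, this⟩]

theorem Zg_le (h : C.Is) (hK : K.Is) (hl : l ∈ Set.Icc (0 : ℝ) (1 / 100)) (i : Fin 2) (x : C.Pt) :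
    C.at' (C.Zg l) x ≤ 64 * C.at' (C.Zh K.p l i) x :=
  (at_le' h (by linarith [hl.2]) (by linarith) (by linarith)
    (abs_le.2 ⟨by linarith [hl.1], by linarith [hl.2]⟩) x).trans
    (mul_le_mul_of_nonneg_left (Zh_ge h hK i x).1 (by norm_num))

theorem Zb_le (h : C.Is) (x : C.Pt) : C.at' (C.Zb l) x ≤ 64 * C.at' (C.Zg l) x :=
  at_le' h (by norm_num) (by linarith) (by linarith) (abs_le.2 ⟨by norm_num, by norm_num⟩) x

theorem Z_V (h : C.Is) (hK : K.Is) (hl : l ∈ Set.Icc (0 : ℝ) (1 / 100)) (x : C.Pt) :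
    (∀ i, C.rr x ^ 2 * C.at' (C.Zh K.p l i) x ≤ 64 * C.at' (C.Dw K.p l 0) x) ∧
    C.rr x ^ 2 * C.at' (C.Zg l) x ≤ 64 * C.at' (C.Dw K.p l 1) x ∧
    C.rr x ^ 2 * C.at' (C.Zg l) x ≤ 64 * C.at' (C.Dw K.p l 2) x ∧
    C.rr x ^ 2 * C.at' (C.Zb l) x ≤ 64 * C.at' (C.Dw K.p l 2) x ∧
    C.rr x ^ 2 * C.at' (C.Zb l) x ≤ 64 * C.at' (C.Dw K.p l 3) x := by
  obtain ⟨a0, a1, a2, a3⟩ := Dw_ge h (ps_p hK) l x
  have m := (at_pos h (23 / 20) (14 / 5 - l) 0 x).le
  have p := le_mul_of_one_le_left m (p_ge h hK x).1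
  have g : C.rr x ^ 2 * C.at' (C.Zg l) x ≤ 64 * C.at' (C.mon (23 / 20) (14 / 5 - l) 0) x := by
    rw [Ch.Zg, pow_at h]
    exact at_le' h (by push_cast; linarith [hl.2]) (by linarith) (by push_cast; linarith)
      (abs_le.2 ⟨by linarith [hl.1], by linarith [hl.2]⟩) x
  have b : C.rr x ^ 2 * C.at' (C.Zb l) x ≤ 64 * C.at' (C.mon (23 / 20) (14 / 5 - l) 0) x := by
    rw [Ch.Zb, pow_at h]
    exact at_le' h (by push_cast; linarith [hl.2]) (by linarith) (by push_cast; linarith)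
      (abs_le.2 ⟨by linarith [hl.1], by linarith [hl.2]⟩) x
  have b' : C.rr x ^ 2 * C.at' (C.Zb l) x ≤
      64 * C.at' (C.mon (23 / 20) (17 / 10 - l) (11 / 10)) x := by
    rw [Ch.Zb, pow_at h]
    exact at_le' h (by push_cast; linarith [hl.2]) (by linarith) (by push_cast; linarith)
      (abs_le.2 ⟨by linarith [hl.1], by linarith [hl.2]⟩) x
  refine ⟨fun i => ?_, by linarith, by linarith, by linarith, by linarith⟩
  have := mul_le_mul_of_nonneg_left (Zh_ge (l := l) h hK i x).2 (sq_nonneg (C.rr x))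
  rw [mul_left_comm, pow_at h, show ((2 : ℕ) : ℝ) + -17 / 20 = 23 / 20 by norm_num] at this
  linarith

variable {F F0 : NF A} {U : Un A} {n : ℕ}

theorem sup_g (h : C.Is) (hK : K.Is) (d : D2 F U K n) (x : C.Pt) (i : Fin 9) :
    C.rr x * C.jet d.m (U.g i) x ≤ 64 * K.ep x.1 := by
  have a := mul_le_mul_of_nonneg_left ((d.tab x trivial).2.1 i) (rr_pos h x).le
  have b : C.at' (C.mon 1 0 0) x * C.at' C.Sg x ≤ 64 * C.at' (C.mon 0 0 0) x := by
    rw [Ch.Sg, at_mon_mul h]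
    exact at_le' h (by norm_num) (by norm_num) (by norm_num)
      (abs_le.2 ⟨by norm_num, by norm_num⟩) x
  rw [at_r1, at_r0] at b
  linarith [mul_le_mul_of_nonneg_left b (hK.ep x.1)]

theorem sup_h (h : C.Is) (hK : K.Is) (d : D2 F U K n) (x : C.Pt) (i : Fin 2) :
    C.rr x * C.jet d.m (U.h i) x ≤ 64 * K.ep x.1 := by
  have a := mul_le_mul_of_nonneg_left ((d.tab x trivial).2.2 i) (rr_pos h x).le
  have b : C.at' (C.mon 1 0 0) x * C.at' C.Sh x ≤ 64 * C.at' (C.mon 0 0 0) x := by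
    rw [Ch.Sh, at_mon_mul h]
    exact at_le' h (by norm_num) (by norm_num) (by norm_num)
      (abs_le.2 ⟨by norm_num, by norm_num⟩) x
  rw [at_r1, at_r0] at b
  linarith [mul_le_mul_of_nonneg_left b (hK.ep x.1)]

theorem q_le (h : C.Is) (hK : K.Is) (d : D2 F U K n) (x : C.Pt) {z w y D : ℝ}
    (e : z ≤ 64 * (K.pm x.1 * w)) (a : w * y ^ 2 ≤ 10 ^ (n + d.k) * D) (b : D ≤ C.val x d.dQ) :
    z * y ^ 2 ≤ 64 * 10 ^ (n + d.k) * (K.pm x.1 * C.val x d.dQ) := by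
  have p := zero_le_one.trans ((p_ge h hK x).1.trans (p_ge h hK x).2)
  have := mul_le_mul_of_nonneg_left (a.trans (mul_le_mul_of_nonneg_left b (by positivity))) p
  linarith [mul_le_mul_of_nonneg_right e (sq_nonneg y)]

theorem q_g (h : C.Is) (hK : K.Is) (d : D2 F U K n) (x : C.Pt) (i : Fin 9) {z : ℝ}
    (e : z ≤ 64 * C.at' (C.Zg d.l) x) : z * C.jet (n + d.k) (U.g i) x ^ 2 ≤
      64 * 10 ^ (n + d.k) * (K.pm x.1 * C.val x d.dQ) :=
  q_le h hK d x (e.trans (mul_le_mul_of_nonneg_left (le_mul_of_one_le_left (at_pos h ..).le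
    ((p_ge h hK x).1.trans (p_ge h hK x).2)) (by norm_num)))
    (jet_dn h (D := fun _ => C.Zg d.l) (fun _ => ps_mon h ..) _ U.g i x) (dG_ge h hK ..).2.1

theorem q_h (h : C.Is) (hK : K.Is) (d : D2 F U K n) (x : C.Pt) (i : Fin 2) {z : ℝ}
    (e : z ≤ 64 * (K.pm x.1 * C.at' (C.Zh K.p d.l i) x)) : z * C.jet (n + d.k) (U.h i) x ^ 2 ≤
      64 * 10 ^ (n + d.k) * (K.pm x.1 * C.val x d.dQ) :=
  q_le h hK d x e (jet_dn h (ps_Zh h (ps_p hK) d.l) _ U.h i x) (dG_ge h hK ..).2.2.1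

/-- The densities of the three classes. -/
def D2.dh (d : D2 F U K n) : A := C.dn (C.Zh K.p d.l) (C.sl (n + 1)) (U.map (C.T)^[d.k]).h
def D2.dg (d : D2 F U K n) : A := C.dn (fun _ => C.Zg d.l) (C.sl (n + 1)) (U.map (C.T)^[d.k]).g
def D2.db (d : D2 F U K n) : A := C.dn (fun _ => C.Zb d.l) (C.sl (n + 1)) (U.map (C.T)^[d.k]).b

variable (u : Su C F F0) (hK : K.Is)
include u hK

theorem p2_h : P2 (fun (d : D2 F (F.df F0 C) K n) x =>
    ∑ i, C.at' (C.Zh K.p d.l i) x * c1 C ((F.df F0 C).h i) n d.k x ^ 2) 0 := by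
  have h := u.h
  have s := ps_Zh h (ps_p hK)
  have y0 : ∀ (d : D2 F (F.df F0 C) K n) x, 0 ≤ C.val x d.dh := fun d x =>
    dn_nonneg h (s _) (vl_sl0 h _) _
  have hX : ∀ d : D2 F (F.df F0 C) K n, 0 ≤ d.E d.dh := fun d => E_pos h hK d.cau fun x _ => y0 d x
  refine P2.absorb h hK (Y := D2.dh) (p2_sum fun i => ?_) y0 fun d x => dn_jet h (s _) n _ x
  have e : Eh C F F0 i := by fin_cases i; exacts [u.h0, u.h1]
  have z : ∀ (d : D2 F (F.df F0 C) K n) x, 0 ≤ C.at' (C.Zh K.p d.l i) x := fun d x =>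
    ((s _ i).at h x).le
  have w : ∀ (d : D2 F (F.df F0 C) K n) x j, C.at' (C.Zh K.p d.l i) x ≤
      64 * (K.pm x.1 * C.at' (C.Zh K.p d.l j) x) := fun d x j => by
    have a := mul_le_mul (p_ge h hK x).2 (Zh_ge (l := d.l) h hK j x).1 (at_pos h ..).le
      (zero_le_one.trans ((p_ge h hK x).1.trans (p_ge h hK x).2))
    linarith [(Zh_ge (l := d.l) h hK i x).2, z d x]
  refine p2_row h hK e (W := fun l => C.Zh K.p l i) (fun d => hd_h h hK d.hl i) hX
    (fun d x => (le_dn h (s _) (vl_sl0 h _) ((F.df F0 C).map (C.T)^[d.k]).h i).trans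
      (dG_ge h hK ..).2.2.1)
    (p2_L h z (p2_V h hK 0 hX fun d x => (Z_V h hK d.hl x).1 i) (p2_0 _) (fun i => i.elim0)
      (p2_sm h hK z _ fun d x j => ?_) (p2_0 _) p2_0')
    (pq_Q h hK z (sup_h h hK) (sup_h h hK) (fun d x j => q_h h hK d x j (w d x j))
      fun d x j => q_h h hK d x j (w d x j))
  rw [Subsingleton.elim j 0]
  exact jet_dn h (s _) n ((F.df F0 C).map (C.T)^[d.k]).h i x

theorem p2_g : P2 (fun (d : D2 F (F.df F0 C) K n) x =>
    ∑ i, C.at' (C.Zg d.l) x * c1 C ((F.df F0 C).g i) n d.k x ^ 2) 0 := by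
  have h := u.h
  have s : ∀ l (_ : Fin 9), Ps (C.Zg l) := fun _ _ => ps_mon h ..
  have y0 : ∀ (d : D2 F (F.df F0 C) K n) x, 0 ≤ C.val x d.dg := fun d x =>
    dn_nonneg h (s _) (vl_sl0 h _) _
  have hX : ∀ d : D2 F (F.df F0 C) K n, 0 ≤ d.E d.dg := fun d => E_pos h hK d.cau fun x _ => y0 d x
  have z : ∀ (d : D2 F (F.df F0 C) K n) x, 0 ≤ C.at' (C.Zg d.l) x := fun d x => (at_pos h ..).le
  have row : ∀ {k i e}, 1 ≤ k → Eg C F F0 k i e →
      P2 (fun (d : D2 F (F.df F0 C) K n) x => C.at' (C.Zg d.l) x * c1 C e n d.k x ^ 2)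
        (fun d => d.E d.dg) → P2 (fun (d : D2 F (F.df F0 C) K n) x =>
        C.at' (C.Zg d.l) x * c1 C ((F.df F0 C).g i) n d.k x ^ 2) fun d => d.E d.dg := by
    intro k i e hk r he
    have hk : (1 : ℝ) ≤ k := by exact_mod_cast hk
    exact p2_row h hK r (W := C.Zg) (fun d => hd_mon h k _ (by norm_num) (by linarith)) hX
      (fun d x => (le_dn h (s _) (vl_sl0 h _) ((F.df F0 C).map (C.T)^[d.k]).g i).trans
        (dG_ge h hK ..).2.1)
      (p2_L h z (p2_V h hK 1 hX fun d x => (Z_V h hK d.hl x).2.1)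
        (p2_V h hK 2 hX fun d x => (Z_V h hK d.hl x).2.2.1)
        (fun j => ((p2_h u hK).wk hX).le h (L := 64) (by norm_num) fun d x _ => by
          have a := mul_le_mul_of_nonneg_right (Zg_le h hK d.hl j x)
            (sq_nonneg (c1 C ((F.df F0 C).h j) n d.k x))
          have b := single_le_sum (f := fun i => C.at' (C.Zh K.p d.l i) x *
            c1 C ((F.df F0 C).h i) n d.k x ^ 2) (fun i _ => mul_nonneg
            ((ps_Zh h (ps_p hK) _ i).at h x).le (sq_nonneg _)) (mem_univ j)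
          linarith)
        (p2_sm h hK z _ fun d x j => jet_dn h (s _) n ((F.df F0 C).map (C.T)^[d.k]).g j x)
        (p2_al h hK hX fun d x => le64 h _ _ _ x) he)
      (pq_Q h hK z (sup_g h hK) (sup_h h hK) (fun d x j => q_g h hK d x j (le64 h _ _ _ x))
        fun d x j => q_h h hK d x j ((Zg_le h hK d.hl j x).trans (mul_le_mul_of_nonneg_left
          (le_mul_of_one_le_left ((ps_Zh h (ps_p hK) _ j).at h x).le
          ((p_ge h hK x).1.trans (p_ge h hK x).2)) (by norm_num))))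
  refine P2.absorb h hK (Y := D2.dg) (p2_sum fun i => ?_) y0 fun d x => dn_jet h (s _) n _ x
  fin_cases i
  exacts [row le_rfl u.g0 p2_0', row le_rfl u.g1 p2_0', row le_rfl u.g2 p2_0',
    row le_rfl u.g3 p2_0', row le_rfl u.g4 p2_0', row one_le_two u.g5 (row le_rfl u.g3 p2_0'),
    row le_rfl u.g6 p2_0', row le_rfl u.g7 p2_0', row le_rfl u.g8 p2_0']

theorem p2_b : P2 (fun (d : D2 F (F.df F0 C) K n) x =>
    ∑ i, C.at' (C.Zb d.l) x * c1 C ((F.df F0 C).b i) n d.k x ^ 2) 0 := by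
  have h := u.h
  have s : ∀ l (_ : Fin 7), Ps (C.Zb l) := fun _ _ => ps_mon h ..
  have y0 : ∀ (d : D2 F (F.df F0 C) K n) x, 0 ≤ C.val x d.db := fun d x =>
    dn_nonneg h (s _) (vl_sl0 h _) _
  have hX : ∀ d : D2 F (F.df F0 C) K n, 0 ≤ d.E d.db := fun d => E_pos h hK d.cau fun x _ => y0 d x
  have z : ∀ (d : D2 F (F.df F0 C) K n) x, 0 ≤ C.at' (C.Zb d.l) x := fun d x => (at_pos h ..).le
  have row : ∀ {k i e}, Eb C F F0 k i e →
      P2 (fun (d : D2 F (F.df F0 C) K n) x => C.at' (C.Zb d.l) x * c1 C e n d.k x ^ 2)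
        (fun d => d.E d.db) → P2 (fun (d : D2 F (F.df F0 C) K n) x =>
        C.at' (C.Zb d.l) x * c1 C ((F.df F0 C).b i) n d.k x ^ 2) fun d => d.E d.db := by
    intro k i e r he
    have hk : (0 : ℝ) ≤ k := Nat.cast_nonneg k
    exact p2_row h hK r (W := C.Zb) (fun d => hd_mon h k _ le_rfl (by linarith)) hX
      (fun d x => (le_dn h (s _) (vl_sl0 h _) ((F.df F0 C).map (C.T)^[d.k]).b i).trans
        (dG_ge h hK ..).1)
      (p2_L h z (p2_V h hK 2 hX fun d x => (Z_V h hK d.hl x).2.2.2.1)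
        (p2_V h hK 3 hX fun d x => (Z_V h hK d.hl x).2.2.2.2)
        (fun j => ((p2_g u hK).wk hX).le h (L := 64) (by norm_num) fun d x _ => by
          have a := mul_le_mul_of_nonneg_right (Zb_le (l := d.l) h x)
            (sq_nonneg (c1 C ((F.df F0 C).g j) n d.k x))
          have b := single_le_sum (f := fun i => C.at' (C.Zg d.l) x *
            c1 C ((F.df F0 C).g i) n d.k x ^ 2) (fun i _ => mul_nonneg
            (at_pos h ..).le (sq_nonneg _)) (mem_univ j)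
          linarith)
        (p2_sm h hK z _ fun d x j => jet_dn h (s _) n ((F.df F0 C).map (C.T)^[d.k]).b j x)
        (p2_al h hK hX fun d x => Zb_le h x) he)
      (pq_Q h hK z (sup_g h hK) (sup_g h hK) (fun d x j => q_g h hK d x j (Zb_le h x))
        fun d x j => q_g h hK d x j (Zb_le h x))
  refine P2.absorb h hK (Y := D2.db) (p2_sum fun i => ?_) y0 fun d x => dn_jet h (s _) n _ x
  fin_cases i
  exacts [row u.b0 p2_0', row u.b1 p2_0', row u.b2 p2_0', row u.b3 (row u.b0 p2_0'),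
    row u.b4 p2_0', row u.b5 p2_0', row u.b6 p2_0']

omit u hK

theorem f5a (C : Ch A) (F F0 : NF A) (t : Fin 4 → A) (K : Cut C) : F5a C F F0 t K := by
  intro g hK n
  cases isEmpty_or_nonempty C.J with
  | inl _ => exact ⟨1, one_pos, 0, fun _ => ⟨0, fun _ _ _ _ j => isEmptyElim j⟩⟩
  | inr j =>
    have u := su g j.some
    have h := u.h
    obtain ⟨c, c0, B, -, M, -, a⟩ := ((p2_b u hK (n := n)).add (p2_g u hK)).add (p2_h u hK)
    refine ⟨c, c0, B, fun k => ⟨M k, fun m tab ta hm j hj l hl ps cau => ?_⟩⟩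
    let d : D2 F (F.df F0 C) K n := ⟨k, m, j, l, ps, c, tab, ta, hm, hl, cau, c0.le, fun x hx => by
      have a := rr_le_R0 h (s := -1 / 10) (by norm_num) x
      have b := Real.rpow_le_rpow_of_exponent_le (one_le_rr h x)
        (show (-1 : ℝ) ≤ -1 / 10 by norm_num)
      have e := mul_nonneg (hK.ep x.1) (zero_le_one.trans ((p_ge h hK x).1.trans (p_ge h hK x).2))
      rw [Real.rpow_neg_one] at b
      rw [← hx, Cut.de] at hj
      linarith⟩
    obtain ⟨y, p, q⟩ := a d le_rfl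
    refine (E_le h hK cau fun x hx => le_trans ?_ (p x hx)).trans (q.trans (le_of_eq ?_))
    · rw [Ch.dG, vl_add, vl_add]
      exact add_le_add (add_le_add (dn_jet h (fun _ => ps_mon h ..) n _ x)
        (dn_jet h (fun _ => ps_mon h ..) n _ x)) (dn_jet h (ps_Zh h (ps_p hK) l) n _ x)
    · simp only [Pi.zero_apply, mul_zero, add_zero, D2.R1, D2.R2, D2.E, D2.dV, D2.dG, D2.dA, D2.dQ,
        d, mul_assoc]

end Vale.Agent.P354YF
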