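import Vale.Agent.P354YF.Cl

/-!
The transport equations of the differences, with classified sources.
-/

noncomputable section

namespace Vale.Agent.P354YF

open Vale.Agent.P354XG (Der D_mul D_add D_sub D_neg D_alg D_zero D_one D_num)
open Vale.Agent.P354XI Vale.Agent.P354XZ Vale.Agent.P354XZ.NF

variable {A : Type} [CommRing A] [Algebra ℂ A] {C : Ch A} {F F0 : NF A}

variable (C F F0) in
/-- The standing facts. -/
structure Su : Prop where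
  h : C.Is
  t : Tr C F
  t0 : Tr C F0
  s : Sb C F0
  ta : F.G.ta' = F0.G.ta'
  al : C.r * C.R F.al = -F.al

theorem su {t : Fin 4 → A} (g : F.Ga F0 C t) (j : C.J) : Su C F F0 :=
  ⟨g.ch, tr g.ch j g.is, tr g.ch j g.rf.is, sb g.ch j g.rf, g.ta, by
    have := g.is.al.1
    rw [D_mul, R_r g.ch] at this
    linear_combination this⟩

theorem uh0 : (F.df F0 C).h 0 = qs C F - qs C F0 := rfl
theorem uh1 : (F.df F0 C).h 1 = qr C F - qr C F0 := rfl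
theorem ug0 : (F.df F0 C).g 0 = F.G.ta - F0.G.ta := rfl
theorem ug1 : (F.df F0 C).g 1 = qs' C F - qs' C F0 := rfl
theorem ug2 : (F.df F0 C).g 2 = qr' C F - qr' C F0 := rfl
theorem ug3 : (F.df F0 C).g 3 = F.be - F0.be := rfl
theorem ug4 : (F.df F0 C).g 4 = F.mc 0 - F.al - (F0.mc 0 - F0.al) := rfl
theorem ug5 : (F.df F0 C).g 5 = C.ri * F.mc 1 - C.ri * F0.mc 1 := rfl
theorem ug6 : (F.df F0 C).g 6 = F.mc 2 - F0.mc 2 := rfl
theorem ug7 : (F.df F0 C).g 7 = F.mc 3 - F0.mc 3 := rfl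
theorem ug8 : (F.df F0 C).g 8 = F.mc 4 - F0.mc 4 := rfl
theorem ub0 : (F.df F0 C).b 0 = F.ga - F0.ga := rfl
theorem ub1 : (F.df F0 C).b 1 = qk' C F - qk' C F0 := rfl
theorem ub2 : (F.df F0 C).b 2 = F.nc 0 - F0.nc 0 := rfl
theorem ub3 : (F.df F0 C).b 3 = C.ri * F.nc 1 - C.ri * F0.nc 1 := rfl
theorem ub4 : (F.df F0 C).b 4 = F.nc 2 - F0.nc 2 := rfl
theorem ub5 : (F.df F0 C).b 5 = F.nc 3 - F0.nc 3 := rfl
theorem ub6 : (F.df F0 C).b 6 = F.nc 4 - F0.nc 4 := rfl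
theorem uV (i : Fin 5) : (F.df F0 C).V i = qV C F i - qV C F0 i := rfl

variable (C F F0) in
/-- The equations of the three classes. -/
def Eh (i : Fin 2) : Prop := Eqn 2 ((F.df F0 C).h i)
  (L6 C ((F.df F0 C).V 0) 0 (![] : Fin 0 → A) ![(F.df F0 C).h i] 0 0)
  (Q3 C (F.df F0 C).h (F.df F0 C).h F.al)
variable (C F F0) in
def Eg (k : ℕ) (i : Fin 9) (e : A) : Prop := Eqn k ((F.df F0 C).g i)
  (L6 C ((F.df F0 C).V 1) ((F.df F0 C).V 2) (F.df F0 C).h (F.df F0 C).g F.al e)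
  (Q3 C (F.df F0 C).g (F.df F0 C).h F.al)
variable (C F F0) in
def Eb (k : ℕ) (i : Fin 7) (e : A) : Prop := Eqn k ((F.df F0 C).b i)
  (L6 C ((F.df F0 C).V 2) ((F.df F0 C).V 3) (F.df F0 C).g (F.df F0 C).b F.al e)
  (Q3 C (F.df F0 C).g (F.df F0 C).g F.al)

namespace Su
variable (u : Su C F F0)
include u

theorem h0 : Eh C F F0 0 := by
  refine ⟨_, _, ?_, (((s4 u.h u.s.a (inS 0)).add
      (s4 u.h u.s.ca (inS 0))).add
      (s1 u.h (sy_r u.h) (in1 _))),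
    ((q1 u.h (inS 1) (inS 0)).add
      (q1 u.h (inC u.h 1) (inS 0)))⟩
  have e := u.t.si
  have e0 := u.t0.si
  simp only [uV, uh0, uh1, X1, map_sub, map_zero, u.s.z1, u.s.v0,
    Matrix.cons_val_fin_one] at e e0 ⊢
  push_cast
  linear_combination C.r * (e - e0)

theorem h1 : Eh C F F0 1 := by
  refine ⟨_, _, ?_, ((s4 u.h u.s.a (inS 0)).add
      (s4 u.h u.s.a (inS 0))),
    ((q1 u.h (inS 1) (inS 1)).add
      (q1 u.h (inS 0) (inC u.h 0)))⟩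
  have e := u.t.rh
  have e0 := u.t0.rh
  simp only [uh0, uh1, X1, map_sub, map_zero, u.s.z1,
    Matrix.cons_val_fin_one] at e e0 ⊢
  push_cast
  linear_combination C.r * (e - e0)

theorem g0 : Eg C F F0 1 0 0 := by
  refine ⟨_, _, ?_, ((((s4 u.h u.s.a (inS 0)).add
      (s3 u.h (d0 u.h u.s.cd) (inS 1))).add
      (s3 u.h (d0 u.h u.s.d) (inS 0))).add
      (s1 u.h (sy_r u.h) (in1 _))),
    ((q1 u.h (inS 0) (inS 1)).add
      (q1 u.h (inC u.h 0) (inS 0)))⟩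
  have e := u.t.ta
  have e0 := u.t0.ta
  simp only [uV, ug0, uh0, uh1, X1, map_sub, u.ta, u.s.z1, u.s.v1] at e e0 ⊢
  push_cast
  linear_combination C.r * (e - e0)

theorem g1 : Eg C F F0 1 1 0 := by
  refine ⟨_, _, ?_, ((((((s4 u.h u.s.a (inS 1)).add
      (s3 u.h u.s.b (inC u.h 0))).add
      (s4 u.h u.s.tR (inC u.h 5))).add
      (s4 u.h (u.s.tA 0) (inC u.h 7))).add
      (s4 u.h (u.s.tA 1) (inC u.h 6))).sub
      (s4 u.h (u.s.tA 2) (inC u.h 8))),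
    ((q1 u.h (inS 1) (inS 1)).add
      (q1 u.h (inS 2) (inC u.h 0)))⟩
  have e := u.t.si'
  have e0 := u.t0.si'
  simp only [ug1, ug2, ug5, ug6, ug7, ug8, uh0, uh1, X1, map_sub, map_mul, map_zero, c_ri u.h, u.ta, u.s.z1, u.s.z2,
    u.s.zT, NF.mb, vf_ap, Ch.cj, Matrix.cons_val] at e e0 ⊢
  push_cast
  linear_combination C.r * (e - e0) - C.r * C.R F0.G.ta' * (C.c (F.mc 1) - C.c (F0.mc 1)) * u.h.hr

theorem g2 : Eg C F F0 1 2 0 := by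
  refine ⟨_, _, ?_, (((((((s4 u.h u.s.ca (inS 2)).add
      (s3 u.h u.s.b (inC u.h 1))).add
      (s4 u.h u.s.tR (inS 5))).add
      (s4 u.h (u.s.tA 0) (inS 6))).add
      (s4 u.h (u.s.tA 1) (inS 7))).add
      (s4 u.h (u.s.tA 2) (inS 8))).sub
      (s2 u.h (sy_r u.h) (in1 _))),
    ((q1 u.h (inS 2) (inC u.h 1)).add
      (q1 u.h (inS 1) (inS 0)))⟩
  have e := u.t.rh'
  have e0 := u.t0.rh'
  simp only [uV, ug1, ug2, ug5, ug6, ug7, ug8, uh0, uh1, X1, map_sub, u.ta, u.s.z1, u.s.z2,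
    u.s.zT, NF.m, vf_ap] at e e0 ⊢
  push_cast
  linear_combination C.r * (e - e0) - C.r * C.R F0.G.ta' * (F.mc 1 - F0.mc 1) * u.h.hr

theorem g3 : Eg C F F0 1 3 0 := by
  refine ⟨_, _, ?_, ((((((s4 u.h u.s.ca (inS 3)).add
      (s3 u.h u.s.be (inC u.h 1))).add
      (s3 u.h u.s.cbe (inS 0))).sub
      (s1 u.h (sy_r u.h) (in1 _))).add
      (s3 u.h (d0 u.h u.s.t) (inS 0))).add
      (s3 u.h (d0 u.h u.s.ct) (inC u.h 1))),
    ((q1 u.h (inS 3) (inC u.h 1)).add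
      (q1 u.h (inC u.h 3) (inS 0)))⟩
  have e := u.t.be
  have e0 := u.t0.be
  simp only [uV, ug3, uh0, uh1, X1, map_sub, u.ta, u.s.z1, u.s.v1] at e e0 ⊢
  push_cast
  linear_combination C.r * (e - e0)

theorem g4 : Eg C F F0 1 4 0 := by
  refine ⟨_, _, ?_, ((((s4 u.h u.s.ca (inS 4)).add
      (s5 u.h u.s.ca (in1 _))).add
      (s3 u.h (r0 u.h (u.s.m 0)) (inC u.h 1))).add
      (s3 u.h (r0 u.h (u.s.cm 0)) (inS 0))),
    ((((q1 u.h (inS 4) (inC u.h 1)).add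
      (q1 u.h (inC u.h 4) (inS 0))).add
      (q2 u.h (in1 _) (inC u.h 1))).add
      (q2 u.h ((in1 _).c u.h) (inS 0)))⟩
  have e := u.t.m0
  have e0 := u.t0.m0
  simp only [ug4, uh0, uh1, X1, map_sub, map_zero, u.s.z1,
    u.s.al] at e e0 ⊢
  push_cast
  linear_combination C.r * (e - e0) - u.al

theorem g5 : Eg C F F0 2 5 ((F.df F0 C).g 3) := by
  refine ⟨_, _, ?_, ((((s4 u.h u.s.ca (inS 5)).add
      (s3 u.h (d0 u.h (u.s.m 1)) (inC u.h 1))).add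
      (s3 u.h (d0 u.h (u.s.cm 1)) (inS 0))).add
      (s6 u.h)),
    ((q1 u.h (inS 5) (inC u.h 1)).add
      (q1 u.h (inC u.h 5) (inS 0)))⟩
  have e := u.t.m1
  have e0 := u.t0.m1
  simp only [ug3, ug5, uh0, uh1, X1, map_sub, map_mul, c_ri u.h, u.ta, u.s.z1,
    D_mul, D_ri u.h, R_r u.h] at e e0 ⊢
  push_cast
  linear_combination e - e0 + (C.R (F.mc 1) - C.R (F0.mc 1) - C.ri * (F.mc 1 - F0.mc 1) -
    C.c (qr C F) * (F.mc 1 - F0.mc 1) - qs C F * (C.c (F.mc 1) - C.c (F0.mc 1))) * u.h.hr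

theorem g6 : Eg C F F0 1 6 0 := by
  refine ⟨_, _, ?_, (((s4 u.h u.s.ca (inS 6)).add
      (s3 u.h (r0 u.h (u.s.m 2)) (inC u.h 1))).add
      (s3 u.h (r0 u.h (u.s.cm 3)) (inS 0))),
    ((q1 u.h (inS 6) (inC u.h 1)).add
      (q1 u.h (inC u.h 7) (inS 0)))⟩
  have e := u.t.m2
  have e0 := u.t0.m2
  simp only [ug6, ug7, uh0, uh1, X1, map_sub, u.s.z1] at e e0 ⊢
  push_cast
  linear_combination C.r * (e - e0)

theorem g7 : Eg C F F0 1 7 0 := by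
  refine ⟨_, _, ?_, (((s4 u.h u.s.ca (inS 7)).add
      (s3 u.h (r0 u.h (u.s.m 3)) (inC u.h 1))).add
      (s3 u.h (r0 u.h (u.s.cm 2)) (inS 0))),
    ((q1 u.h (inS 7) (inC u.h 1)).add
      (q1 u.h (inC u.h 6) (inS 0)))⟩
  have e := u.t.m3
  have e0 := u.t0.m3
  simp only [ug6, ug7, uh0, uh1, X1, map_sub, u.s.z1] at e e0 ⊢
  push_cast
  linear_combination C.r * (e - e0)

theorem g8 : Eg C F F0 1 8 0 := by
  refine ⟨_, _, ?_, ((((((s4 u.h u.s.ca (inS 8)).add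
      (s3 u.h (r0 u.h (u.s.m 4)) (inC u.h 1))).sub
      (s3 u.h (r0 u.h (u.s.cm 4)) (inS 0))).sub
      (s1 u.h (hfs u.h (sy_r u.h)) (in1 _))).add
      (s3 u.h (hfs u.h (d0 u.h u.s.t)) (inS 0))).sub
      (s3 u.h (hfs u.h (d0 u.h u.s.ct)) (inC u.h 1))),
    ((q1 u.h (inS 8) (inC u.h 1)).sub
      (q1 u.h (inC u.h 8) (inS 0)))⟩
  have e := u.t.m4
  have e0 := u.t0.m4
  simp only [uV, ug8, uh0, uh1, X1, map_sub, u.ta, u.s.z1, u.s.v1] at e e0 ⊢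
  push_cast
  linear_combination C.r * (e - e0)

theorem b0 : Eb C F F0 0 0 0 := by
  refine ⟨_, _, ?_, ((((((((s3 u.h (d0 u.h u.s.d) (inS 3)).add
      (s3 u.h u.s.be (inC u.h 0))).add
      (s3 u.h (d0 u.h u.s.cd) (inC u.h 3))).add
      (s3 u.h u.s.cbe (inS 0))).sub
      (s1 u.h (sy_r u.h) (in1 _))).add
      (s3 u.h (d0 u.h u.s.t) (inS 0))).sub
      (s1 u.h (sy_r u.h) ((in1 _).c u.h))).add
      (s3 u.h (d0 u.h u.s.ct) (inC u.h 0))),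
    ((q1 u.h (inC u.h 0) (inS 3)).add
      (q1 u.h (inS 0) (inC u.h 3)))⟩
  have e := u.t.ga
  have e0 := u.t0.ga
  simp only [uV, ub0, ug0, ug3, X1, map_sub, u.ta] at e e0 ⊢
  push_cast
  linear_combination C.r * (e - e0)

theorem b1 : Eb C F F0 0 1 0 := by
  refine ⟨_, _, ?_, ((((((((s4 u.h u.s.tR (inS 3)).add
      (s4 u.h (u.s.tA 0) (inS 4))).add
      (s4 u.h (u.s.tA 1) (inS 5))).add
      (s4 u.h (u.s.tA 2) (inS 6))).add
      (s3 u.h (d0 u.h u.s.d) (inS 2))).add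
      (s3 u.h u.s.b (inC u.h 0))).add
      (s3 u.h (d0 u.h u.s.cd) (inS 1))).sub
      (s2 u.h (sy_r u.h) (in1 _))),
    ((q1 u.h (inC u.h 0) (inS 2)).add
      (q1 u.h (inS 0) (inS 1)))⟩
  have e := u.t.ka'
  have e0 := u.t0.ka'
  simp only [uV, ub1, ub3, ub4, ub5, ub6, ug0, ug1, ug2, X1, map_sub, map_zero, u.ta, u.s.z2, u.s.z3,
    u.s.v3, u.s.zT, NF.n, vf_ap] at e e0 ⊢
  push_cast
  linear_combination C.r * (e - e0) - C.r * C.R F0.G.ta' * (F.nc 1 - F0.nc 1) * u.h.hr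

theorem b2 : Eb C F F0 0 2 0 := by
  refine ⟨_, _, ?_, ((((((s3 u.h (d0 u.h u.s.d) (inS 4)).add
      (s5 u.h u.s.d (in1 _))).add
      (s3 u.h (r0 u.h (u.s.m 0)) (inC u.h 0))).add
      (s3 u.h (d0 u.h u.s.cd) (inC u.h 4))).add
      (s5 u.h u.s.cd ((in1 _).c u.h))).add
      (s3 u.h (r0 u.h (u.s.cm 0)) (inS 0))),
    ((((q1 u.h (inC u.h 0) (inS 4)).add
      (q1 u.h (inS 0) (inC u.h 4))).add
      (q2 u.h (in1 _) (inC u.h 0))).add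
      (q2 u.h ((in1 _).c u.h) (inS 0)))⟩
  have e := u.t.n0
  have e0 := u.t0.n0
  simp only [ub2, ug0, ug4, X1, map_sub, map_zero, u.ta, u.s.z1, u.s.z2, u.s.z3, u.s.v0, u.s.v1,
    u.s.v3, u.s.al, u.s.zT, NF.m, NF.mb, NF.n, vf_ap, Ch.cj, Matrix.cons_val, Matrix.cons_val_fin_one,
    D_mul, D_ri u.h, R_r u.h] at e e0 ⊢
  push_cast
  linear_combination C.r * (e - e0)

theorem b3 : Eb C F F0 1 3 ((F.df F0 C).b 0) := by
  refine ⟨_, _, ?_, (((((s3 u.h (d0 u.h u.s.d) (inS 5)).add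
      (s3 u.h (d0 u.h (u.s.m 1)) (inC u.h 0))).add
      (s3 u.h (d0 u.h u.s.cd) (inC u.h 5))).add
      (s3 u.h (d0 u.h (u.s.cm 1)) (inS 0))).add
      (s6 u.h)),
    ((q1 u.h (inC u.h 0) (inS 5)).add
      (q1 u.h (inS 0) (inC u.h 5)))⟩
  have e := u.t.n1
  have e0 := u.t0.n1
  simp only [ub0, ub3, ug0, ug5, X1, map_sub, map_mul, map_zero, D_zero, c_ri u.h, u.ta, u.s.z1, u.s.z2, u.s.z3, u.s.v0, u.s.v1,
    u.s.v3, u.s.al, u.s.zT, NF.m, NF.mb, NF.n, vf_ap, Ch.cj, Matrix.cons_val, Matrix.cons_val_fin_one,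
    D_mul, D_ri u.h, R_r u.h] at e e0 ⊢
  push_cast
  linear_combination e - e0 + (C.R (F.nc 1) - C.R (F0.nc 1) - C.ri * (F.nc 1 - F0.nc 1) -
    (C.c F.G.ta - F0.G.ta') * (F.mc 1 - F0.mc 1) -
    (F.G.ta - C.c F0.G.ta') * (C.c (F.mc 1) - C.c (F0.mc 1))) * u.h.hr

theorem b4 : Eb C F F0 0 4 0 := by
  refine ⟨_, _, ?_, ((((s3 u.h (d0 u.h u.s.d) (inS 6)).add
      (s3 u.h (r0 u.h (u.s.m 2)) (inC u.h 0))).add
      (s3 u.h (d0 u.h u.s.cd) (inC u.h 7))).add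
      (s3 u.h (r0 u.h (u.s.cm 3)) (inS 0))),
    ((q1 u.h (inC u.h 0) (inS 6)).add
      (q1 u.h (inS 0) (inC u.h 7)))⟩
  have e := u.t.n2
  have e0 := u.t0.n2
  simp only [ub4, ug0, ug6, ug7, X1, map_sub, map_mul, map_zero, D_zero, c_ri u.h, u.ta, u.s.z1, u.s.z2, u.s.z3, u.s.v0, u.s.v1,
    u.s.v3, u.s.al, u.s.zT, NF.m, NF.mb, NF.n, vf_ap, Ch.cj, Matrix.cons_val, Matrix.cons_val_fin_one,
    D_mul, D_ri u.h, R_r u.h] at e e0 ⊢
  push_cast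
  linear_combination C.r * (e - e0)

theorem b5 : Eb C F F0 0 5 0 := by
  refine ⟨_, _, ?_, ((((s3 u.h (d0 u.h u.s.d) (inS 7)).add
      (s3 u.h (r0 u.h (u.s.m 3)) (inC u.h 0))).add
      (s3 u.h (d0 u.h u.s.cd) (inC u.h 6))).add
      (s3 u.h (r0 u.h (u.s.cm 2)) (inS 0))),
    ((q1 u.h (inC u.h 0) (inS 7)).add
      (q1 u.h (inS 0) (inC u.h 6)))⟩
  have e := u.t.n3
  have e0 := u.t0.n3
  simp only [ub5, ug0, ug6, ug7, X1, map_sub, map_mul, map_zero, D_zero, c_ri u.h, u.ta, u.s.z1, u.s.z2, u.s.z3, u.s.v0, u.s.v1,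
    u.s.v3, u.s.al, u.s.zT, NF.m, NF.mb, NF.n, vf_ap, Ch.cj, Matrix.cons_val, Matrix.cons_val_fin_one,
    D_mul, D_ri u.h, R_r u.h] at e e0 ⊢
  push_cast
  linear_combination C.r * (e - e0)

theorem b6 : Eb C F F0 0 6 0 := by
  refine ⟨_, _, ?_, ((((((((s3 u.h (d0 u.h u.s.d) (inS 8)).add
      (s3 u.h (r0 u.h (u.s.m 4)) (inC u.h 0))).sub
      (s3 u.h (d0 u.h u.s.cd) (inC u.h 8))).sub
      (s3 u.h (r0 u.h (u.s.cm 4)) (inS 0))).sub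
      (s1 u.h (hfs u.h (sy_r u.h)) (in1 _))).add
      (s3 u.h (hfs u.h (d0 u.h u.s.t)) (inS 0))).add
      (s1 u.h (hfs u.h (sy_r u.h)) ((in1 _).c u.h))).sub
      (s3 u.h (hfs u.h (d0 u.h u.s.ct)) (inC u.h 0))),
    ((q1 u.h (inC u.h 0) (inS 8)).sub
      (q1 u.h (inS 0) (inC u.h 8)))⟩
  have e := u.t.n4
  have e0 := u.t0.n4
  simp only [uV, ub6, ug0, ug8, X1, map_sub, map_mul, map_zero, D_zero, c_ri u.h, u.ta, u.s.z1, u.s.z2, u.s.z3, u.s.v0, u.s.v1,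
    u.s.v3, u.s.al, u.s.zT, NF.m, NF.mb, NF.n, vf_ap, Ch.cj, Matrix.cons_val, Matrix.cons_val_fin_one,
    D_mul, D_ri u.h, R_r u.h] at e e0 ⊢
  push_cast
  linear_combination C.r * (e - e0)

end Su
end Vale.Agent.P354YF
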