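import Vale.Agent.P354YF.Cmp
import Vale.Agent.P354YF.Df
import Vale.Agent.P354YS.Wt

/-!
The transport of the suprema.
-/

noncomputable section

namespace Vale.Agent.P354YF

open Vale.Agent.P354XI Vale.Agent.P354XZ Finset
open Vale.Agent.P354YS (Ps ps_one ps_Dw tb_le tb Mo)

variable {A : Type} [CommRing A] [Algebra ℂ A] {C : Ch A}

variable (C) in
/-- The strong table of the gauge quantities. -/
def TabS (n : ℕ) (e : C.J → ℝ) (U : Un A) (Y : Set C.Pt) : Prop :=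
  ∀ x ∈ Y, (∀ i, C.jet n (U.b i) x ≤ e x.1 * C.at' C.Sb x) ∧
    (∀ i, C.jet n (U.g i) x ≤ e x.1 * C.at' (Sg' C) x) ∧
    ∀ i, C.jet n (U.h i) x ≤ e x.1 * C.at' C.Sh x

variable (C) in
/-- The second bound of the conserved part. -/
def TabB (n : ℕ) (e : C.J → ℝ) (al : A) : Prop :=
  ∀ x, C.jet n al x ≤ e x.1 * C.at' (C.mon (37 / 40) (-11 / 8) (3 / 20)) x

theorem Sg'_le (h : C.Is) (x : C.Pt) : C.at' (Sg' C) x ≤ C.at' C.Sg x := by
  have r := rr_pos h x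
  have v := two_le_vv x.1 (C.uu x) (C.rr x)
  have a : C.vv x.1 (C.uu x) (C.rr x) ^ (-37 / 40 : ℝ) ≤ C.rr x ^ (-37 / 40 : ℝ) :=
    Real.rpow_le_rpow_of_nonpos r (by linarith) (by norm_num)
  have b : C.ut x.1 (C.uu x) ^ (-3 / 10 : ℝ) ≤ C.ut x.1 (C.uu x) ^ (-1 / 4 : ℝ) :=
    Real.rpow_le_rpow_of_exponent_le (one_le_ut h ..) (by norm_num)
  have t := one_pos.trans_le (one_le_ut h x.1 (C.uu x))
  simp only [Ch.at', Sg', Ch.Sg, Ch.mon, Real.rpow_zero, mul_one]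
  have e := Real.rpow_add r (-3 / 40) (-37 / 40)
  rw [show (-3 / 40 + -37 / 40 : ℝ) = -1 by norm_num] at e
  rw [e]
  exact mul_le_mul (mul_le_mul_of_nonneg_left a (by positivity)) b (by positivity) (by positivity)

theorem TabS.tabG (h : C.Is) {n : ℕ} {e : C.J → ℝ} (he : ∀ j, 0 ≤ e j) {U : Un A} {Y : Set C.Pt}
    (t : TabS C n e U Y) : C.TabG n e U Y := fun x hx =>
  ⟨(t x hx).1, fun i => ((t x hx).2.1 i).trans (mul_le_mul_of_nonneg_left (Sg'_le h x) (he _)),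
    (t x hx).2.2⟩

/-- Transport of the suprema. -/
def F5b' (C : Ch A) (F F0 : NF A) (t : Fin 4 → A) : Prop :=
  F.Ga F0 C t → ∀ n : ℕ, ∃ B, ∀ Z, C.Lin Z → ∀ e0 e1 e2 : C.J → ℝ,
  (∀ j, 0 ≤ e0 j ∧ 0 ≤ e1 j ∧ 0 ≤ e2 j) → TabS C n e0 (F.df F0 C) Z → C.TabA n e0 F.al →
  TabB C n e0 F.al → TabS C n e1 (F.df F0 C) Set.univ →
  C.TabV n (1 / 100) e2 (F.df F0 C).V Set.univ →
  TabS C n (fun j => B * (e0 j + e2 j + (e1 j + C.R0 j ^ (-1 / 10 : ℝ)) * e1 j)) (F.df F0 C)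
    Set.univ

theorem Dw_ge (h : C.Is) {p : Fam C.J} (hp : Ps p) (l : ℝ) (x : C.Pt) :
    C.at' p x * C.at' (C.mon (23 / 20) (14 / 5 - l) 0) x ≤ C.at' (C.Dw p l 0) x ∧
    C.at' p x * C.at' (C.mon (23 / 20) (14 / 5 - l) 0) x ≤ C.at' (C.Dw p l 1) x ∧
    C.at' (C.mon (23 / 20) (14 / 5 - l) 0) x ≤ C.at' (C.Dw p l 2) x ∧
    C.at' (C.mon (23 / 20) (17 / 10 - l) (11 / 10)) x ≤ C.at' (C.Dw p l 3) x := by
  have := tb_le h hp l (z := 1) (x := x) (pow_one _).symm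
  exact ⟨by simpa [tb, Mo.ev] using this 0, by simpa [tb, Mo.ev] using this 1,
    by simpa [tb, Mo.ev] using this 2, by simpa [tb, Mo.ev] using this 3⟩

variable (C) in
/-- The data of the statement. -/
structure Dt (n : ℕ) (U : Un A) (al : A) where
  Z : Set C.Pt
  e0 : C.J → ℝ
  e1 : C.J → ℝ
  e2 : C.J → ℝ
  lin : C.Lin Z
  pos : ∀ j, 0 ≤ e0 j ∧ 0 ≤ e1 j ∧ 0 ≤ e2 j
  t0 : TabS C n e0 U Z
  ta : C.TabA n e0 al
  tb : TabB C n e0 al
  t1 : TabS C n e1 U Set.univ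
  tv : C.TabV n (1 / 100) e2 U.V Set.univ

variable {n : ℕ} {U : Un A} {al : A}

def Dt.E (d : Dt C n U al) (j : C.J) : ℝ :=
  d.e0 j + d.e2 j + (d.e1 j + C.R0 j ^ (-1 / 10 : ℝ)) * d.e1 j

theorem Dt.le (h : C.Is) (d : Dt C n U al) (j : C.J) : 0 ≤ d.E j ∧ d.e0 j ≤ d.E j ∧ d.e2 j ≤ d.E j ∧
    d.e1 j * d.e1 j ≤ d.E j ∧ C.R0 j ^ (-1 / 10 : ℝ) * d.e1 j ≤ d.E j := by
  obtain ⟨a, b, c⟩ := d.pos j
  have := mul_nonneg (Real.rpow_nonneg (zero_le_one.trans (h.one_le j).1) (-1 / 10)) b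
  have := mul_nonneg b b
  rw [Dt.E, add_mul]
  refine ⟨?_, ?_, ?_, ?_, ?_⟩ <;> linarith

variable (n U al) in
/-- Bounded by a constant times E s. -/
def Oo (q : C.Pt → ℝ) (s : Fam C.J) : Prop :=
  ∃ K, 0 ≤ K ∧ ∀ d : Dt C n U al, ∀ x : C.Pt, d.e1 x.1 ≤ 1 → q x ≤ K * (d.E x.1 * C.at' s x)

variable {q q' : C.Pt → ℝ} {s s' : Fam C.J} {ι κ : Type} [Fintype ι] [Fintype κ]

theorem Oo.add (a : Oo n U al q s) (b : Oo n U al q' s) : Oo n U al (fun x => q x + q' x) s := by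
  obtain ⟨K, K0, hK⟩ := a
  obtain ⟨L, L0, hL⟩ := b
  exact ⟨K + L, add_nonneg K0 L0, fun d x e => by linarith [hK d x e, hL d x e]⟩

theorem oo_zero (e : ∀ x, q x = 0) : Oo n U al q s := ⟨0, le_rfl, fun _ x _ => by simp [e x]⟩

theorem oo_sum {f : ι → C.Pt → ℝ} (a : ∀ i, Oo n U al (f i) s) :
    Oo n U al (fun x => ∑ i, f i x) s := by
  choose K K0 hK using a
  exact ⟨∑ i, K i, sum_nonneg fun i _ => K0 i, fun d x e => by
    rw [sum_mul]; exact sum_le_sum fun i _ => hK i d x e⟩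

theorem Oo.wk (h : C.Is) (a : Oo n U al q s) (e : ∀ x, C.at' s x ≤ 64 * C.at' s' x) :
    Oo n U al q s' := by
  obtain ⟨K, K0, hK⟩ := a
  refine ⟨K * 64, by positivity, fun d x c => (hK d x c).trans ?_⟩
  have := mul_le_mul_of_nonneg_left (mul_le_mul_of_nonneg_left (e x) (d.le h x.1).1) K0
  linarith

theorem oo_row (h : C.Is) {k : ℕ} {f : A} {L Q : Bd C} (e : Eqn k f L Q) {S : Fam C.J} {M : ℝ}
    (c : Cmp k S s M) (hM : 0 ≤ M) (hS : ∀ x, 0 ≤ C.at' S x) (hs : ∀ x, 0 ≤ C.at' s x)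
    (h0 : ∀ d : Dt C n U al, ∀ x ∈ d.Z, C.jet n f x ≤ d.e0 x.1 * C.at' S x)
    (hL : Oo n U al (L n 0) s) (hQ : Oo n U al (Q n n) s) : Oo n U al (c1 C f n 0) S := by
  obtain ⟨G1, G2, e, l, q⟩ := e
  obtain ⟨K1, p1, l⟩ := l n
  obtain ⟨K2, p2, q⟩ := q n
  obtain ⟨L1, r1, hL⟩ := hL
  obtain ⟨L2, r2, hQ⟩ := hQ
  refine ⟨6 ^ n * (M * (1 + K1 * L1 + K2 * L2)), by positivity, fun d x c1 => ?_⟩
  obtain ⟨E0, E1, -⟩ := d.le h x.1
  have := c.jet h d.lin x.1 (E := (1 + K1 * L1 + K2 * L2) * d.E x.1) (by positivity) n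
    (e.trans (add_assoc ..)) (fun y hy hj => ?_) (fun y hj => ?_) x rfl
  · exact this.trans (le_of_eq (by ring))
  · refine (h0 d y hy).trans (mul_le_mul_of_nonneg_right ?_ (hS y))
    rw [hj]
    nlinarith [mul_nonneg (mul_nonneg p1 r1) E0, mul_nonneg (mul_nonneg p2 r2) E0]
  · have a := (l 0 y).trans (mul_le_mul_of_nonneg_left (hL d y (hj ▸ c1)) p1)
    have b := (q n y (by omega)).trans (mul_le_mul_of_nonneg_left (hQ d y (hj ▸ c1)) p2)
    rw [hj] at a b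
    have := jet_add (x := y) n G1 G2
    change C.jet n G1 y ≤ _ at a
    nlinarith [mul_nonneg E0 (hs y)]

theorem oo_V (h : C.Is) (i : Fin 5) {a b e a' b' e' : ℝ}
    (hD : ∀ x, C.at' (C.mon a' b' e') x ≤ C.at' (C.Dw 1 (1 / 100) i) x)
    (c : ∀ x, C.at' (C.mon 1 0 0) x ≤ 64 * C.at' (C.mon (0 + a' + (a + a)) (0 + b' + (b + b))
      (-3 / 10 + e' + (e + e))) x) :
    Oo n U al (fun x => C.rr x * c1 C (U.V i) n 0 x) (C.mon a b e) := by
  have hD : ∀ x, C.at' (C.mon (0 + a') (0 + b') (-3 / 10 + e')) x ≤ C.at' (C.Dt (1 / 100) i) x :=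
    fun x => (at_mon_mul h ..).ge.trans (mul_le_mul_of_nonneg_left (hD x) (at_pos h ..).le)
  refine ⟨8, by norm_num, fun d x _ => ?_⟩
  have t := d.tv x trivial i
  have c := c x
  rw [at_r1, ← at_mon_mul h, ← at_mon_mul h a] at c
  have s := at_pos h a b e x
  have r := rr_pos h x
  have y := jet0 (x := x) n (U.V i)
  have : C.rr x * C.jet n (U.V i) x ≤ 8 * (d.e2 x.1 * C.at' (C.mon a b e) x) := by
    refine abs_le_of_sq_le_sq' ?_ (by have := (d.pos x.1).2.2; positivity) |>.2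
    have p := mul_le_mul_of_nonneg_right (c.trans (mul_le_mul_of_nonneg_left
      (mul_le_mul_of_nonneg_right (hD x) (mul_pos s s).le) (by norm_num)))
      (mul_nonneg r.le (sq_nonneg (C.jet n (U.V i) x)))
    have q := mul_le_mul_of_nonneg_left t (mul_pos s s).le
    nlinarith
  exact this.trans (by have := (d.le h x.1).2.2.1; gcongr)

theorem oo_sm (h : C.Is) {Q : κ → A} {a b e a' b' e' : ℝ}
    (t : ∀ d : Dt C n U al, ∀ x i, C.jet n (Q i) x ≤ d.e1 x.1 * C.at' (C.mon a' b' e') x)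
    (c : ∀ x, C.at' (C.mon (-1 + a') (0 + b') (0 + e')) x ≤
      64 * C.at' (C.mon (-1 / 10 + a) (0 + b) (0 + e)) x) :
    Oo n U al (fun x => (C.rr x)⁻¹ * cS C Q n 0 x) (C.mon a b e) := by
  simp only [cS, mul_sum]
  refine oo_sum fun i => ⟨64, by norm_num, fun d x _ => ?_⟩
  have c := c x
  rw [← at_mon_mul h, ← at_mon_mul h, at_r, at_r, Real.rpow_neg_one] at c
  have s := (at_pos h a b e x).le
  have e1 := (d.pos x.1).2.1
  have p := mul_le_mul_of_nonneg_left (t d x i) (inv_nonneg.2 (rr_pos h x).le)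
  have q := mul_le_mul_of_nonneg_left c e1
  have u := mul_le_mul_of_nonneg_right (mul_le_mul_of_nonneg_right
    (rr_le_R0 h (s := -1 / 10) (by norm_num) x) e1) s
  have v := mul_le_mul_of_nonneg_right (d.le h x.1).2.2.2.2 s
  change _ * C.jet n (Q i) x ≤ _
  linarith

theorem oo_al (h : C.Is) : Oo n U al (fun x => (C.rr x)⁻¹ * c1 C al n 0 x) C.Sh := by
  refine ⟨1, zero_le_one, fun d x _ => ?_⟩
  have p := mul_le_mul_of_nonneg_left (d.tb x) (inv_nonneg.2 (rr_pos h x).le)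
  have c := at_mon_mul h (-1) 0 0 (37 / 40) (-11 / 8) (3 / 20) x
  rw [at_r, Real.rpow_neg_one, show (-1 : ℝ) + 37 / 40 = -3 / 40 by norm_num, zero_add,
    zero_add] at c
  rw [mul_left_comm, c] at p
  rw [one_mul]
  exact p.trans (mul_le_mul_of_nonneg_right (d.le h x.1).2.1 (at_pos h ..).le)

theorem oo_Q (h : C.Is) {P : ι → A} {Q : κ → A} {a b e a' b' e' : ℝ}
    (t : ∀ d : Dt C n U al, ∀ x i, C.jet n (P i) x ≤ d.e1 x.1 * C.at' (C.mon a' b' e') x)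
    (t' : ∀ d : Dt C n U al, ∀ x i, C.jet n (Q i) x ≤ d.e1 x.1 * C.at' (C.mon a b e) x)
    (c : ∀ x, C.at' (C.mon (1 + a') (0 + b') (0 + e')) x ≤ 64 * C.at' (C.mon 0 0 0) x) :
    Oo n U al (Q3 C P Q al n n) (C.mon a b e) := by
  refine ⟨(128 * Fintype.card ι + 1) * Fintype.card κ, by positivity, fun d x e1 => ?_⟩
  have c := c x
  rw [← at_mon_mul h, at_r1, at_r0, mul_one] at c
  obtain ⟨p0, p1, -⟩ := d.pos x.1
  obtain ⟨-, q0, -, q1, -⟩ := d.le h x.1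
  have r := rr_pos h x
  have s := (at_pos h a b e x).le
  have hP : C.rr x * cS C P n 0 x ≤ Fintype.card ι * (64 * d.e1 x.1) := by
    rw [cS, mul_sum, ← nsmul_eq_mul, ← card_univ]
    refine sum_le_card_nsmul _ _ _ fun i _ => ?_
    have := mul_le_mul_of_nonneg_left (t d x i) r.le
    have := mul_le_mul_of_nonneg_left c p1
    change _ * C.jet n (P i) x ≤ _
    linarith
  have hQ : cS C Q n 0 x ≤ Fintype.card κ * (d.e1 x.1 * C.at' (C.mon a b e) x) := by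
    rw [cS, ← nsmul_eq_mul, ← card_univ]
    exact sum_le_card_nsmul _ _ _ fun i _ => t' d x i
  have ha : C.rr x * c1 C al n 0 x ≤ d.e0 x.1 := by
    have := mul_le_mul_of_nonneg_left (d.ta x) r.le
    rwa [at_r, Real.rpow_neg_one, mul_left_comm, mul_inv_cancel₀ r.ne', mul_one] at this
  have u := mul_le_mul (add_le_add (add_le_add hP hP) ha) hQ (cS_0 ..) (by positivity)
  have v : (Fintype.card ι * (64 * d.e1 x.1) + Fintype.card ι * (64 * d.e1 x.1) + d.e0 x.1) *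
      d.e1 x.1 ≤ (128 * Fintype.card ι + 1) * d.E x.1 := by
    nlinarith [mul_le_mul_of_nonneg_left q1 (Nat.cast_nonneg (α := ℝ) (Fintype.card ι)),
      mul_le_mul_of_nonneg_left e1 p0]
  have w := mul_le_mul_of_nonneg_right v (mul_nonneg (Nat.cast_nonneg (Fintype.card κ)) s)
  rw [Q3]
  linarith

theorem oo_L {v w e : A} {P : ι → A} {Q : κ → A} {a : A}
    (h1 : Oo n U al (fun x => C.rr x * c1 C v n 0 x) s)
    (h2 : Oo n U al (fun x => C.rr x * c1 C w n 0 x) s) (h3 : ∀ i, Oo n U al (c1 C (P i) n 0) s)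
    (h4 : Oo n U al (fun x => (C.rr x)⁻¹ * cS C Q n 0 x) s)
    (h5 : Oo n U al (fun x => (C.rr x)⁻¹ * c1 C a n 0 x) s) (h6 : Oo n U al (c1 C e n 0) s) :
    Oo n U al (L6 C v w P Q a e n 0) s :=
  ((((h1.add h2).add (oo_sum h3)).add h4).add h5).add h6

theorem oo_0 (c : C.Pt → ℝ) : Oo n U al (fun x => c x * c1 C 0 n 0 x) s :=
  oo_zero fun x => by rw [c1_null, mul_zero]

theorem le64 (h : C.Is) (a b e : ℝ) (x : C.Pt) :
    C.at' (C.mon a b e) x ≤ 64 * C.at' (C.mon a b e) x := by linarith [at_pos h a b e x]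

variable {F F0 : NF A} (u : Su C F F0)
include u

theorem oo_Vh (i : Fin 3) : Oo n U al (fun x => C.rr x * c1 C (U.V i.castSucc.castSucc) n 0 x) C.Sh :=
  oo_V u.h _ (a' := 23 / 20) (b' := 14 / 5 - 1 / 100) (e' := 0) (fun x => by
    obtain ⟨a, b, c, -⟩ := Dw_ge u.h ps_one (1 / 100) x
    rw [show C.at' 1 x = 1 from rfl, one_mul] at a b
    fin_cases i
    exacts [a, b, c]) (at_le' u.h (by norm_num) (by norm_num) (by norm_num)
      (abs_le.2 ⟨by norm_num, by norm_num⟩))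

theorem oo_h (i : Fin 2) : Oo n (F.df F0 C) F.al (c1 C ((F.df F0 C).h i) n 0) C.Sh := by
  have e : Eh C F F0 i := by fin_cases i; exacts [u.h0, u.h1]
  refine oo_row u.h e (cmp_mon u.h 2 (by norm_num) (by norm_num)) zero_le_two
    (fun x => (at_pos u.h ..).le) (fun x => (at_pos u.h ..).le) (fun d x hx => (d.t0 x hx).2.2 i)
    (oo_L (oo_Vh u 0) (oo_0 _) (fun i => i.elim0) (oo_sm u.h (a' := -3 / 40) (b' := -11 / 8)
      (e' := 3 / 20) (fun d x j => ?_) (at_le' u.h (by norm_num) (by norm_num) (by norm_num)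
      (by norm_num))) (oo_0 _) (oo_zero (c1_null _ _)))
    (oo_Q u.h (fun d x => (d.t1 x trivial).2.2) (fun d x => (d.t1 x trivial).2.2)
      (at_le' u.h (by norm_num) (by norm_num) (by norm_num) (abs_le.2 ⟨by norm_num, by norm_num⟩)))
  rw [Subsingleton.elim j 0]; exact (d.t1 x trivial).2.2 i

theorem oo_gL {e : A} (w : ∀ x, C.at' C.Sh x ≤ 64 * C.at' s x)
    (he : Oo n (F.df F0 C) F.al (c1 C e n 0) s) : Oo n (F.df F0 C) F.al (L6 C ((F.df F0 C).V 1)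
      ((F.df F0 C).V 2) (F.df F0 C).h (F.df F0 C).g F.al e n 0) s :=
  oo_L ((oo_Vh u 1).wk u.h w) ((oo_Vh u 2).wk u.h w) (fun i => (oo_h u i).wk u.h w)
    ((oo_sm u.h (fun d x => (d.t1 x trivial).2.1) (at_le' u.h (by norm_num) (by norm_num)
      (by norm_num) (abs_le.2 ⟨by norm_num, by norm_num⟩))).wk u.h w) ((oo_al u.h).wk u.h w) he

theorem oo_gQ : Oo n (F.df F0 C) F.al (Q3 C (F.df F0 C).g (F.df F0 C).h F.al n n) C.Sh :=
  oo_Q u.h (fun d x => (d.t1 x trivial).2.1) (fun d x => (d.t1 x trivial).2.2)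
    (at_le' u.h (by norm_num) (by norm_num) (by norm_num) (abs_le.2 ⟨by norm_num, by norm_num⟩))

theorem oo_g1 {i : Fin 9} (e : Eg C F F0 1 i 0) :
    Oo n (F.df F0 C) F.al (c1 C ((F.df F0 C).g i) n 0) (Sg' C) :=
  oo_row u.h e (cmp_g u.h) (by norm_num) (fun _ => (at_pos u.h ..).le)
    (fun _ => (at_pos u.h ..).le) (fun d x hx => (d.t0 x hx).2.1 i)
    (oo_gL u (le64 u.h _ _ _) (oo_zero (c1_null _ _))) (oo_gQ u)

theorem oo_g (i : Fin 9) : Oo n (F.df F0 C) F.al (c1 C ((F.df F0 C).g i) n 0) (Sg' C) := by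
  have w : ∀ x, C.at' C.Sh x ≤ 64 * C.at' (Sg' C) x :=
    at_le' u.h (by norm_num) (by norm_num) (by norm_num) (abs_le.2 ⟨by norm_num, by norm_num⟩)
  fin_cases i
  exacts [oo_g1 u u.g0, oo_g1 u u.g1, oo_g1 u u.g2, oo_g1 u u.g3, oo_g1 u u.g4,
    oo_row u.h u.g5 (cmp_mon u.h 2 (by norm_num) (by norm_num)) zero_le_two
      (fun _ => (at_pos u.h ..).le) (fun _ => (at_pos u.h ..).le) (fun d x hx => (d.t0 x hx).2.1 5)
      (oo_gL u w (oo_g1 u u.g3)) ((oo_gQ u).wk u.h w),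
    oo_g1 u u.g6, oo_g1 u u.g7, oo_g1 u u.g8]

theorem oo_bL {e : A} (w : ∀ x, C.at' (Sb' C) x ≤ 64 * C.at' s x)
    (he : Oo n (F.df F0 C) F.al (c1 C e n 0) s) : Oo n (F.df F0 C) F.al (L6 C ((F.df F0 C).V 2)
      ((F.df F0 C).V 3) (F.df F0 C).g (F.df F0 C).b F.al e n 0) s :=
  have w1 : ∀ x, C.at' C.Sh x ≤ 64 * C.at' (Sb' C) x :=
    at_le' u.h (by norm_num) (by norm_num) (by norm_num) (abs_le.2 ⟨by norm_num, by norm_num⟩)
  have w2 : ∀ x, C.at' (Sg' C) x ≤ 64 * C.at' (Sb' C) x :=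
    at_le' u.h (by norm_num) (by norm_num) (by norm_num) (abs_le.2 ⟨by norm_num, by norm_num⟩)
  oo_L (((oo_Vh u 2).wk u.h w1).wk u.h w)
    ((oo_V u.h 3 (fun x => (Dw_ge u.h ps_one (1 / 100) x).2.2.2) (at_le' u.h (by norm_num)
      (by norm_num) (by norm_num) (abs_le.2 ⟨by norm_num, by norm_num⟩))).wk u.h w)
    (fun i => ((oo_g u i).wk u.h w2).wk u.h w)
    ((oo_sm u.h (fun d x => (d.t1 x trivial).1) (at_le' u.h (by norm_num) (by norm_num)
      (by norm_num) (by norm_num))).wk u.h w) (((oo_al u.h).wk u.h w1).wk u.h w) he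

theorem oo_bQ : Oo n (F.df F0 C) F.al (Q3 C (F.df F0 C).g (F.df F0 C).g F.al n n) (Sb' C) :=
  (oo_Q u.h (fun d x => (d.t1 x trivial).2.1) (fun d x => (d.t1 x trivial).2.1)
    (at_le' u.h (by norm_num) (by norm_num) (by norm_num)
      (abs_le.2 ⟨by norm_num, by norm_num⟩))).wk u.h
    (at_le' u.h (by norm_num) (by norm_num) (by norm_num) (abs_le.2 ⟨by norm_num, by norm_num⟩))

theorem oo_b1 {i : Fin 7} (e : Eb C F F0 0 i 0) :
    Oo n (F.df F0 C) F.al (c1 C ((F.df F0 C).b i) n 0) C.Sb :=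
  oo_row u.h e (cmp_b u.h) (by norm_num) (fun _ => (at_pos u.h ..).le)
    (fun _ => (at_pos u.h ..).le) (fun d x hx => (d.t0 x hx).1 i)
    (oo_bL u (le64 u.h _ _ _) (oo_zero (c1_null _ _))) (oo_bQ u)

theorem oo_b (i : Fin 7) : Oo n (F.df F0 C) F.al (c1 C ((F.df F0 C).b i) n 0) C.Sb := by
  have w : ∀ x, C.at' (Sb' C) x ≤ 64 * C.at' C.Sb x :=
    at_le' u.h (by norm_num) (by norm_num) (by norm_num) (by norm_num)
  fin_cases i
  exacts [oo_b1 u u.b0, oo_b1 u u.b1, oo_b1 u u.b2,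
    oo_row u.h u.b3 (cmp_mon u.h 1 le_rfl (by norm_num)) zero_le_two
      (fun _ => (at_pos u.h ..).le) (fun _ => (at_pos u.h ..).le) (fun d x hx => (d.t0 x hx).1 3)
      (oo_bL u w (oo_b1 u u.b0)) ((oo_bQ u).wk u.h w),
    oo_b1 u u.b4, oo_b1 u u.b5, oo_b1 u u.b6]

omit u

theorem f5b' (C : Ch A) (F F0 : NF A) (t : Fin 4 → A) : F5b' C F F0 t := by
  intro g n
  cases isEmpty_or_nonempty C.J with
  | inl _ => exact ⟨0, fun _ _ _ _ _ _ _ _ _ _ _ x => isEmptyElim x.1⟩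
  | inr j =>
    have u := su g j.some
    obtain ⟨K1, p1, b⟩ := oo_sum (oo_b u (n := n))
    obtain ⟨K2, p2, g⟩ := oo_sum (oo_g u (n := n))
    obtain ⟨K3, p3, h⟩ := oo_sum (oo_h u (n := n))
    refine ⟨1 + K1 + K2 + K3, fun Z lin e0 e1 e2 pos t0 ta tb t1 tv x _ => ?_⟩
    let d : Dt C n (F.df F0 C) F.al := ⟨Z, e0, e1, e2, lin, pos, t0, ta, tb, t1, tv⟩
    obtain ⟨E0, -, -, E1, -⟩ := d.le u.h x.1
    have key : ∀ {K : ℝ} {f : A} {S : ℝ}, 0 ≤ S → K ≤ 1 + K1 + K2 + K3 → C.jet n f x ≤ e1 x.1 * S →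
        (e1 x.1 ≤ 1 → C.jet n f x ≤ K * (d.E x.1 * S)) →
        C.jet n f x ≤ (1 + K1 + K2 + K3) * d.E x.1 * S := by
      intro K f S s k a b
      rcases le_total (e1 x.1) 1 with c | c
      · rw [mul_assoc]; exact (b c).trans (mul_le_mul_of_nonneg_right k (mul_nonneg E0 s))
      · refine a.trans (mul_le_mul_of_nonneg_right ?_ s)
        change e1 x.1 * e1 x.1 ≤ _ at E1
        nlinarith [mul_nonneg (add_nonneg (add_nonneg p1 p2) p3) E0]
    exact ⟨fun i => key (at_pos u.h ..).le (by linarith) ((t1 x trivial).1 i)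
        fun c => (inS i n 0 x).trans (b d x c),
      fun i => key (at_pos u.h ..).le (by linarith) ((t1 x trivial).2.1 i)
        fun c => (inS i n 0 x).trans (g d x c),
      fun i => key (at_pos u.h ..).le (by linarith) ((t1 x trivial).2.2 i)
        fun c => (inS i n 0 x).trans (h d x c)⟩

end Vale.Agent.P354YF
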