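import Vale.Agent.P354YF.Fte6
import Vale.Agent.P354YK.Tm2

/-!
The far tables, by continuity.
-/

open Set

noncomputable section

namespace Vale.Agent.P354YF

open Vale.Agent.P354XG Vale.Agent.P354XD Vale.Agent.P354XI Vale.Agent.P354XR Vale.Agent.P354Z
open Vale.Agent.P354CO (Bo Gi Sl TabE FTE od ok_pos fl_near)
open Vale.Agent.P354CV (bootp Ys)
open Vale.Agent.P354YH (wt wt_pos)
open Vale.Agent.P354YK (Fm bend_one lay_ne)
open Vale.Agent.P354YL (Tb Od Cf W0 cw_W0 W0_ge W0_le vl_fc)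
open Vale.Agent.P354FA (Vw)
open Vale.Agent.P354FS (RAWN RAWL layb gi_par)

/-! ### The family of all charts -/

/-- A state with the radius R0. -/
structure Jx (M θ : ℝ) where
  c : Cs
  E : Est
  R0 : ℝ
  ok : c.Ok
  is : E.Is c
  hM : c.M = M
  del : c.del = θ
  h1 : 4 * c.R1 ≤ R0
  h2 : 24 * M ^ 2 ≤ R0
  h3 : 1 ≤ θ * R0

def un (M θ : ℝ) : Fm := ⟨Jx M θ, M, Jx.c, Jx.E, Jx.R0, Jx.R0⟩

variable {M θ : ℝ}

theorem Jx.big (j : Jx M θ) : j.c.R1 + 3 ≤ j.R0 ∧ 4 * M ≤ j.R0 ∧ 1 ≤ j.R0 := by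
  have := j.ok.R1
  have := (ok_pos j.ok).1
  exact ⟨by linarith [j.h1], by linarith [j.h1, j.hM], by linarith [j.h1]⟩

variable (M θ)

theorem un_ok : (un M θ).Ok :=
  ⟨Jx.hM, fun j => j.is.shape.co2, fun j => j.is.eqs, fun j => ⟨j.big.2.2, le_rfl⟩⟩

def pmU (j : Jx M θ) : ℝ := 4 / j.c.cw
abbrev chU : P354XZ.Ch (un M θ).A := (un_ok M θ).ch
abbrev kU : P354XZ.Cut (chU M θ) := (un_ok M θ).cut θ (fun _ _ => 1) (pmU M θ) fun _ => 0
abbrev tU : P354YL.Tm (chU M θ) := (un_ok M θ).TT θ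
abbrev vU : List P354XZ.Lt → Fin 5 → (un M θ).A := Vw (un M θ).nf (un M θ).nf0 (chU M θ)
abbrev TbU (q : Od) (e : ℝ) (x : (chU M θ).Pt) : Prop :=
  Tb (chU M θ) (un M θ).nf (un M θ).nf0 (vU M θ) q e x
abbrev InU (q : Od) (j : Jx M θ) (σ e : ℝ) : Prop :=
  P354YL.In (chU M θ) (un M θ).nf (un M θ).nf0 (kU M θ) (vU M θ) (tU M θ) q
    (W0 (chU M θ) (4 * M ^ 2) (-3 / 10)) j σ e

variable {M θ} (hθ : 0 < θ ∧ θ ≤ 1)
include hθ

theorem kU_is : (kU M θ).Is :=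
  (un_ok M θ).cut_is hθ.1 hθ.2 (fun _ => le_rfl) fun j => bend_one j.big.2.2 j.big.2.2
    ((one_le_div j.ok.cw.1).2 (j.ok.cw.2.trans (by norm_num)))

theorem tU_is : (tU M θ).Is (kU M θ) :=
  (un_ok M θ).tm_is ⟨Jx.ok, fun j => j.is.shape, fun j => j.big.1, Jx.h2, hθ, Jx.h3,
    fun j => (div_mul_cancel₀ 4 j.ok.cw.1.ne').ge⟩

theorem ftU (hM : 0 < M) {q : Od} (k : q.Ok) : ∃ c > 0, ∃ B, 1 ≤ B ∧ ∀ (j : Jx M θ) e, 0 < e →
    B * e * (4 / j.c.cw) + j.R0 ^ (-1 / 10 : ℝ) ≤ c →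
    (∀ σ ∈ j.E.Lv, (∀ x ∈ (tU M θ).Y j σ, TbU M θ q (B * e) x) → InU M θ q j σ e) →
    ∀ σ ∈ j.E.Lv, ∀ x ∈ (tU M θ).Y j σ, TbU M θ q (B * e) x := by
  rcases isEmpty_or_nonempty (Jx M θ) with z | ⟨⟨z⟩⟩
  · exact ⟨1, one_pos, 1, le_rfl, fun j => isEmptyElim j⟩
  have h := un_ok M θ
  obtain ⟨c, p, B, b, a⟩ := P354YL.ft' _ _ _ _ _ _ (tU M θ) (sd_of h (kU_is hθ) z) (tU_is hθ)
    (4 * M ^ 2) (by positivity) h.mc0 q k
  refine ⟨c, p, B, b, fun j e e0 d => a j _ _ e (cw_W0 h.is (by positivity) (by norm_num) j)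
    (fun x _ => W0_ge h.is (by positivity) (by norm_num) (by norm_num) x ?_) e0 le_rfl d⟩
  have a : Jx.R0 x.1 ≤ _ := R0_le_rr h.is x
  linarith [Jx.h2 x.1, sq_nonneg M]

omit hθ in
/-- From the family to all charts. -/
theorem tabE_of (j : Jx M θ) {m L : ℕ} {σ e ε B C : ℝ} (e0 : 0 ≤ e) (ε0 : 0 ≤ ε) (B0 : 0 ≤ B)
    (a : ∀ (Φ : Fm) (h : Φ.Ok) (x : h.ch.Pt), Φ.c x.1 = j.c → Φ.E x.1 = j.E →
      j.c.R1 + 3 ≤ Φ.R0 x.1 → h.ch.rr x ≤ j.R0 →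
      Tb h.ch Φ.nf Φ.nf0 (Vw Φ.nf Φ.nf0 h.ch) (od m L) (B * ε * Φ.U0 x.1 ^ 3) x)
    (b : ∀ x ∈ (tU M θ).Y j σ, TbU M θ (od m L) e x) (k1 : B ≤ C)
    (k2 : 8 * j.R0 ^ 3 * e ≤ C * ε) : TabE j.c j.E m L σ (C * ε) := by
  intro Φ h x hc hE r t
  have U : 0 ≤ Φ.U0 x.1 ^ 3 := pow_nonneg (zero_le_one.trans ((h.one x.1).1.trans (h.one x.1).2)) 3
  rcases le_total (h.ch.rr x) j.R0 with u | u
  · exact (a Φ h x hc hE r u).mono h.is (by positivity)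
      (mul_le_mul_of_nonneg_right (mul_le_mul_of_nonneg_right k1 ε0) U)
  obtain ⟨m2, an, -, w2⟩ := h.pt_mem x
  have hM : Φ.M0 = M := (h.M x.1).symm.trans ((congrArg Cs.M hc).trans j.hM)
  let y := (un_ok M θ).pk j (h.pt x) ⟨show _ ∈ j.E.O2 from hE ▸ m2, an, u.trans_eq (h.rr_eq x),
    show 0 ≤ uu M _ + _ from hM ▸ w2⟩
  have s : Same h (un_ok M θ) x y := ⟨hc.symm, hE.symm, rfl⟩
  have R0 := zero_le_one.trans j.big.2.2
  exact (s.tb e0 (b y ⟨rfl, (s.tr fun _ E z => rv E.tau z).symm.trans_lt t⟩)).mono h.is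
    (mul_nonneg (mul_nonneg (mul_nonneg (by norm_num) (pow_nonneg R0 3)) e0) U)
    (mul_le_mul_of_nonneg_right k2 U)

omit hθ in
/-- The tables near the initial slice. -/
theorem lay_tb (L : ℕ) : ∃ δ > 0, ∃ B ≥ 0, ∀ (x : (chU M θ).Pt) (e : ℝ) (q : Od),
    L ≤ (Jx.c x.1).K → e ≤ δ → (Jx.c x.1).B * ((Jx.E x.1).e0 + |(Jx.E x.1).M - (Jx.c x.1).M| +
      |(Jx.E x.1).a - (Jx.c x.1).a|) ≤ e → (chU M θ).uu x + (chU M θ).rr x ≤ θ * (chU M θ).rr x →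
    q.m ≤ L ∧ q.m' ≤ L ∧ q.ia ≤ L ∧ q.N ≤ L → TbU M θ q (B * e) x := by
  have h := un_ok M θ
  obtain ⟨δ, p, B, b, a⟩ := raw_lay h (fun j => j.big.2.1) L
  refine ⟨δ, p, 2 * B * (3 * 2) ^ (7 / 5 : ℝ), by positivity, fun x e q hK e1 e2 u1 k => ?_⟩
  obtain ⟨m2, an, w1, u0⟩ := h.pt_mem x
  have o := Jx.ok x.1
  have ne := (Jx.is x.1).near
  have r1 := one_le_rr h.is x
  have z : 0 ≤ (Jx.c x.1).B * ((Jx.E x.1).e0 + |(Jx.E x.1).M - (Jx.c x.1).M| +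
      |(Jx.E x.1).a - (Jx.c x.1).a|) := by
    have := ne.e0
    have := o.B
    positivity
  have hμ : h.ch.ut x.1 (h.ch.uu x) ≤ 2 * h.ch.rr x := by
    have b : h.ch.U0 x.1 ≤ h.ch.rr x := R0_le_rr h.is x
    have d := (Jx.del x.1).symm.trans_le o.del.2
    have a : |h.ch.uu x| ≤ h.ch.rr x := by
      rw [← h.uu_eq, ← h.rr_eq] at u0
      exact abs_le.2 ⟨by linarith, by nlinarith⟩
    linarith [P354FS.ut_le h.is x.1 (h.ch.uu x)]
  rw [h.uu_eq, h.rr_eq, ← h.M x.1] at u1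
  rw [← h.M x.1] at u0
  have r0 := fun n => pow_nonneg (zero_le_one.trans (r1.trans_eq (h.rr_eq x))) n
  have w := a x e (z.trans e2) e1 fun i => ((P354BO.q2_mono _ _ (by omega) _).trans
    (ne.lay _ m2 an ((Jx.h1 x.1).trans w1) u0 (u1.trans_eq (congrArg (· * _) (Jx.del x.1).symm)) i)).trans
      (pow_le_pow_left₀ (div_nonneg z (r0 _)) (div_le_div_of_nonneg_right e2 (r0 _)) 2)
  rw [mul_right_comm, mul_assoc 2]
  exact raw_tb h.is one_le_two hμ w k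

omit hθ in
theorem w_ar {t R Λ w : ℝ} (R1 : 1 ≤ R) (Λ1 : 1 ≤ Λ) (e : 1 - t ≤ Λ)
    (hw : w ≤ 2 * (R + max t 0) ^ (-3 / 10 : ℝ)) :
    w * (1 + |t|) ^ (14 / 5 : ℝ) ≤ 2 * Λ * (1 + |t|) ^ (5 / 2 : ℝ) := by
  have p : 0 < R + max t 0 := by linarith [le_max_right t 0]
  have a : 1 + |t| ≤ Λ * (R + max t 0) := by
    rcases le_total t 0 with c | c
    · rw [abs_of_nonpos c, max_eq_right c]; nlinarith
    · rw [abs_of_nonneg c, max_eq_left c]; nlinarith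
  have b := Real.rpow_le_rpow (by positivity) a (show (0 : ℝ) ≤ 3 / 10 by norm_num)
  rw [Real.mul_rpow (by linarith) p.le] at b
  have d : Λ ^ (3 / 10 : ℝ) ≤ Λ :=
    (Real.rpow_le_rpow_of_exponent_le Λ1 (by norm_num)).trans_eq (Real.rpow_one Λ)
  rw [show (14 / 5 : ℝ) = 3 / 10 + 5 / 2 by norm_num, Real.rpow_add (by positivity), ← mul_assoc]
  refine mul_le_mul_of_nonneg_right ((mul_le_mul hw (b.trans (mul_le_mul_of_nonneg_right d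
    (by positivity))) (by positivity) (by positivity)).trans_eq ?_) (by positivity)
  rw [neg_div, Real.rpow_neg p.le]
  have := Real.rpow_pos_of_pos p (3 / 10)
  field_simp

/-- The integral over the layer. -/
theorem layU (m L : ℕ) (t1 R0 P R : ℝ) : ∃ δ > 0, ∃ B ≥ 0, ∀ j : Jx M θ, j.c.t1 = t1 → j.R0 = R0 →
    4 / j.c.cw ≤ P → m + 16 ≤ j.c.N0 → L + 6 ≤ j.c.K → m + 6 ≤ L → 4 * R0 ≤ R → R + 1 ≤ j.c.Rs →
    ∀ ε D σ T, Bo j.c j.E L ε → ε ≤ δ → D ≤ δ → σ ∈ j.E.Lv → j.E.Top j.c σ T →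
      Gi j.c j.E (5 / 2) R (T + j.c.B) D →
      (∀ s < σ, Sl j.c (5 / 2) (Ys j.c j.E (L + 8) s R) (T + j.c.B) D) →
      ∀ φ, Cf σ φ → ∀ l ∈ Icc (0 : ℝ) (1 / 100), ∀ n s, n ≤ m + 12 → n + s ≤ L + 6 →
        (kU M θ).L j ((tU M θ).fc φ * (chU M θ).fn (W0 (chU M θ) (4 * M ^ 2) (-3 / 10)))
          (P354YL.Ql (chU M θ) (un M θ).nf (un M θ).nf0 (kU M θ) (vU M θ) l n s) ≤ B * D := by
  have h := un_ok M θ
  have k := kU_is (M := M) hθ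
  have i := tU_is (M := M) hθ
  obtain ⟨δ, p, B, b, a⟩ := unif2 (L + 6) fun n s => layb h k (fun j => j.big.2.1)
    P354FX.tubeb P354PA.low2 rawn rawl n s t1 R0 R0 P R
  have M2 := sq_nonneg M
  refine ⟨δ, p, B * (2 * (1 + 4 * |R0| + 4 * M ^ 2)), by positivity,
    fun j j1 j2 j3 j4 j5 j6 j7 j8 ε D σ T bo e1 e2 lv top g sl φ cf l l0 n s n1 n2 => ?_⟩
  obtain ⟨δ', B', d1, d2, a⟩ := a n (by omega) s (by omega)
  obtain ⟨σ', s1, s2⟩ := Filter.Eventually.exists_gt (j.is.shape.lvO.eventually_mem lv)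
  have cw := cw_W0 h.is (κ := 4 * M ^ 2) (a := -3 / 10) (by positivity) (by norm_num) j
  have ψ0 : ∀ x : h.ch.Pt, x.1 = j → 0 ≤ h.ch.at' (W0 h.ch (4 * M ^ 2) (-3 / 10)) x := by
    rintro x rfl
    exact (cw.2 _ (h.is.dom x)).1
  have R1 : 1 ≤ R0 := j.big.2.2.trans_eq j2
  have ab := le_abs_self R0
  have D0 := (gi_par j.ok bo.is g).1
  refine lay_lim h.is k i s2 s1 cw.1 ψ0 (fun x => P354YL.Ql_pos h.is k n s) (fun s' s3 φ cf => ?_) cf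
  refine (a j j.ok j1 j2 j2.le j3 (by change n + 4 ≤ j.c.N0; omega) (n2.trans j5) (j.h1.trans_eq j2)
    j7 j8 ?_ L ε (5 / 2) _ D s' (T + j.c.B) l _ (by omega) bo (e1.trans d1) (e2.trans d1)
    (by norm_num) (by norm_num) (by positivity) l0.1 g ((sl s' s3).mono le_rfl fun _ _ =>
      P354CO.Ys_mono (by omega) le_rfl le_rfl le_rfl le_rfl)
    (by rw [map_mul, i.fc_c _ cf.1, h.is.fn_c _ cw.1]) (ps_K i (i.low j s3.le lv) cf _) ?_).trans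
    (mul_le_mul_of_nonneg_right (mul_le_mul_of_nonneg_right d2 (by positivity)) D0)
  · rintro x rfl z
    have r := rr_pos h.is x
    refine (lay_ne hθ.1 (one_pos.trans_le (Jx.big x.1).2.2) r z).2.2.imp
      (fun e => e.le.trans_eq (congrArg _ j2)) fun e => e.le.trans ?_
    rw [show ((un M θ).c x.1).del = θ from Jx.del x.1]
    linarith [mul_pos hθ.1 r]
  rintro x rfl
  have r1 := one_le_rr h.is x
  have w0 := ψ0 x rfl
  have w1 : h.ch.at' (W0 h.ch (4 * M ^ 2) (-3 / 10)) x ≤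
      2 * (R0 + max (h.pt x).1 0) ^ (-3 / 10 : ℝ) := by
    refine (W0_le h.is (by norm_num) ..).trans_eq ?_
    rw [h.uu_eq, h.rr_eq, uu, show h.ch.U0 x.1 = R0 from j2]
    exact congrArg (fun t => 2 * (R0 + max t 0) ^ (-3 / 10 : ℝ)) (add_sub_cancel_right ..)
  obtain ⟨⟨f0, f1⟩, -⟩ := cf.2.1 ((tU M θ).tv x)
  have w2 := mul_le_of_le_one_left w0 f1
  rw [vl_mul h.is (i.fc_c _ cf.1), vl_fc i cf.1, vl_fn h.is cw.1]
  refine ⟨mul_nonneg f0 w0, w2.trans (w1.trans ?_), fun r => ⟨w_ar R1 (by linarith) ?_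
    (w2.trans w1), fun z => ?_⟩⟩
  · linarith [Real.rpow_le_one_of_one_le_of_nonpos (show 1 ≤ R0 + max (h.pt x).1 0 by
      linarith [le_max_right (h.pt x).1 0]) (show (-3 / 10 : ℝ) ≤ 0 by norm_num)]
  · have u : 0 ≤ (h.pt x).1 + 4 * M ^ 2 / (h.pt x).2.1 + (h.pt x).2.1 := (h.pt_mem x).2.2.2
    rw [← h.rr_eq] at u
    linarith [div_le_self (show 0 ≤ 4 * M ^ 2 by positivity) r1]
  have t : rv (Jx.E x.1).tau (h.pt x) < s' :=
    not_le.1 fun e => left_ne_zero_of_mul z (cf.2.2 _ e)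
  have fa := h.fa x (Jx.big x.1).1
  rw [h.rr_eq] at r
  have m1 := bo.is.shape.low _ (h.pt_mem x).1 fa (by linarith)
  refine ⟨t.le, (le_total (h.pt x).1 T).elim (fun e => by linarith [(Jx.ok x.1).B]) fun e =>
    (top.lens _ m1 ((bo.is.shape.up _ m1 fa).2.trans_lt (t.trans s3)) e).2⟩

theorem core (hM : 0 < M) {m L : ℕ} (hm : 11 ≤ m) (hL : m + 12 ≤ L) : ∃ ρ, ∀ (c : Cs) R, c.Ok →
    c.M = M → c.del = θ → m + 16 ≤ c.N0 → c.L0 ≤ L → L + 6 ≤ c.K → ρ ≤ R → 32 * c.R1 ≤ R →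
    R + 1 ≤ c.Rs → ∀ A ≥ 0, ∃ δ > 0, ∃ C ≥ 0, ∀ E ε, Bo c E L ε → ε ≤ δ →
      (∀ s ∈ E.Lv, ∀ T, E.Top c s T → TabE c E m L s (C * ε) →
        Gi c E (5 / 2) R (T + c.B) (A * ε ^ 2) ∧
        ∀ s' < s, Sl c (5 / 2) (Ys c E (L + 8) s' R) (T + c.B) (A * ε ^ 2)) →
      ∀ s ∈ E.Lv, TabE c E m L s (C * ε) := by
  obtain ⟨κ, κ0, B, B1, ft⟩ := ftU hθ hM (q := od m L) (by
    simp only [od, Od.Ok]; omega)
  obtain ⟨ρ, hρ⟩ := Filter.eventually_atTop.1 ((tendsto_rpow_neg_atTop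
    (show (0 : ℝ) < 1 / 10 by norm_num)).eventually_le_const (half_pos κ0))
  obtain ⟨δ1, p1, B2, b2, a1⟩ := lay_tb (M := M) (θ := θ) L
  refine ⟨8 * max (max ρ (24 * M ^ 2)) (1 / θ), fun c R o eM eθ n1 n2 n3 r1 r2 r3 A A0 => ?_⟩
  have r4 := (le_div_iff₀' (show (0 : ℝ) < 8 by norm_num)).2 r1
  have o1 := o.R1
  have cw := o.cw.1
  obtain ⟨δ2, p2, B3, b3, a2⟩ := near_tb o (n := m + 12) (ρ := R) (by omega) n2 (by linarith) r3
  obtain ⟨δ3, p3, B4, b4, a3⟩ := layU (M := M) hθ m L c.t1 (R / 8) (4 / c.cw) R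
  have R0 : 0 < R / 8 := by linarith
  obtain ⟨e, he⟩ : ∃ e, e = 1 + B3 * (R / 8) ^ 3 + B2 * √A + √(B4 * A) := ⟨_, rfl⟩
  have q1 : 0 ≤ B3 * (R / 8) ^ 3 := by positivity
  have q2 : 0 ≤ B2 * √A := by positivity
  have q3 := Real.sqrt_nonneg (B4 * A)
  have e0 : 0 < e := by linarith
  have B0 : 0 < B := by linarith
  refine ⟨min (min δ2 (min δ3 1 / (A + 1))) (min (δ1 / (√A + 1)) (κ / 2 / (B * e * (4 / c.cw)))),
    by positivity, B3 + 8 * (R / 8) ^ 3 * (B * e), by positivity, fun E ε b d H => ?_⟩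
  let j : Jx M θ := ⟨c, E, R / 8, o, b.is, eM, eθ, by linarith,
    ((le_max_right ..).trans (le_max_left ..)).trans r4,
    (div_le_iff₀' hθ.1).1 ((le_max_right ..).trans r4)⟩
  have ε0 := b.pos
  have d1 := d.trans ((min_le_left ..).trans (min_le_left ..))
  have d2 := (le_div_iff₀ (by positivity)).1 (d.trans ((min_le_left ..).trans (min_le_right ..)))
  have d3 := (le_div_iff₀ (by positivity)).1 (d.trans ((min_le_right ..).trans (min_le_left ..)))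
  have d4 := (le_div_iff₀ (by positivity)).1 (d.trans ((min_le_right ..).trans (min_le_right ..)))
  have aε := mul_nonneg A0 ε0.le
  have tr : ∀ σ, (∀ x ∈ (tU M θ).Y j σ, TbU M θ (od m L) (B * (e * ε)) x) →
      TabE c E m L σ ((B3 + 8 * (R / 8) ^ 3 * (B * e)) * ε) := fun σ t =>
    tabE_of j (by positivity) ε0.le b3 (fun Φ h x hc hE r u => a2 Φ h x ε _ hc (hE ▸ b) d1 r
      (u.trans (by change R / 8 ≤ R; linarith)) (by simp only [od]; omega)) t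
      (le_add_of_nonneg_right (by positivity)) (by
        change 8 * (R / 8) ^ 3 * _ ≤ _
        linarith [mul_nonneg b3 ε0.le])
  refine fun s hs => tr s (ft j (e * ε) (by positivity) ?_ (fun σ lv t => ?_) s hs)
  · have := hρ (R / 8) (((le_max_left ..).trans (le_max_left ..)).trans r4)
    change B * (e * ε) * (4 / c.cw) + (R / 8) ^ (-1 / 10 : ℝ) ≤ κ
    rw [neg_div]
    linarith
  obtain ⟨T, top⟩ := b.is.shape.top σ lv
  obtain ⟨g, sl⟩ := H σ lv T top (tr σ t)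
  have h := un_ok M θ
  refine ⟨fun x z hx _ => ?_, fun φ cf l l0 n s n4 n5 => (a3 j rfl rfl le_rfl n1 n3 (by omega)
    (by linarith) r3 ε _ σ T b (by linarith [min_le_left δ3 1]) ?_ lv top g sl φ cf l l0 n s n4
      n5).trans ?_⟩
  · obtain ⟨j', x⟩ := x
    obtain rfl : j' = j := hx
    rcases z with z | z
    · refine (a2 _ h ⟨j, x⟩ ε _ rfl b d1 j.big.1 (z.trans_eq (by change 8 * (R / 8) = R; ring))
        (by simp only [od, Od.up]; omega)).mono h.is (by change 0 ≤ _ * (R / 8) ^ 3; positivity) ?_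
      change _ * (R / 8) ^ 3 ≤ _
      rw [mul_right_comm]
      exact mul_le_mul_of_nonneg_right (by linarith) ε0.le
    · have u := (gi_par o b.is g).2.2.2
      rw [Real.sqrt_mul A0, Real.sqrt_sq ε0.le] at u
      refine (a1 ⟨j, x⟩ _ _ (by change L ≤ c.K; omega) (by linarith) u z
        (by simp only [od, Od.up]; omega)).mono h.is (by positivity) ?_
      rw [← mul_assoc]
      exact mul_le_mul_of_nonneg_right (by linarith) ε0.le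
  · have : ε ≤ 1 := by linarith [min_le_right δ3 1]
    nlinarith [min_le_left δ3 1]
  · rw [← mul_assoc, mul_pow]
    refine mul_le_mul_of_nonneg_right ?_ (sq_nonneg ε)
    rw [← Real.sq_sqrt (mul_nonneg b4 A0)]
    exact pow_le_pow_left₀ q3 (by linarith) 2

omit hθ in
theorem fte : FTE TabE := fun z a => ⟨11, fun m hm => ⟨m + 16, fun b hb => ⟨m + 12 + b.L0,
    fun L hL => by
  by_cases k : 0 < z.M ∧ 0 < a.del ∧ a.del ≤ 1
  swap
  · exact ⟨0, fun R _ => ⟨0, 0, fun K _ R2 _ Rs d o =>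
      absurd ⟨(ok_pos o).1, o.del.1, o.del.2.trans (by norm_num)⟩ k⟩⟩
  obtain ⟨ρ, h⟩ := core k.2 k.1 hm (show m + 12 ≤ L by omega)
  refine ⟨max ρ (32 * z.R1), fun R hR => ⟨L + 6, R, fun K hK R2 h2 Rs d o => ?_⟩⟩
  have r1 : 10 * z.M + 10 ≤ z.R1 := o.R1
  have r2 : 10 * R2 ≤ Rs := o.Rs
  have r3 := le_of_max_le_right hR
  exact h _ R o rfl rfl hb (show b.L0 ≤ L by omega) hK (le_of_max_le_left hR) r3
    (show R + 1 ≤ Rs by linarith [k.1])⟩⟩⟩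

end Vale.Agent.P354YF
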