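import Vale.Agent.P354YF.Tr

/-!
Classes of linear and quadratic source terms of the transport equations.
-/

noncomputable section

namespace Vale.Agent.P354YF

open Vale.Agent.P354XG (Der D_mul D_add D_sub D_neg D_alg D_zero D_one D_num)
open Vale.Agent.P354XI Vale.Agent.P354XZ Finset

variable {A : Type} [CommRing A] [Algebra ℂ A] {C : Ch A}

/-- Bounds which depend on two orders and on the point. -/
abbrev Bd (C : Ch A) : Type := ℕ → ℕ → C.Pt → ℝ

variable (C) in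
/-- The jet of T^k f, and the sum over a family. -/
def c1 (f : A) : Bd C := fun n k x => C.jet n ((C.T)^[k] f) x
variable (C) in
def cS {ι : Type} [Fintype ι] (V : ι → A) : Bd C := fun n k x => ∑ i, c1 C (V i) n k x

def In (P : Bd C) (f : A) : Prop := ∀ n k x, c1 C f n k x ≤ P n k x

/-- Linear terms: the constant does not depend on the power of T. -/
def Lb (L : Bd C) (f : A) : Prop := ∀ n, ∃ K, 0 ≤ K ∧ ∀ k x, c1 C f n k x ≤ K * L n k x

/-- Quadratic terms: one factor is of low order m. -/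
def Qb (Q : Bd C) (f : A) : Prop :=
  ∀ n, ∃ K, 0 ≤ K ∧ ∀ m x, n ≤ 2 * m + 1 → C.jet n f x ≤ K * Q n m x

variable {ι κ : Type} [Fintype ι] [Fintype κ]

variable (C) in
def L6 (v w : A) (P : ι → A) (Q : κ → A) (al e : A) : Bd C := fun n k x =>
  C.rr x * c1 C v n k x + C.rr x * c1 C w n k x + cS C P n k x + (C.rr x)⁻¹ * cS C Q n k x +
    (C.rr x)⁻¹ * c1 C al n k x + c1 C e n k x

variable (C) in
def Q3 (P : ι → A) (Q : κ → A) (al : A) : Bd C := fun n m x =>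
  C.rr x * (cS C P m 0 x * cS C Q n 0 x + cS C P n 0 x * cS C Q m 0 x + c1 C al n 0 x * cS C Q n 0 x)

/-- A transport equation with classified sources. -/
def Eqn (k : ℕ) (f : A) (L Q : Bd C) : Prop :=
  ∃ G1 G2, C.X 1 f = -((k : A) * f) + G1 + G2 ∧ Lb L G1 ∧ Qb Q G2

theorem c1_0 (f : A) (n k : ℕ) (x : C.Pt) : 0 ≤ c1 C f n k x := jet0 _ _
theorem cS_0 (V : ι → A) (n k : ℕ) (x : C.Pt) : 0 ≤ cS C V n k x := sum_nonneg fun _ _ => c1_0 ..
theorem c1_null (n k : ℕ) (x : C.Pt) : c1 C 0 n k x = 0 := by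
  rw [c1, Function.iterate_fixed (D_zero _), jet_null]

theorem in1 (f : A) : In (c1 C f) f := fun _ _ _ => le_rfl
theorem inS {V : ι → A} (i : ι) : In (cS C V) (V i) := fun n k x =>
  single_le_sum (f := fun i => c1 C (V i) n k x) (fun _ _ => c1_0 ..) (mem_univ i)
theorem In.c (h : C.Is) {P : Bd C} {f : A} (a : In P f) : In P (C.c f) := fun n k x => by
  rw [c1, ← Tk_comm (T_c h x.1), jet_c h]; exact a n k x

variable {L : Bd C} {f g s : A}

theorem Lb.add (a : Lb L f) (b : Lb L g) : Lb L (f + g) := fun n => by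
  obtain ⟨K, K0, hK⟩ := a n
  obtain ⟨M, M0, hM⟩ := b n
  refine ⟨K + M, add_nonneg K0 M0, fun k x => ?_⟩
  rw [c1, Tk_add, add_mul]
  exact (jet_add ..).trans (add_le_add (hK k x) (hM k x))

theorem Lb.neg (a : Lb L f) : Lb L (-f) := fun n => by
  simpa only [c1, Tk_neg, jet_neg] using a n

theorem Lb.sub (a : Lb L f) (b : Lb L g) : Lb L (f - g) := by
  rw [sub_eq_add_neg]; exact a.add b.neg

theorem Qb.add (a : Qb L f) (b : Qb L g) : Qb L (f + g) := fun n => by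
  obtain ⟨K, K0, hK⟩ := a n
  obtain ⟨M, M0, hM⟩ := b n
  refine ⟨K + M, add_nonneg K0 M0, fun m x e => ?_⟩
  rw [add_mul]
  exact (jet_add ..).trans (add_le_add (hK m x e) (hM m x e))

theorem Qb.sub (a : Qb L f) (b : Qb L g) : Qb L (f - g) := by
  rw [sub_eq_add_neg]; exact a.add fun n => by simpa only [jet_neg] using b n

theorem lb_sy (h : C.Is) {a : ℝ} {P : Bd C} (hs : C.Sy a s) (hf : In P f)
    (e : ∀ n k x, C.rr x ^ (-a) * P n k x ≤ L n k x) : Lb L (s * f) := fun n => by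
  obtain ⟨K, K0, hK⟩ := sy_jet h hs n
  refine ⟨K, K0, fun k x => ?_⟩
  rw [c1, Tk_mul hs.1]
  exact (hK _ x).trans (mul_le_mul_of_nonneg_left ((mul_le_mul_of_nonneg_left (hf n k x)
    (Real.rpow_nonneg (rr_pos h x).le _)).trans (e n k x)) K0)

variable (h : C.Is) {v w al e : A} {P : ι → A} {Q : κ → A}
include h

theorem L6_pos (n k : ℕ) (x : C.Pt) : 0 ≤ C.rr x * c1 C v n k x ∧ 0 ≤ C.rr x * c1 C w n k x ∧
    0 ≤ cS C P n k x ∧ 0 ≤ (C.rr x)⁻¹ * cS C Q n k x ∧ 0 ≤ (C.rr x)⁻¹ * c1 C al n k x ∧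
    0 ≤ c1 C e n k x :=
  have r := (rr_pos h x).le
  ⟨mul_nonneg r (c1_0 ..), mul_nonneg r (c1_0 ..), cS_0 .., mul_nonneg (inv_nonneg.2 r) (cS_0 ..),
    mul_nonneg (inv_nonneg.2 r) (c1_0 ..), c1_0 ..⟩

theorem s1 (hs : C.Sy (-1) s) (hf : In (c1 C v) f) : Lb (L6 C v w P Q al e) (s * f) :=
  lb_sy h hs hf fun n k x => by
    obtain ⟨_, _, _, _, _, _⟩ := L6_pos h (v := v) (w := w) (P := P) (Q := Q) (al := al) (e := e) n k x
    rw [neg_neg, Real.rpow_one, L6]; linarith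
theorem s2 (hs : C.Sy (-1) s) (hf : In (c1 C w) f) : Lb (L6 C v w P Q al e) (s * f) :=
  lb_sy h hs hf fun n k x => by
    obtain ⟨_, _, _, _, _, _⟩ := L6_pos h (v := v) (w := w) (P := P) (Q := Q) (al := al) (e := e) n k x
    rw [neg_neg, Real.rpow_one, L6]; linarith
theorem s3 (hs : C.Sy 0 s) (hf : In (cS C P) f) : Lb (L6 C v w P Q al e) (s * f) :=
  lb_sy h hs hf fun n k x => by
    obtain ⟨_, _, _, _, _, _⟩ := L6_pos h (v := v) (w := w) (P := P) (Q := Q) (al := al) (e := e) n k x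
    rw [neg_zero, Real.rpow_zero, one_mul, L6]; linarith
theorem s4 (hs : C.Sy 1 s) (hf : In (cS C Q) f) : Lb (L6 C v w P Q al e) (s * f) :=
  lb_sy h hs hf fun n k x => by
    obtain ⟨_, _, _, _, _, _⟩ := L6_pos h (v := v) (w := w) (P := P) (Q := Q) (al := al) (e := e) n k x
    rw [Real.rpow_neg_one, L6]; linarith
theorem s5 (hs : C.Sy 1 s) (hf : In (c1 C al) f) : Lb (L6 C v w P Q al e) (s * f) :=
  lb_sy h hs hf fun n k x => by
    obtain ⟨_, _, _, _, _, _⟩ := L6_pos h (v := v) (w := w) (P := P) (Q := Q) (al := al) (e := e) n k x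
    rw [Real.rpow_neg_one, L6]; linarith
theorem s6 : Lb (L6 C v w P Q al e) e := fun n => ⟨1, zero_le_one, fun k x => by
  obtain ⟨_, _, _, _, _, _⟩ := L6_pos h (v := v) (w := w) (P := P) (Q := Q) (al := al) (e := e) n k x
  rw [one_mul, L6]; linarith⟩

theorem q1 (hf : In (cS C P) f) (hg : In (cS C Q) g) : Qb (Q3 C P Q al) (C.r * (f * g)) :=
  fun n => by
  obtain ⟨K, K0, hK⟩ := sy_jet h (sy_r h) n
  refine ⟨K * 2 ^ n, by positivity, fun m x e => (hK _ x).trans ?_⟩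
  rw [neg_neg, Real.rpow_one, Q3, mul_assoc, mul_left_comm (2 ^ n)]
  refine mul_le_mul_of_nonneg_left (mul_le_mul_of_nonneg_left ((jet_mul_split (m := m) (m' := m)
    (by omega) f g).trans (mul_le_mul_of_nonneg_left ?_ (by positivity))) (rr_pos h x).le) K0
  exact le_add_of_le_of_nonneg (add_le_add (mul_le_mul (hf m 0 x) (hg n 0 x) (jet0 ..) (cS_0 ..))
    (mul_le_mul (hf n 0 x) (hg m 0 x) (jet0 ..) (cS_0 ..))) (mul_nonneg (c1_0 ..) (cS_0 ..))

theorem q2 (hf : In (c1 C al) f) (hg : In (cS C Q) g) : Qb (Q3 C P Q al) (C.r * (f * g)) :=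
  fun n => by
  obtain ⟨K, K0, hK⟩ := sy_jet h (sy_r h) n
  refine ⟨K * 2 ^ n, by positivity, fun m x _ => (hK _ x).trans ?_⟩
  rw [neg_neg, Real.rpow_one, Q3, mul_assoc, mul_left_comm (2 ^ n)]
  refine mul_le_mul_of_nonneg_left (mul_le_mul_of_nonneg_left ((jet_mul_le n f g).trans
    (mul_le_mul_of_nonneg_left ?_ (by positivity))) (rr_pos h x).le) K0
  exact le_add_of_nonneg_of_le (add_nonneg (mul_nonneg (cS_0 ..) (cS_0 ..))
    (mul_nonneg (cS_0 ..) (cS_0 ..))) (mul_le_mul (hf n 0 x) (hg n 0 x) (jet0 ..) (c1_0 ..))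

theorem inC {V : ι → A} (i : ι) : In (cS C V) (C.c (V i)) := (inS i).c h

theorem r0 (a : C.Sy 1 f) : C.Sy 0 (C.r * f) := sy_mul' h (sy_r h) a (by norm_num)
theorem r1 (a : C.Sy 2 f) : C.Sy 1 (C.r * f) := sy_mul' h (sy_r h) a (by norm_num)
theorem d0 (a : C.Sy 1 f) : C.Sy 0 f := sy_mono h zero_le_one a
theorem d1 (a : C.Sy 2 f) : C.Sy 1 f := sy_mono h one_le_two a
theorem hfs {a : ℝ} (b : C.Sy a f) : C.Sy a (hf A * f) := sy_mul' h (sy_rl h _) b (zero_add a).ge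

omit h

open Vale.Agent.P354XZ.NF

variable (C) in
/-- The symbols of the reference solution. -/
structure Sb (F : NF A) : Prop where
  a : C.Sy 1 (C.r * qr C F + 1)
  ca : C.Sy 1 (C.r * C.c (qr C F) + 1)
  b : C.Sy 0 (C.r * qr' C F)
  d : C.Sy 1 (C.r * (C.c F.G.ta - F.G.ta'))
  cd : C.Sy 1 (C.r * (F.G.ta - C.c F.G.ta'))
  t : C.Sy 1 (C.r * F.G.ta')
  ct : C.Sy 1 (C.r * C.c F.G.ta')
  tR : C.Sy 1 (C.r * C.X 1 F.G.ta')
  tA : ∀ i, C.Sy 1 (C.r * C.an i F.G.ta')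
  be : C.Sy 0 (C.r * F.be)
  cbe : C.Sy 0 (C.r * C.c F.be)
  m : ∀ i, C.Sy 1 (F.mc i)
  cm : ∀ i, C.Sy 1 (C.c (F.mc i))
  zT : C.T F.G.ta' = 0
  z1 : qs C F = 0
  z2 : qs' C F = 0
  z3 : qk' C F = 0
  v0 : qV C F 0 = 0
  v1 : qV C F 1 = 0
  v3 : qV C F 3 = 0
  al : F.al = 0

theorem sb (h : C.Is) (j : C.J) {F : NF A} {t : Fin 4 → A} (f : F.Ref C t) : Sb C F := by
  obtain ⟨-, g2, g3, g4⟩ := f.gb
  obtain ⟨z1, z2, z3, z4, z5, z6, -⟩ := f.zero
  have a : C.Sy 1 (C.r * qr C F + 1) := by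
    have := r1 h f.rh.1
    rwa [mul_add, h.hr] at this
  have m : ∀ i, C.Sy 1 (F.mc i) := X_cases f.m0.1 f.m0.2 fun i => by
    fin_cases i
    · exact d1 h f.ma.1
    · simpa using sy_add (d1 h f.ma.2.1) (sy_ri h)
    · exact d1 h f.ma.2.2
  exact
    { a := a
      ca := by simpa only [map_add, map_mul, h.c_r, map_one] using sy_c h j a
      b := r0 h (by simpa [qr'] using sy_add (d1 h f.rh.2) (sy_ri h))
      d := r1 h (sy_sub (sy_c h j g3) g4)
      cd := r1 h (sy_sub g3 (sy_c h j g4))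
      t := r1 h g4
      ct := r1 h (sy_c h j g4)
      tR := r1 h (sy_X h 1 g4)
      tA := fun i => r1 h (sy_an h i g4)
      be := r0 h (d1 h g2)
      cbe := r0 h (d1 h (sy_c h j g2))
      m := m
      cm := fun i => sy_c h j (m i)
      zT := g4.1
      z1 := by rw [qs, z1, mul_zero]
      z2 := by rw [qs', z2, mul_zero]
      z3 := by rw [qk', z3, mul_zero]
      v0 := by change _ * F.G.P0 = 0; rw [z4, mul_zero]
      v1 := by change _ * F.G.P1 = 0; rw [z5, mul_zero]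
      v3 := by change _ * F.G.P3 = 0; rw [z6, mul_zero]
      al := f.al }

end Vale.Agent.P354YF
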