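import Vale.Agent.P354YF.Cl

/-!
Comparison along the lines of R for the jets of solutions of transport equations.
-/

noncomputable section

namespace Vale.Agent.P354YF

open Vale.Agent.P354XG (Der D_mul D_add D_sub D_neg D_alg D_zero D_one D_num)
open Vale.Agent.P354XI Vale.Agent.P354XZ Finset

variable {A : Type} [CommRing A] [Algebra ℂ A] {C : Ch A}

/-- A comparison function for r R f = - k f + G: the bound s of G gives the bound M S of f. -/
def Cmp (k : ℕ) (S s : Fam C.J) (M : ℝ) : Prop := ∃ φ : Fam C.J, SmF φ ∧ ∀ x : C.Pt,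
  0 ≤ C.at' S x ∧ C.rr x ^ k * C.at' S x ≤ C.at' φ x ∧ C.at' φ x ≤ M * (C.rr x ^ k * C.at' S x) ∧
    C.rr x ^ k * C.at' s x ≤ C.rr x * deriv (φ x.1 (C.uu x)) (C.rr x)

theorem X_nat (a : Fin 5) (k : ℕ) : C.X a (k : A) = 0 := (C.X a).map_natCast k

theorem eq_X (h : C.Is) {k : ℕ} {f G : A} (e : C.X 1 f = -((k : A) * f) + G) (a : Fin 5) :
    C.X 1 (C.X a f) = -((k : A) * C.X a f) + C.X a G := by
  rw [X1_X h, e, D_add, D_neg, D_mul, X_nat, mul_zero, add_zero]

theorem eq_Tk (h : C.Is) {k : ℕ} {f G : A} (e : C.X 1 f = -((k : A) * f) + G) (l : ℕ) :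
    C.X 1 ((C.T)^[l] f) = -((k : A) * (C.T)^[l] f) + (C.T)^[l] G := by
  induction l generalizing f G with
  | zero => exact e
  | succ l ih => exact ih (eq_X h e 0)

theorem X1_pow (h : C.Is) (k : ℕ) : C.X 1 (C.r ^ k) = k * C.r ^ k := by
  induction k with
  | zero => simp
  | succ k ih => rw [pow_succ, D_mul, ih, X_r h, if_pos rfl]; push_cast; ring

theorem md_pow (h : C.Is) (k : ℕ) (x : C.Pt) : C.md x (C.r ^ k) = C.rr x ^ k := by
  induction k with
  | zero => rw [pow_zero, pow_zero, md_one]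
  | succ k ih => rw [pow_succ, pow_succ, md_mul, ih, md_r h]

theorem Cmp.jet (h : C.Is) {k : ℕ} {S s : Fam C.J} {M : ℝ} (c : Cmp k S s M) {Z : Set C.Pt}
    (hZ : C.Lin Z) (j : C.J) {E : ℝ} (hE : 0 ≤ E) (n : ℕ) {f G : A}
    (e : C.X 1 f = -((k : A) * f) + G) (h0 : ∀ x ∈ Z, x.1 = j → C.jet n f x ≤ E * C.at' S x)
    (h1 : ∀ x : C.Pt, x.1 = j → C.jet n G x ≤ E * C.at' s x) (x : C.Pt) (hx : x.1 = j) :
    C.jet n f x ≤ 6 ^ n * (M * (E * C.at' S x)) := by
  obtain ⟨φ, sm, hφ⟩ := c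
  have base : ∀ {f G : A}, C.X 1 f = -((k : A) * f) + G →
      (∀ x ∈ Z, x.1 = j → C.md x f ≤ E * C.at' S x) →
      (∀ x : C.Pt, x.1 = j → C.md x G ≤ E * C.at' s x) → C.md x f ≤ M * (E * C.at' S x) := by
    intro f G e h0 h1
    have := hZ j (C.r ^ k * f) ((fun _ _ _ => E) * φ) (smF_mul (smF_const fun _ => E) sm)
      (fun y hy hj => ?_) (fun y hj => ?_) x hx
    · rw [md_mul, md_pow h] at this
      have p := pow_pos (rr_pos h x) k
      refine le_of_mul_le_mul_left (this.trans ?_) p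
      have := mul_le_mul_of_nonneg_left (hφ x).2.2.1 hE
      change E * C.at' φ x ≤ _
      linarith
    · rw [md_mul, md_pow h]
      have := mul_le_mul_of_nonneg_left (hφ y).2.1 hE
      have := mul_le_mul_of_nonneg_left (h0 y hy hj) (pow_pos (rr_pos h y) k).le
      change _ ≤ E * C.at' φ y
      linarith
    · have r := rr_pos h y
      have d : deriv (((fun _ _ _ => E) * φ : Fam C.J) j (C.uu y)) (C.rr y) =
          E * deriv (φ j (C.uu y)) (C.rr y) := deriv_const_mul E (smF_diff sm j _ r)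
      have q : C.r * C.R (C.r ^ k * f) = C.r ^ k * G := by
        rw [← X1, D_mul, e, X1_pow h]; ring
      have q := congrArg (C.md y) q
      rw [md_mul, md_mul (C.r ^ k), md_r h, md_pow h] at q
      rw [d]
      refine le_of_mul_le_mul_left ?_ r
      have := mul_le_mul_of_nonneg_left (hφ y).2.2.2 hE
      have := mul_le_mul_of_nonneg_left (h1 y hj) (pow_pos r k).le
      rw [hj] at *
      linarith
  induction n generalizing f G with
  | zero =>
    simp only [jet_zero] at h0 h1 ⊢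
    rw [pow_zero, one_mul]; exact base e h0 h1
  | succ n ih =>
    have b := base e (fun y a b => (md_le_jet _ f).trans (h0 y a b))
      fun y b => (md_le_jet _ G).trans (h1 y b)
    have s := sum_le_sum fun a (_ : a ∈ univ) => ih (eq_X h e a)
      (fun y p q => (jet_der n a f).trans (h0 y p q)) fun y q => (jet_der n a G).trans (h1 y q)
    rw [sum_const, card_univ, Fintype.card_fin, nsmul_eq_mul] at s
    have p : (1 : ℝ) ≤ 6 ^ n := one_le_pow₀ (by norm_num)
    rw [jet_succ, pow_succ]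
    push_cast at s
    nlinarith [mul_le_mul_of_nonneg_right p ((md0 f).trans b)]

theorem pow_at (h : C.Is) (k : ℕ) (a b e : ℝ) (x : C.Pt) :
    C.rr x ^ k * C.at' (C.mon a b e) x = C.at' (C.mon (k + a) b e) x := by
  rw [← Real.rpow_natCast, ← at_r, at_mon_mul h, zero_add, zero_add]

/-- The ratio 2 r / v. -/
theorem ratio (h : C.Is) (x : C.Pt) : ∃ q, 0 ≤ q ∧ q ≤ 1 ∧ ∀ a b e, C.rr x * ((a / C.rr x + 2 * b /
    C.vv x.1 (C.uu x) (C.rr x)) * C.mon a b e x.1 (C.uu x) (C.rr x)) =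
    (a + b * q) * C.at' (C.mon a b e) x := by
  have r := rr_pos h x
  have v := two_le_vv x.1 (C.uu x) (C.rr x)
  have v0 : 0 < C.vv x.1 (C.uu x) (C.rr x) := by linarith
  refine ⟨2 * C.rr x / C.vv x.1 (C.uu x) (C.rr x), by positivity, (div_le_one v0).2 v,
    fun a b e => ?_⟩
  rw [Ch.at']
  field_simp

theorem cmp_two (h : C.Is) (k : ℕ) {S s : Fam C.J} {M p q a b e a' b' e' : ℝ}
    (c : ∀ x : C.Pt, 0 ≤ C.at' S x ∧
      C.rr x ^ k * C.at' S x ≤ p * C.at' (C.mon a b e) x - q * C.at' (C.mon a' b' e') x ∧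
      p * C.at' (C.mon a b e) x - q * C.at' (C.mon a' b' e') x ≤ M * (C.rr x ^ k * C.at' S x) ∧
      ∀ z, 0 ≤ z → z ≤ 1 → C.rr x ^ k * C.at' s x ≤ p * ((a + b * z) * C.at' (C.mon a b e) x) -
        q * ((a' + b' * z) * C.at' (C.mon a' b' e') x)) : Cmp k S s M := by
  refine ⟨(fun _ _ _ => p) * C.mon a b e - (fun _ _ _ => q) * C.mon a' b' e',
    smF_sub (smF_mul (smF_const fun _ => p) (smF_mon h _ _ _))
      (smF_mul (smF_const fun _ => q) (smF_mon h _ _ _)), fun x => ?_⟩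
  obtain ⟨c0, c1, c2, c3⟩ := c x
  obtain ⟨z, z0, z1, hz⟩ := ratio h x
  refine ⟨c0, c1, c2, (c3 z z0 z1).trans (le_of_eq ?_)⟩
  have d := (((mon_deriv a b e x.1 (C.uu x) (rr_pos h x)).const_mul p).sub
    ((mon_deriv a' b' e' x.1 (C.uu x) (rr_pos h x)).const_mul q)).deriv
  rw [← hz, ← hz]
  refine Eq.trans ?_ (congrArg (C.rr x * ·) d.symm)
  ring

theorem cmp_mon (h : C.Is) (k : ℕ) {a b e : ℝ} (hb : b ≤ 0) (c : 1 / 2 ≤ k + a + b) :
    Cmp k (C.mon a b e) (C.mon a b e) 2 :=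
  cmp_two h k (p := 2) (q := 0) (a := k + a) (b := b) (e := e) (a' := 0) (b' := 0) (e' := 0)
    fun x => by
    have p := at_pos h (k + a) b e x
    rw [pow_at h]
    refine ⟨(at_pos h ..).le, by linarith, by linarith, fun z _ z1 => ?_⟩
    nlinarith [mul_nonneg p.le (sub_nonneg.2 c), mul_nonneg p.le
      (mul_nonneg (neg_nonneg.2 hb) (sub_nonneg.2 z1))]

variable (C) in
/-- The strong bound of the class g, and the bound of the sources of the class b. -/
def Sg' : Fam C.J := C.mon (-3 / 40) (-37 / 40) (-3 / 10)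
variable (C) in
def Sb' : Fam C.J := C.mon (-3 / 40) 0 (-6 / 5)

theorem at_le2 (h : C.Is) {a b e a' b' e' : ℝ} (e1 : a + b ≤ a' + b') (e2 : b + e ≤ b' + e')
    (e3 : a + b + e ≤ a' + b' + e') (e4 : |b - b'| ≤ 1 / 2) (x : C.Pt) :
    C.at' (C.mon a b e) x ≤ 2 * C.at' (C.mon a' b' e') x := by
  refine (at_le h e1 e2 e3 x).trans (mul_le_mul_of_nonneg_right ?_ (at_pos h ..).le)
  refine (Real.rpow_le_rpow_of_exponent_le (by norm_num) e4).trans (le_of_eq ?_)
  rw [← Real.sqrt_eq_rpow, show (4 : ℝ) = 2 ^ 2 by norm_num, Real.sqrt_sq zero_le_two]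

theorem cmp_g (h : C.Is) : Cmp 1 (Sg' C) C.Sh 12 :=
  cmp_two h 1 (p := 12) (q := 3) (a := 37 / 40) (b := -37 / 40) (e := -3 / 10) (a' := 37 / 40)
    (b' := -11 / 8) (e' := 3 / 20) fun x => by
    have p := at_pos h (37 / 40) (-11 / 8) (3 / 20) x
    have q : C.at' (C.mon (37 / 40) (-11 / 8) (3 / 20)) x ≤
        2 * C.at' (C.mon (37 / 40) (-37 / 40) (-3 / 10)) x :=
      at_le2 h (by norm_num) (by norm_num) (by norm_num) (abs_le.2 ⟨by norm_num, by norm_num⟩) x
    rw [Sg', Ch.Sh, pow_at h, pow_at h, show ((1 : ℕ) : ℝ) + -3 / 40 = 37 / 40 by norm_num]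
    refine ⟨(at_pos h ..).le, by linarith, by linarith, fun z _ z1 => ?_⟩
    nlinarith [mul_nonneg (sub_nonneg.2 q) (sub_nonneg.2 z1), mul_nonneg p.le (sub_nonneg.2 z1)]

theorem cmp_b (h : C.Is) : Cmp 0 C.Sb (Sb' C) 56 :=
  cmp_two h 0 (p := 56) (q := 14) (a := 0) (b := 0) (e := -6 / 5) (a' := -3 / 40)
    (b' := 0) (e' := -6 / 5) fun x => by
    have p := at_pos h (-3 / 40) 0 (-6 / 5) x
    have q : C.at' (C.mon (-3 / 40) 0 (-6 / 5)) x ≤ 2 * C.at' (C.mon 0 0 (-6 / 5)) x :=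
      at_le2 h (by norm_num) (by norm_num) (by norm_num) (by norm_num) x
    rw [Sb', Ch.Sb, pow_zero, one_mul, one_mul]
    exact ⟨(at_pos h ..).le, by linarith, by linarith, fun z _ _ => by linarith⟩

end Vale.Agent.P354YF
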