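import Vale.Agent.P354YS.Tube
import Vale.Agent.P354FA.Nil

/-!
Jets with powers of r: the words of the far family, the conserved part al, the division by the
determinant of the frame.
-/

noncomputable section

namespace Vale.Agent.P354YF

open Vale.Agent.P354XG (Der D_mul D_add D_sub D_zero)
open Vale.Agent.P354XZ hiding Lt
open Vale.Agent.P354YS (Cj De cj_sy cj_Ah cj_step cj_n cj_m cj_b cj_fr)
open Vale.Agent.P354FA (Lt Gn Eh Gh Jh Ah VN Vw gm Mx wc wt sh bw)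

variable {A : Type} [CommRing A] [Algebra ℂ A] {C : Ch A} {S : Type} {p : S → C.Pt}
  {e τ : S → ℝ} {m : ℕ} {a b : ℝ} {f g : A}

/-- The jet of order m is bounded by a multiple of e / r ^ a. -/
abbrev Lw (p : S → C.Pt) (e : S → ℝ) (a : ℝ) (m : ℕ) (f : A) : Prop :=
  Cj p (fun σ => e σ * C.rr (p σ) ^ (-a)) m f

theorem cj_comp {S' : Type} (q : S' → S) (s : Cj p τ m f) :
    Cj (fun σ => p (q σ)) (fun σ => τ (q σ)) m f :=
  let ⟨B, B0, hB⟩ := s; ⟨B, B0, fun σ => hB (q σ)⟩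

section
variable (h : C.Is)
include h

theorem lw_sy (s : C.Sy a f) (t : Lw p e b m g) : Lw p e (a + b) m (f * g) := by
  obtain ⟨K, K0, hK⟩ := sy_jet h s m
  obtain ⟨B, B0, hB⟩ := t
  refine ⟨K * B, mul_nonneg K0 B0, fun σ => (hK g _).trans ?_⟩
  have := mul_le_mul_of_nonneg_left (mul_le_mul_of_nonneg_left (hB σ)
    (Real.rpow_nonneg (rr_pos h (p σ)).le (-a))) K0
  simp only [neg_add, Real.rpow_add (rr_pos h _)] at this ⊢
  linarith

theorem lw_mono (e0 : ∀ σ, 0 ≤ e σ) (t : Lw p e a m f) (ab : b ≤ a) : Lw p e b m f :=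
  t.mono fun σ => mul_le_mul_of_nonneg_left
    (Real.rpow_le_rpow_of_exponent_le (one_le_rr h _) (neg_le_neg ab)) (e0 σ)

theorem lw_sy' (e0 : ∀ σ, 0 ≤ e σ) (s : C.Sy a f) (t : Lw p e b m g) {d : ℝ} (k : d ≤ a + b) :
    Lw p e d m (f * g) := lw_mono h e0 (lw_sy h s t) k

theorem lw_one (e1 : ∀ σ, e σ ≤ 1) (t : Lw p e a m f) (a0 : 0 ≤ a) : Cj p 1 m f :=
  t.mono fun σ => mul_le_one₀ (e1 σ) (Real.rpow_nonneg (rr_pos h _).le _)
    (Real.rpow_le_one_of_one_le_of_nonpos (one_le_rr h _) (neg_nonpos.2 a0))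

theorem lw_mul (e1 : ∀ σ, e σ ≤ 1) (s : Lw p e a m f) (t : Lw p e b m g) :
    Lw p e (a + b) m (f * g) := by
  obtain ⟨K, K0, hK⟩ := s
  obtain ⟨B, B0, hB⟩ := t
  refine ⟨2 ^ m * K * B, by positivity, fun σ => (jet_mul_le ..).trans ?_⟩
  have r := Real.rpow_nonneg (rr_pos h (p σ)).le (-a)
  have k := (hK σ).trans (mul_le_mul_of_nonneg_left (mul_le_of_le_one_left r (e1 σ)) K0)
  have := mul_le_mul_of_nonneg_left (mul_le_mul k (hB σ) (jet0 ..) (mul_nonneg K0 r))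
    (show (0 : ℝ) ≤ 2 ^ m by positivity)
  simp only [neg_add, Real.rpow_add (rr_pos h _)] at this ⊢
  linarith

/-- The fields T, r R, P, Q, V. -/
def Dx (C : Ch A) (f : A) : Fin 5 → A := ![C.X 0 f, C.X 1 f, C.an 0 f, C.an 1 f, C.an 2 f]

theorem cj_an (s : Cj p τ (m + 1) f) (i : Fin 3) : Cj p τ m (C.an i f) := by
  rw [an_eq' h]
  exact Cj.sum fun l => (cj_sy h (sy_mu h i l) le_rfl).mul (s.der _)

theorem cj_Dx (s : Cj p τ (m + 1) f) (i : Fin 5) : Cj p τ m (Dx C f i) := by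
  fin_cases i
  exacts [s.der 0, s.der 1, cj_an h s 0, cj_an h s 1, cj_an h s 2]

theorem sy_Dx (s : C.Sy a f) (i : Fin 5) : C.Sy a (Dx C f i) := by
  fin_cases i
  exacts [sy_X h 0 s, sy_X h 1 s, sy_an h 0 s, sy_an h 1 s, sy_an h 2 s]

end

/-- The normalised components of the frame. -/
def nv (C : Ch A) (q : Fin 5 → A) : Fin 5 → A := ![q 0, C.ri * q 1, q 2, q 3, q 4]
def fc (C : Ch A) (F : NF A) : Lt → Fin 5 → A
  | (false, false) => nv C ![0, 1, 0, 0, 0]
  | (true, true) => nv C F.nc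
  | (false, true) => nv C F.mc
  | (true, false) => nv C (C.cj F.mc)

theorem vf_nv (h : C.Is) (q : Fin 5 → A) (f : A) : C.vf q f = ∑ i, nv C q i * Dx C f i := by
  simp only [vf_ap, Fin.sum_univ_five, nv, Dx, Matrix.cons_val, R_eq h f, X0]
  ring

theorem Eh_eq (h : C.Is) (F : NF A) (x : Lt) (f : A) :
    Eh C F x f = ∑ i, fc C F x i * Dx C f i := by
  match x with
  | (false, false) => rw [fc, ← vf_nv h, vf_ap]; simp [Eh]
  | (true, true) => exact vf_nv h ..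
  | (false, true) => exact vf_nv h ..
  | (true, false) => exact vf_nv h ..

variable {F F0 : NF A} {t : Fin 4 → A} (G : F.Ga F0 C t) (j : C.J)
include G j

theorem sy_fc (x : Lt) (i : Fin 5) : C.Sy 0 (fc C F0 x i) := by
  have h := G.ch
  have s := sb h j G.rf
  have u : ∀ {f : A}, C.Sy 1 f → C.Sy 0 f := sy_mono h zero_le_one
  have v : ∀ {f : A}, C.Sy 0 f → C.Sy 0 (C.ri * f) := fun k =>
    sy_mul' h (sy_ri h) k (by norm_num)
  have w : ∀ {f : A}, C.Sy 2 f → C.Sy 0 f := sy_mono h zero_le_two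
  match x with
  | (false, false) =>
    fin_cases i
    exacts [sy_zero, v (sy_one h), sy_zero, sy_zero, sy_zero]
  | (true, true) =>
    have n0 := sy_add (w G.rf.n0) (sy_nat h 2)
    have n1 := sy_sub (u G.rf.n1) (sy_one h)
    rw [Nat.cast_ofNat, sub_add_cancel] at n0
    rw [add_sub_cancel_right] at n1
    fin_cases i
    exacts [n0, v n1, w G.rf.na.1, w G.rf.na.2.1, w G.rf.na.2.2]
  | (false, true) =>
    fin_cases i
    exacts [u (s.m 0), v (u (s.m 1)), u (s.m 2), u (s.m 3), u (s.m 4)]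
  | (true, false) =>
    fin_cases i
    exacts [u (s.cm 0), v (u (s.cm 1)), u (s.cm 3), u (s.cm 2), sy_neg (u (s.cm 4))]

omit j in
theorem cj_fc (hg : ∀ g, Cj p τ m ((F.df F0 C).at g)) (ha : Cj p τ m F.al) (x : Lt) (i : Fin 5) :
    Cj p τ m (fc C F x i - fc C F0 x i) := by
  have k : ∀ i, Cj p τ m (nv C F.mc i - nv C F0.mc i) := fun i => by
    fin_cases i
    exacts [((hg (.inr (.inl 4))).add ha).of (by
      change F.mc 0 - F0.mc 0 = F.mc 0 - F.al - (F0.mc 0 - F0.al) + F.al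
      rw [G.rf.al]; ring), hg (.inr (.inl 5)), hg (.inr (.inl 6)), hg (.inr (.inl 7)),
      hg (.inr (.inl 8))]
  match x with
  | (false, false) => exact Cj.zero.of (sub_self _)
  | (true, true) =>
    fin_cases i
    exacts [hg (.inl 2), hg (.inl 3), hg (.inl 4), hg (.inl 5), hg (.inl 6)]
  | (false, true) => exact k i
  | (true, false) =>
    have c := fun i => ((k i).c G.ch).of (map_sub C.c _ _).symm
    fin_cases i
    exacts [c 0, (c 1).of (by
      change C.ri * C.c (F.mc 1) - C.ri * C.c (F0.mc 1) =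
        C.c (C.ri * F.mc 1) - C.c (C.ri * F0.mc 1)
      rw [map_mul, map_mul, c_ri G.ch]), c 3, c 2, (c 4).neg.of (by
      change -C.c (F.mc 4) - -C.c (F0.mc 4) = -(C.c (F.mc 4) - C.c (F0.mc 4))
      ring)]

/-- One more letter. -/
theorem lw_step (e0 : ∀ σ, 0 ≤ e σ) (e1 : ∀ σ, e σ ≤ 1)
    (hg : ∀ g, Lw p e 0 m ((F.df F0 C).at g)) (ha : Lw p e 0 m F.al) {w : List Lt} {k : ℕ}
    (hk : k ≤ 4) (hw : ∀ v i, List.length v = w.length → i ≤ 4 →
      Lw p e 3 (m + 1) (VN C F F0 false v i)) (x : Lt) :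
    Lw p e 3 m (VN C F F0 false (x :: w) k) := by
  have h := G.ch
  have hw' := fun v i a b => (hw v i a b).low m.le_succ
  have J0 : ∀ v i, C.Sy 3 (Jh C F0 false v i) := fun v i =>
    sy_mono h (le_add_of_nonneg_right (Nat.cast_nonneg _)) (P354FA.sy_Jh h G.rf j false v i)
  have on : ∀ {f f0 : A}, Lw p e 0 m (f - f0) → C.Sy 0 f0 → Cj p 1 m f := fun b c =>
    ((lw_one h e1 b le_rfl).add (cj_sy h c le_rfl)).of (sub_add_cancel _ _).symm
  have pr : ∀ {f f0 g g0 : A}, Lw p e 0 m (f - f0) → C.Sy 0 f0 → Lw p e 3 m (g - g0) →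
      C.Sy 3 g0 → Lw p e 3 m (f * g - f0 * g0) := fun b c d s =>
    (((on b c).mul d).add (lw_sy' h e0 s b (add_zero _).ge)).of (by ring)
  have q : ∀ g, sh g ≠ 0 → Lw p e 3 m (Gh C F x g * Ah C F g false w k -
      Gh C F0 x g * Ah C F0 g false w k) := fun g s => by
    refine pr ?_ (sy_mono h zero_le_one (P354FA.sy_Gh1 h G.rf j x g)) (cj_Ah G hk hw' g) ?_
    · by_cases z : x = (false, false)
      · rw [z, P354FA.Gh_l G]; exact .zero
      · rw [P354FA.Gh_df G z s]; exact (hg _).cb h _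
    · have z := P354FA.Ah_eq C F0 g false k w.get
      rw [List.ofFn_get] at z
      rw [z]
      exact sy_add (P354FA.sy_zmul h _ (J0 ..)) (sy_sum _ fun _ _ => P354FA.sy_zmul h _ (J0 ..))
  have M : Lw p e 0 m (gm C F x - gm C F0 x) := by
    match x with
    | (false, false) => exact Cj.zero.of (sub_self _)
    | (true, true) => exact hg (.inl 0)
    | (false, true) => exact hg (.inr (.inl 3))
    | (true, false) => exact ((hg (.inr (.inl 3))).c h).of (map_sub C.c _ _).symm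
  have E : Lw p e 3 m (Eh C F x (Jh C F false w k) - Eh C F0 x (Jh C F0 false w k)) := by
    rw [Eh_eq h, Eh_eq h, ← Finset.sum_sub_distrib]
    refine Cj.sum fun i => pr (cj_fc G hg ha x i) (sy_fc G j x i)
      ((cj_Dx h (hw w k rfl hk) i).of ?_) (sy_Dx h (J0 w k) i)
    fin_cases i <;> exact (D_sub ..).symm
  refine ((E.add ((((q .F (by decide)).add (q .E (by decide))).add (q .Fb (by decide))).add
    (q .Eb (by decide)))).add ((pr M (sy_mono h zero_le_two (P354FA.sy_gm h G.rf j x))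
    (hw' w k rfl hk) (J0 w k)).int h (bw w k))).of ?_
  rw [VN]
  linear_combination P354FA.hat h G.rf.is j x false w k - P354FA.hat h G.is j x false w k

/-- The words from the jets of the differences. -/
theorem lw_word (e0 : ∀ σ, 0 ≤ e σ) (e1 : ∀ σ, e σ ≤ 1) {N : ℕ}
    (hg : ∀ g, Lw p e 0 N ((F.df F0 C).at g)) (ha : Lw p e 0 N F.al)
    (hV : ∀ k, Lw p e 3 N ((F.df F0 C).V k)) (s : ℕ) : ∀ (w : List Lt) (i k : ℕ), w.length = s →
    i + s ≤ N → k ≤ 4 → Lw p e 3 i (VN C F F0 false w k) := by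
  induction s with
  | zero =>
    intro w i k a b c
    rw [List.length_eq_zero_iff.1 a]
    exact ((hV ⟨k, by omega⟩).low b).of (congrFun (P354FA.Vw_nil C F F0) ⟨k, by omega⟩)
  | succ s ih =>
    intro w i k a b c
    obtain ⟨x, w, rfl⟩ := List.exists_cons_of_length_eq_add_one a
    have a' : w.length = s := Nat.succ.inj a
    exact lw_step G j e0 e1 (fun g => (hg g).low (by omega)) (ha.low (by omega)) c
      (fun v i' u => ih v _ i' (u.trans a') (by omega)) x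

/-- The conserved part. -/
theorem lw_al (e0 : ∀ σ, 0 ≤ e σ) (e1 : ∀ σ, e σ ≤ 1) {la : A} (hl : C.Sy 0 la)
    (r1 : F.mc 0 = (C.r * C.c F.al + C.c la) * F.mc 2 + (C.r * F.al + la) * F.mc 3)
    (r0 : F0.mc 0 = C.c la * F0.mc 2 + la * F0.mc 3)
    (hD : ∀ σ, 1 ≤ 2 * C.md (p σ) (C.r * F.mc 3 * C.c (C.r * F.mc 3) -
      C.r * F.mc 2 * C.c (C.r * F.mc 2)))
    (h0 : Lw p e 1 m (F.mc 0 - F0.mc 0)) (h2 : Lw p e 2 m (F.mc 2 - F0.mc 2))
    (h3 : Lw p e 2 m (F.mc 3 - F0.mc 3)) :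
    Lw p e 1 m F.al ∧ Lw p e 2 m (F.mc 0 - F.al - (F0.mc 0 - F0.al)) := by
  have h := G.ch
  have k2 : Lw p e 1 m (C.r * (F.mc 2 - F0.mc 2)) := lw_sy' h e0 (sy_r h) h2 (by norm_num)
  have k3 : Lw p e 1 m (C.r * (F.mc 3 - F0.mc 3)) := lw_sy' h e0 (sy_r h) h3 (by norm_num)
  have s2 : C.Sy 1 (C.r * F0.mc 2) := sy_mul' h (sy_r h) G.rf.ma.1 (by norm_num)
  have s3 : C.Sy 1 (C.r * (F0.mc 3 - C.ri)) := sy_mul' h (sy_r h) G.rf.ma.2.1 (by norm_num)
  have b2 : Cj p 1 m (C.r * F.mc 2) :=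
    ((lw_one h e1 k2 zero_le_one).add (cj_sy h s2 zero_le_one)).of (by ring)
  have b3 : Cj p 1 m (C.r * F.mc 3) := (((lw_one h e1 k3 zero_le_one).add
    (cj_sy h s3 zero_le_one)).add (cj_sy h (sy_one h) le_rfl)).of (by linear_combination h.hr)
  have l2 := lw_sy' h e0 (sy_c h j hl) h2 (zero_add _).ge
  have l3 := lw_sy' h e0 hl h3 (zero_add _).ge
  have y := (h0.sub (lw_mono h e0 l2 one_le_two)).sub (lw_mono h e0 l3 one_le_two)
  have c1 := congrArg C.c r1
  have c0 := congrArg C.c r0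
  simp only [map_add, map_mul, cc h j, h.c_r] at c1 c0
  have al : Lw p e 1 m F.al := Cj.div zero_le_two hD ((b3.mul (b3.c h)).sub (b2.mul (b2.c h)))
    ((((b3.c h).mul y).sub (b2.mul (y.c h))).of (by
      simp only [map_sub, map_mul, cc h j, h.c_r]
      linear_combination -(C.r * C.c (F.mc 3)) * (r1 - r0) + C.r * F.mc 2 * (c1 - c0)))
  have t : (2 : ℝ) ≤ 1 + 1 := by norm_num
  refine ⟨al, ((((((lw_sy' h e0 s3 al t).add (lw_mono h e0 (lw_mul h e1 k3 al) t)).add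
    (lw_sy' h e0 s2 (al.c h) t)).add (lw_mono h e0 (lw_mul h e1 k2 (al.c h)) t)).add l2).add
    l3).of ?_⟩
  rw [G.rf.al]
  linear_combination r1 - r0 + F.al * h.hr

end Vale.Agent.P354YF
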