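import Vale.Agent.P354YF.Fte2
import Vale.Agent.P354YK.Ins

/-!
The raw bounds from the differences of the components of the frame and of the scalars.
-/

noncomputable section

namespace Vale.Agent.P354YF

open Vale.Agent.P354XG Vale.Agent.P354XR Vale.Agent.P354XZ
open Vale.Agent.P354XZ.NF (nz)
open Vale.Agent.P354YK (Cmp nfV nfO onc omc otc out Sz)
open Vale.Agent.P354YS (Cj De cj_sy)
open Vale.Agent.P354FA (Vw)
open Vale.Agent.P354Z (sc dm)

variable {A : Type} [CommRing A] [Algebra ℂ A]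

/-- The index set of the differences. -/
abbrev Ix := (Fin 4 × Fin 6) ⊕ Fin 13

/-- The gauge quantities from the differences. -/
def gf (N Ni ri : A) (d : Ix → A) (al : A) : Gi → A :=
  Sum.elim ![N * (d (.inl (1, 4)) + d (.inl (1, 5))), N * (N * d (.inr 4)), N * d (.inl (1, 0)),
      N * (ri * d (.inl (1, 1))), N * d (.inl (1, 2)), N * d (.inl (1, 3)),
      Geo.hf A * (N * (d (.inl (1, 4)) - d (.inl (1, 5))))]
    (Sum.elim ![d (.inr 3), N * d (.inr 5), N * d (.inr 6), d (.inl (2, 4)) + d (.inl (2, 5)),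
      d (.inl (2, 0)) - al, ri * d (.inl (2, 1)), d (.inl (2, 2)), d (.inl (2, 3)),
      Geo.hf A * (d (.inl (2, 4)) - d (.inl (2, 5)))] ![Ni * d (.inr 1), Ni * d (.inr 2)])

/-- A power of N. -/
def nu (N Ni : A) (b : ℤ) : A := N ^ (-b).toNat * Ni ^ b.toNat

variable {C : Ch A} {K : KC A}

theorem md_nz (h : C.Is) (x : C.Pt) (b : ℤ) : C.md x (nz C b) ≤ 2 ^ b.natAbs := by
  have n : C.md x C.N = C.val x C.N := (md_re h h.c_N).trans (abs_of_nonneg (by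
    linarith [(h.N_le x).1]))
  have i : C.md x (C.N * nz C 1) = 1 := by rw [N_nz, md_one]
  rw [md_mul, n] at i
  have i1 : C.md x (nz C 1) ≤ 2 := by nlinarith [(h.N_le x).1, md0 (x := x) (nz C 1)]
  induction b using Int.induction_on with
  | zero => rw [nz_zero, md_one]; simp
  | succ b ih =>
    rw [nz_add, md_mul, show ((b : ℤ) + 1).natAbs = (b : ℤ).natAbs + 1 by omega, pow_succ]
    exact mul_le_mul ih i1 (md0 _) (by positivity)
  | pred b ih =>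
    rw [sub_eq_add_neg, nz_add, md_mul, nz_m1, n,
      show (-(b : ℤ) + -1).natAbs = (-(b : ℤ)).natAbs + 1 by omega, pow_succ]
    exact mul_le_mul ih (by linarith [(h.N_le x).2]) (n ▸ md0 _) (by positivity)

theorem sy_nz (h : C.Is) (b : ℤ) : C.Sy 0 (nz C b) :=
  sy_cst (fun a => D_nz (X_N h a) b) fun x => md_nz h x b

variable (h : Cmp C K)
include h

theorem nz_nu (b : ℤ) : nz C b = nu K.N K.Ni b := by
  have p : ∀ n : ℕ, ∀ z : ℤ, nz C (n * z) = nz C z ^ n := fun n z => by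
    induction n with
    | zero => simp [nz_zero]
    | succ n ih => rw [Nat.cast_succ, add_mul, one_mul, nz_add, ih, pow_succ]
  rw [nu, ← h.nz_one, ← h.nz_neg, ← p, ← p, ← nz_add]
  exact congrArg _ (by omega)

theorem De0 : De (nfO K).nc (nfO K).mc (C.cj (nfO K).mc) = -(2 * K.sg) := by
  have k := h.kc
  have zz : K.z * K.zb = K.sg := by
    rw [KC.z, KC.zb]
    linear_combination K.sg * k.hg - (K.sg * K.a * K.x) ^ 2 * ii_sq (A := A)
  simp only [De, nfO, nfV, onc, omc, Ch.cj, Matrix.cons_val, h.c, map_mul, map_zero, k.c_zb,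
    k.c_ii, k.c_a, k.c_s, KC.W]
  linear_combination (-(2 * K.sg * (K.r * K.r + K.a * K.a)) -
    2 * (ii A * K.a) ^ 2 * K.s * K.sb * K.sg) * (K.z * K.zb * k.hN + zz) -
    2 * K.a ^ 2 * K.s * K.sb * K.sg ^ 2 * ii_sq (A := A) + 2 * K.a ^ 2 * K.sg ^ 2 * k.hs -
    2 * K.sg * k.hg

theorem sg_ge (x : C.Pt) (e : 3 * C.md x K.a ≤ C.rr x) : 9 / 10 ≤ C.rr x ^ 2 * C.md x K.sg := by
  have c := h.ch
  have a := c.mu_le 2 2 x
  have t : C.md x 2 = 2 := by simpa only [map_ofNat, RCLike.norm_ofNat] using md_alg (x := x) c 2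
  rw [h.x, md_mul, md_mul, ii, md_alg c, Complex.norm_I, t] at a
  have b := congrArg (C.md x) h.kc.hg
  rw [md_mul, md_one] at b
  have d := md_add (x := x) (K.r * K.r) (K.a * K.a * K.x * K.x)
  rw [md_mul, md_mul, md_mul, md_mul, ← h.r, md_r c, h.r] at d
  have a0 := md0 (x := x) K.a
  have x0 := md0 (x := x) K.x
  have u : C.md x K.a * C.md x K.x ≤ C.rr x / 3 := by nlinarith
  have v := mul_self_le_mul_self (mul_nonneg a0 x0) u
  nlinarith [mul_le_mul_of_nonneg_left d (md0 (x := x) K.sg),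
    mul_le_mul_of_nonneg_left v (md0 (x := x) K.sg)]

theorem zb_ge (x : C.Pt) (e : 3 * C.md x K.a ≤ C.rr x) : 9 / 10 ≤ C.md x (C.r * K.zb) := by
  have zz : K.zb * C.c K.zb = K.sg := by
    rw [h.c, h.kc.c_zb, KC.z, KC.zb]
    linear_combination K.sg * h.kc.hg - (K.sg * K.a * K.x) ^ 2 * ii_sq (A := A)
  have := sg_ge h x e
  rw [← zz, md_mul, md_c h.ch] at this
  rw [md_mul, md_r h.ch]
  exact le_of_sq_le_sq_of_nonneg' this (mul_nonneg (rr_pos h.ch x).le (md0 _))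
where
  le_of_sq_le_sq_of_nonneg' {a b : ℝ} (e : 9 / 10 ≤ a ^ 2 * (b * b)) (p : 0 ≤ a * b) :
      9 / 10 ≤ a * b := by nlinarith

variable {G : GHP A} {n m : Fin 6 → A} {al : A} {d : Ix → A}
  (d1 : ∀ e, d (.inl (1, e)) = n e - onc K e) (d2 : ∀ e, d (.inl (2, e)) = m e - omc K e)
  (d3 : ∀ i, d (.inr i) = sc G i - sc (out K) i)
include d1 d2 d3

theorem at_gf (g : Gi) : ((nfV K G n m al).df (nfO K) C).at g = gf K.N K.Ni C.ri d al g := by
  have e := nz_m2 (C := C)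
  rw [h.N] at e
  rcases g with g | g | g <;> fin_cases g <;>
    simp only [NF.df, Un.at, gf, NF.gb, NF.g1, NF.g2, nfO, nfV, Sum.elim_inl, Sum.elim_inr, d1, d2,
      d3, sc, Pi.sub_apply, Fin.zero_eta, Fin.mk_one, Fin.reduceFinMk, Matrix.cons_val, e,
      h.nz_one, h.nz_neg] <;> ring

omit h d1 d2 in
theorem V_eq (k : Fin 5) : ((nfV K G n m al).df (nfO K) C).V k =
    nz C (2 - (k : ℕ)) * d (.inr (k.natAdd 8)) := by
  rw [d3, mul_sub]
  fin_cases k <;> rfl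

/-- The raw bounds. -/
theorem raw_d (a : (nfV K G n m al).Ga (nfO K) C (otc K)) (ha : ∀ x, 3 * C.md x K.a ≤ C.rr x)
    (r1 : m 0 = (C.r * C.c al + C.c (ii A * K.a * K.s)) * m 2 + (C.r * al + ii A * K.a * K.s) * m 3)
    (N : ℕ) : ∃ B, 0 ≤ B ∧ ∀ x e, e ≤ 1 / 10 → (∀ i, C.jet N (d i) x ≤ e * C.rr x ^ (-(dm i : ℝ))) →
      Raw C (nfV K G n m al) (nfO K) (Vw (nfV K G n m al) (nfO K) C) N N (B * e) x := by
  by_cases j : Nonempty C.J
  swap
  · exact ⟨0, le_rfl, fun x => absurd ⟨x.1⟩ j⟩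
  have c := h.ch
  let S := {σ : C.Pt × ℝ // σ.2 ≤ 1 / 10 ∧ ∀ i, C.jet N (d i) σ.1 ≤ σ.2 * C.rr σ.1 ^ (-(dm i : ℝ))}
  let p : S → C.Pt := fun σ => σ.1.1
  let e : S → ℝ := fun σ => σ.1.2
  have e0 : ∀ σ, 0 ≤ e σ := fun σ => nonneg_of_mul_nonneg_left ((jet0 ..).trans (σ.2.2 (.inr 0)))
    (Real.rpow_pos_of_pos (rr_pos c _) _)
  have e1 : ∀ σ, e σ ≤ 1 := fun σ => σ.2.1.trans (by norm_num)
  have q : ∀ i (b : ℕ), dm i = b → Lw p e b N (d i) := fun i b z =>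
    ⟨1, zero_le_one, fun σ => by rw [one_mul, ← z]; exact σ.2.2 i⟩
  have q1 : ∀ i, dm i = 1 → Lw p e 1 N (d i) := fun i z => by simpa using q i 1 z
  have q2 : ∀ i, dm i = 2 → Lw p e 2 N (d i) := fun i z => by simpa using q i 2 z
  have sm : ∀ σ i, dm i = 2 → C.md (p σ) (C.r * d i) ≤ 1 / 10 := fun σ i z => by
    have r := rr_pos c (p σ)
    have := mul_le_mul_of_nonneg_left ((md_le_jet N _).trans (σ.2.2 i)) r.le
    rw [z, mul_left_comm, ← Real.rpow_one_add' r.le (by norm_num)] at this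
    rw [md_mul, md_r c]
    exact this.trans ((mul_le_of_le_one_right (e0 σ) (Real.rpow_le_one_of_one_le_of_nonpos
      (one_le_rr c _) (by norm_num))).trans σ.2.1)
  obtain ⟨l1, l2⟩ := lw_al a j.some e0 e1 ((h.z_i.cmul c h.z_a).cmul c h.z_s).sy r1
    (by simp [nfO, nfV, omc]) (fun σ => by
      have u := sm σ (.inl (2, 2)) rfl
      have v := P354YS.le_sub (le_refl (C.md (p σ) (C.r * m 3))) (sm σ (.inl (2, 3)) rfl)
      rw [d2, show omc K 2 = 0 from rfl, sub_zero] at u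
      rw [d2, show C.r * m 3 - C.r * (m 3 - omc K 3) = C.r * K.zb by
        rw [show omc K 3 = K.zb from rfl]; ring] at v
      have y := (zb_ge h _ (ha _)).trans v
      have z := md_add (x := p σ) (C.r * m 3 * C.c (C.r * m 3) - C.r * m 2 * C.c (C.r * m 2))
        (C.r * m 2 * C.c (C.r * m 2))
      rw [sub_add_cancel, md_mul (C.r * m 3), md_mul (C.r * m 2), md_c c, md_c c] at z
      change 1 ≤ 2 * C.md (p σ) (C.r * m 3 * C.c (C.r * m 3) - C.r * m 2 * C.c (C.r * m 2))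
      nlinarith [md0 (x := p σ) (C.r * m 2)])
    ((q1 (.inl (2, 0)) rfl).of (d2 0).symm) ((q2 (.inl (2, 2)) rfl).of (d2 2).symm)
    ((q2 (.inl (2, 3)) rfl).of (d2 3).symm)
  have sN : ∀ {f}, Lw p e 2 N f → Lw p e 2 N (K.N * f) :=
    (cj_sy c (h.nz_neg ▸ sy_nz c (-1)) le_rfl).mul
  have sI : ∀ {f}, Lw p e 2 N f → Lw p e 2 N (K.Ni * f) :=
    (cj_sy c (h.nz_one ▸ sy_nz c 1) le_rfl).mul
  have sH : ∀ {f}, Lw p e 2 N f → Lw p e 2 N (Geo.hf A * f) := (cj_sy c h.z_hf.sy le_rfl).mul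
  have sR : ∀ {f}, Lw p e 1 N f → Lw p e 2 N (C.ri * f) := fun s =>
    lw_sy' c e0 (sy_ri c) s (by norm_num)
  have hg : ∀ g, Lw p e 2 N (((nfV K G n m al).df (nfO K) C).at g) := fun g => by
    by_cases z : g = .inr (.inl 4)
    · rw [z]; exact l2
    rw [at_gf h d1 d2 d3]
    rcases g with g | g | g <;> fin_cases g
    exacts [sN ((q2 _ rfl).add (q2 _ rfl)), sN (sN (q2 _ rfl)), sN (q2 _ rfl), sN (sR (q1 _ rfl)),
      sN (q2 _ rfl), sN (q2 _ rfl), sH (sN ((q2 _ rfl).sub (q2 _ rfl))), q2 _ rfl, sN (q2 _ rfl),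
      sN (q2 _ rfl), (q2 _ rfl).add (q2 _ rfl), absurd rfl z, sR (q1 _ rfl), q2 _ rfl, q2 _ rfl,
      sH ((q2 _ rfl).sub (q2 _ rfl)), sI (q2 _ rfl), sI (q2 _ rfl)]
  have hV : ∀ k, Lw p e 3 N (((nfV K G n m al).df (nfO K) C).V k) := fun k => by
    rw [V_eq d3]
    have := q (.inr (k.natAdd 8)) 3 (by fin_cases k <;> rfl)
    rw [Nat.cast_ofNat] at this
    exact (cj_sy c (sy_nz c _) le_rfl).mul this
  have t0 := fun (a : ℝ) σ => mul_nonneg (e0 σ) (Real.rpow_nonneg (rr_pos c (p σ)).le a)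
  obtain ⟨B1, b1, h1⟩ := cj_fin (t0 _) hg
  obtain ⟨B2, b2, h2⟩ := l1
  obtain ⟨B3, b3, h3⟩ := cj_unif (n := N) (N := N) (V := Vw (nfV K G n m al) (nfO K) C) (t0 _)
    fun i w k _ z => lw_word a j.some e0 e1 (fun g => lw_mono c e0 (hg g) zero_le_two)
      (lw_mono c e0 ⟨B2, b2, h2⟩ zero_le_one) hV _ w i k rfl z (by omega)
  refine ⟨B1 + B2 + B3, by positivity, fun x ε u v => ⟨fun g => (h1 ⟨(x, ε), u, v⟩ g).trans ?_,
    (h2 ⟨(x, ε), u, v⟩).trans ?_, fun i w k y z => (h3 ⟨(x, ε), u, v⟩ i w k y z).trans ?_⟩⟩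
  all_goals
    rw [mul_assoc]
    exact mul_le_mul_of_nonneg_right (by linarith) (t0 _ ⟨(x, ε), u, v⟩)

end Vale.Agent.P354YF
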