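import Vale.Agent.P354YF.Fte4
import Vale.Agent.P354YL.All
import Vale.Agent.P354FA.Bs
import Vale.Agent.P354FA.Nil

/-!
The tables in two charts; the limit in the level; the standing assumptions.
-/

open scoped ContDiff
open Set

noncomputable section

namespace Vale.Agent.P354YF

open Vale.Agent.P354XI Vale.Agent.P354XZ
open Vale.Agent.P354YL (Tb Od Tm Cf Sd cf_ex vl_fc)
open Vale.Agent.P354YK (Fm)
open Vale.Agent.P354FA (Vw)

theorem rp_k {a b k : ℝ} (s : ℝ) (ha : 0 < a) (hb : 0 < b) (k0 : 0 < k) (e : a ≤ k * b)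
    (e' : b ≤ k * a) : a ^ s ≤ k ^ |s| * b ^ s := by
  rcases le_total 0 s with c | c
  · rw [abs_of_nonneg c, ← Real.mul_rpow k0.le hb.le]
    exact Real.rpow_le_rpow ha.le e c
  · have := Real.rpow_le_rpow_of_nonpos hb e' c
    rw [Real.mul_rpow k0.le ha.le] at this
    rw [abs_of_nonpos c, Real.rpow_neg k0.le, le_inv_mul_iff₀ (by positivity)]
    exact this

theorem unif2 (N : ℕ) {P : ℕ → ℕ → ℝ → ℝ → Prop} (h : ∀ n s, ∃ δ > 0, ∃ B ≥ 0, P n s δ B) :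
    ∃ δ > 0, ∃ B ≥ 0, ∀ n ≤ N, ∀ s ≤ N, ∃ δ' B', δ ≤ δ' ∧ B' ≤ B ∧ P n s δ' B' := by
  choose δ p B q h using h
  have m : ∀ {n s}, n ≤ N → s ≤ N → (n, s) ∈ Finset.range (N + 1) ×ˢ Finset.range (N + 1) :=
    fun a b => Finset.mem_product.2 ⟨Finset.mem_range_succ_iff.2 a, Finset.mem_range_succ_iff.2 b⟩
  exact ⟨Finset.inf' _ ⟨_, m le_rfl le_rfl⟩ fun z => δ z.1 z.2,
    (Finset.lt_inf'_iff _).2 fun z _ => p _ _, ∑ z ∈ (_ : Finset (ℕ × ℕ)), B z.1 z.2,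
    Finset.sum_nonneg fun z _ => q _ _, fun n a s b => ⟨_, _, Finset.inf'_le _ (m a b),
      Finset.single_le_sum (f := fun z : ℕ × ℕ => B z.1 z.2) (fun z _ => q _ _) (m a b), h n s⟩⟩

section
variable {A A' : Type} [CommRing A] [Algebra ℂ A] [CommRing A'] [Algebra ℂ A'] {C : Ch A}
  {C' : Ch A'} {x : C.Pt} {y : C'.Pt}

/-- The weight φ at x is at most k ^ S times the weight ψ at y. -/
def Rl (x : C.Pt) (y : C'.Pt) (k S : ℝ) (φ : Fam C.J) (ψ : Fam C'.J) : Prop :=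
  0 ≤ C.at' φ x ∧ C.at' φ x ≤ k ^ S * C'.at' ψ y

variable {k S S' : ℝ} {φ φ' : Fam C.J} {ψ ψ' : Fam C'.J}

theorem Rl.mul (k0 : 0 < k) (a : Rl x y k S φ ψ) (b : Rl x y k S' φ' ψ') :
    Rl x y k (S + S') (φ * φ') (ψ * ψ') :=
  ⟨mul_nonneg a.1 b.1, by
    rw [at_mul, at_mul, Real.rpow_add k0, mul_mul_mul_comm]
    exact mul_le_mul a.2 b.2 b.1 (a.1.trans a.2)⟩

theorem Rl.add (a : Rl x y k S φ ψ) (b : Rl x y k S φ' ψ') : Rl x y k S (φ + φ') (ψ + ψ') :=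
  ⟨add_nonneg a.1 b.1, by rw [at_add, at_add, mul_add]; exact add_le_add a.2 b.2⟩

theorem rl_zero : Rl x y k S 0 0 := ⟨le_rfl, (mul_zero _).ge⟩

variable (h : C.Is) (h' : C'.Is) (er : C.rr x = C'.rr y) (eu : C.uu x = C'.uu y)
  (hk : 2 * C.U0 x.1 * C'.U0 y.1 ≤ k)
include h h' er eu hk

omit er eu in
theorem k_one : 2 * C.U0 x.1 ≤ k ∧ 2 * C'.U0 y.1 ≤ k ∧ 1 ≤ k := by
  have a := (h.one_le x.1).1.trans (h.one_le x.1).2
  have b := (h'.one_le y.1).1.trans (h'.one_le y.1).2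
  exact ⟨by nlinarith, by nlinarith, by nlinarith⟩

omit hk in
theorem uv_k (hk : 2 * C.U0 x.1 ≤ k) : C.ut x.1 (C.uu x) ≤ k * C'.ut y.1 (C'.uu y) ∧
    C.vv x.1 (C.uu x) (C.rr x) ≤ k * C'.vv y.1 (C'.uu y) (C'.rr y) := by
  have a := (h.one_le x.1).1.trans (h.one_le x.1).2
  have b := (h'.one_le y.1).1.trans (h'.one_le y.1).2
  have t := one_le_ut h' y.1 (C'.uu y)
  have r := rr_pos h' y
  have u := (h'.rng y.1 _ (h'.dom y)).2
  have e : C.ut x.1 (C.uu x) ≤ C.U0 x.1 * C'.ut y.1 (C'.uu y) := by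
    refine Real.sqrt_le_iff.2 ⟨by positivity, ?_⟩
    rw [mul_pow, Ch.ut, Real.sq_sqrt (by positivity), eu, mul_add]
    exact add_le_add (le_mul_of_one_le_left (sq_nonneg _) (one_le_pow₀ a))
      (le_mul_of_one_le_right (sq_nonneg _) (one_le_pow₀ b))
  refine ⟨e.trans (mul_le_mul_of_nonneg_right (by linarith) (by linarith)),
    (vv_le ..).trans (le_trans ?_ (mul_le_mul_of_nonneg_right hk
      ((by positivity : 0 ≤ 2 * C'.rr y).trans (two_le_vv ..))))⟩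
  rw [Ch.vv, er]
  nlinarith [mul_nonneg (sub_nonneg.2 a) r.le]

theorem rl_mon (a b c : ℝ) (e : |b| + |c| ≤ S) : Rl x y k S (C.mon a b c) (C'.mon a b c) := by
  obtain ⟨k1, k2, k3⟩ := k_one h h' hk
  obtain ⟨u1, v1⟩ := uv_k h h' er eu k1
  obtain ⟨u2, v2⟩ := uv_k h' h er.symm eu.symm k2
  have k0 := one_pos.trans_le k3
  have r := rr_pos h' y
  have p := fun s => rp_k s (one_pos.trans_le (one_le_ut h _ _))
    (one_pos.trans_le (one_le_ut h' _ _)) k0 u1 u2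
  have v := (mul_pos two_pos r).trans_le (two_le_vv y.1 (C'.uu y) _)
  have q := fun s => rp_k s ((mul_pos two_pos (rr_pos h x)).trans_le (two_le_vv ..)) v k0 v1 v2
  refine ⟨(at_pos h ..).le, le_trans ?_ (mul_le_mul_of_nonneg_right
    (Real.rpow_le_rpow_of_exponent_le k3 e) (at_pos h' ..).le)⟩
  simp only [Ch.at', Ch.mon, Real.rpow_add k0]
  refine (mul_le_mul (mul_le_mul_of_nonneg_left (q b) (Real.rpow_nonneg (rr_pos h x).le a)) (p c)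
    (Real.rpow_nonneg (Real.sqrt_nonneg _) _) (by have := rr_pos h x; positivity)).trans_eq ?_
  rw [er]; ring

theorem rl_Dt (i : Fin 5) : Rl x y k 6 (C.Dt 0 i) (C'.Dt 0 i) := by
  have k0 := one_pos.trans_le (k_one h h' hk).2.2
  have m := fun {S} a b c e => rl_mon (S := S) h h' er eu hk a b c e
  have w : ∀ i, Rl x y k 3 (C.w 1 0 i) (C'.w 1 0 i) := fun i => by
    fin_cases i <;> simp only [Ch.w, one_mul] <;> exact m _ _ _ (by norm_num [abs_of_nonneg])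
  have b : ∀ a i, Rl x y k (2 + 3) (C.mon a 0 0 * C.w 1 0 i) (C'.mon a 0 0 * C'.w 1 0 i) :=
    fun a i => (m _ _ _ (by norm_num)).mul k0 (w i)
  have d : ∀ i, Rl x y k (2 + 3) (C.mon 2 0 (-21 / 20) * C.w 1 0 i)
      (C'.mon 2 0 (-21 / 20) * C'.w 1 0 i) :=
    fun i => (m _ _ _ (by norm_num [abs_of_nonpos])).mul k0 (w i)
  rw [show (6 : ℝ) = 1 + (2 + 3) by norm_num]
  refine (m _ _ _ (by norm_num [abs_of_nonpos])).mul k0 (Rl.add ?_ ?_) <;> fin_cases i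
  exacts [b _ 0, b _ 0, b _ 1, b _ 2, b _ 3, d 0, d 1, d 2, d 3, rl_zero]

end

/-- The tables in another chart. -/
theorem Same.tb {Φ Ψ : Fm} {h : Φ.Ok} {h' : Ψ.Ok} {x : h.ch.Pt} {y : h'.ch.Pt}
    (s : Same h h' x y) {o : Od} {e : ℝ} (e0 : 0 ≤ e)
    (t : Tb h'.ch Ψ.nf Ψ.nf0 (Vw Ψ.nf Ψ.nf0 h'.ch) o e y) :
    Tb h.ch Φ.nf Φ.nf0 (Vw Φ.nf Φ.nf0 h.ch) o (8 * Ψ.U0 y.1 ^ 3 * e * Φ.U0 x.1 ^ 3) x := by
  obtain ⟨k, hk⟩ : ∃ k, k = 2 * Ψ.U0 y.1 * Φ.U0 x.1 := ⟨_, rfl⟩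
  have q : 8 * Ψ.U0 y.1 ^ 3 * e * Φ.U0 x.1 ^ 3 = e * k ^ (3 : ℝ) := by
    rw [show (3 : ℝ) = (3 : ℕ) by norm_num, Real.rpow_natCast, hk]; ring
  have m : ∀ a b c, |b| + |c| ≤ 3 → e * h'.ch.at' (h'.ch.mon a b c) y ≤
      e * k ^ (3 : ℝ) * h.ch.at' (h.ch.mon a b c) x := fun a b c p => by
    rw [mul_assoc]
    exact mul_le_mul_of_nonneg_left (rl_mon h'.is h.is s.rr.symm s.uu.symm hk.ge a b c p).2 e0
  have k2 : 2 * h.ch.U0 x.1 * h'.ch.U0 y.1 ≤ k := (mul_right_comm ..).trans_le hk.ge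
  rw [q]
  refine ⟨fun i => ((s.g _ (.inl i)).trans_le (t.b i)).trans (m _ _ _ (by norm_num [abs_of_nonpos])),
    fun i => ((s.g _ (.inr (.inl i))).trans_le (t.g i)).trans
      (m _ _ _ (by norm_num [abs_of_nonpos])),
    fun i => ((s.g _ (.inr (.inr i))).trans_le (t.h i)).trans
      (m _ _ _ (by norm_num [abs_of_nonpos, abs_of_nonneg])),
    ((s.a _).trans_le t.a).trans (m _ _ _ (by norm_num)),
    ((s.a _).trans_le t.a').trans (m _ _ _ (by norm_num [abs_of_nonpos, abs_of_nonneg])),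
    fun i w j a b => ?_⟩
  have z := mul_le_mul_of_nonneg_left (t.V i w j a b) (Real.rpow_nonneg
    (zero_le_one.trans (k_one h.is h'.is k2).2.2) 6)
  rw [s.V, s.rr, mul_pow, ← Real.rpow_natCast (k ^ _), ← Real.rpow_mul
    (zero_le_one.trans (k_one h.is h'.is k2).2.2)]
  norm_num at z ⊢
  have d := (rl_Dt h.is h'.is s.rr s.uu k2 j).2
  norm_num at d
  nlinarith [mul_le_mul_of_nonneg_left d (mul_nonneg (rr_pos h'.is y).le
    (sq_nonneg (h'.ch.jet i (Vw Ψ.nf Ψ.nf0 h'.ch w j) y)))]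

theorem cf_anti {s : ℝ} {φ : ℝ → ℝ} (a : Cf s φ) : Antitone φ :=
  antitone_of_deriv_nonpos (a.1.differentiable (by simp)) fun y => (a.2.1 y).2

theorem cf_mul {s s' : ℝ} {φ χ : ℝ → ℝ} (a : Cf s φ) (b : Cf s' χ) : Cf s' (φ * χ) :=
  ⟨a.1.mul b.1, fun y => ⟨⟨mul_nonneg (a.2.1 y).1.1 (b.2.1 y).1.1,
    mul_le_one₀ (a.2.1 y).1.2 (b.2.1 y).1.1 (b.2.1 y).1.2⟩, Antitone.deriv_nonpos fun _ z e =>
      mul_le_mul (cf_anti a e) (cf_anti b e) (b.2.1 z).1.1 (a.2.1 _).1.1⟩,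
    fun y e => by rw [Pi.mul_apply, b.2.2 y e, mul_zero]⟩

section
variable {A : Type} [CommRing A] [Algebra ℂ A] {C : Ch A} {K : Cut C} {T : Tm C}

theorem ps_K (i : T.Is K) {j : C.J} {s : ℝ} (hs : s ∈ T.Lv j) {φ : ℝ → ℝ} (a : Cf s φ) (g : A) :
    T.fc φ * g * C.fn K.lay ∈ (C.B j).K := by
  rw [mul_right_comm]
  exact Ideal.mul_mem_right _ _ (i.cpt φ a.1 j s hs a.2.2).2.1

/-- The limit in the level. -/
theorem lay_lim (h : C.Is) (k : K.Is) (i : T.Is K) {j : C.J} {σ σ' b : ℝ} (hσ : σ' ∈ T.Lv j)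
    (l : σ < σ') {ψ : Fam C.J} (sψ : SmF ψ) (ψ0 : ∀ x : C.Pt, x.1 = j → 0 ≤ C.at' ψ x) {f : A}
    (f0 : ∀ x, 0 ≤ C.val x f)
    (H : ∀ s < σ, ∀ φ, Cf s φ → K.L j (T.fc φ * C.fn ψ) f ≤ b) {φ : ℝ → ℝ} (a : Cf σ φ) :
    K.L j (T.fc φ * C.fn ψ) f ≤ b := by
  obtain ⟨χ, c1, c2⟩ := cf_ex l
  have v : ∀ {s η}, Cf s η → ∀ x, C.val x (T.fc η * C.fn ψ * C.fn K.lay * f) =
      η (T.tv x) * (C.at' ψ x * (C.at' K.lay x * C.val x f)) := fun c x => by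
    rw [mul_assoc, mul_assoc, vl_mul h (i.fc_c _ c.1), vl_fc i c.1, vl_fn_mul h sψ,
      vl_fn_mul h k.sm.2.1]
  have key : ∀ t ∈ Iio σ, K.L j (T.fc φ * C.fn ψ) f ≤ b + φ t * K.L j (T.fc χ * C.fn ψ) f := by
    intro t ht
    obtain ⟨s, s1, s2⟩ := exists_between (show t < σ from ht)
    obtain ⟨η, e1, e2⟩ := cf_ex s1
    have m := cf_mul a e1
    refine le_trans ?_ (add_le_add (H s s2 _ m) le_rfl)
    simp only [Cut.L]
    rw [← Ibp.J_rl, ← Ibp.J_add]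
    refine (h.ibp j).J_le (Ideal.mul_mem_right _ _ (ps_K i (i.low j l.le hσ) a _))
      (Ideal.add_mem _ (Ideal.mul_mem_right _ _ (ps_K i (i.low j (s2.trans l).le hσ) m _))
        (Ideal.mul_mem_left _ _ (Ideal.mul_mem_right _ _ (ps_K i hσ c1 _)))) fun x =>
      (?_ : ∀ x : C.Pt, x.1 = j → C.val x _ ≤ C.val x _) ⟨j, x⟩ rfl
    intro x hx
    rw [vl_add, vl_rl h, v a, v m, v c1, ← mul_assoc (φ t), ← add_mul]
    refine mul_le_mul_of_nonneg_right ?_ (mul_nonneg (ψ0 _ hx)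
      (mul_nonneg (k.rng _ _ (h.dom _)).2.1 (f0 _)))
    generalize T.tv x = y
    have p1 := (m.2.1 y).1.1
    have p2 := mul_nonneg (a.2.1 t).1.1 (c1.2.1 y).1.1
    rcases le_total y t with u | u
    · rw [Pi.mul_apply, e2 y u]; linarith
    rcases le_total y σ with w | w
    · rw [c2 y w]; linarith [cf_anti a u]
    · rw [a.2.2 y w]; linarith
  have := (isClosed_le continuous_const (continuous_const.add
    (a.1.continuous.mul continuous_const))).closure_subset_iff.2 key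
    (show σ ∈ closure (Iio σ) by rw [closure_Iio]; exact mem_Iic.2 le_rfl)
  simpa [a.2.2 σ le_rfl] using this

end

/-- The standing assumptions. -/
theorem sd_of {Φ : Fm} (h : Φ.Ok) {K : Cut h.ch} (k : K.Is) (j : Φ.J) :
    Sd h.ch Φ.nf Φ.nf0 Φ.tc K (Vw Φ.nf Φ.nf0 h.ch) :=
  ⟨h.ga, k, P354FA.bs h.ga j, P354FA.Vw_nil .., fun w i => by
    rw [Vw, P354XG.D_sub, P354FA.S_Jh h.is h.ga.is, P354FA.S_Jh h.is h.ga.rf.is, sub_zero]⟩

end Vale.Agent.P354YF
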