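import Vale.Agent.P354YF.Fte5
import Vale.Agent.P354FS.Layb
import Vale.Agent.P354FY.Pe
import Vale.Agent.P354FX.Ins
import Vale.Agent.P354PA.Low

/-!
The tables on bounded radii.
-/

open Set

noncomputable section

namespace Vale.Agent.P354YF

open Vale.Agent.P354XG Vale.Agent.P354XD Vale.Agent.P354XI Vale.Agent.P354XR Vale.Agent.P354Z
open Vale.Agent.P354CO (Bo Gi Sl TabE FTE od ok_pos fl_near)
open Vale.Agent.P354CV (bootp Ys)
open Vale.Agent.P354YH (wt wt_pos)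
open Vale.Agent.P354YK (Fm)
open Vale.Agent.P354YL (Tb Od Cf W0 cw_W0 W0_ge W0_le vl_fc)
open Vale.Agent.P354FA (Vw)
open Vale.Agent.P354FS (RAWN RAWL layb gi_par)

theorem rawn : RAWN := fun _ h hR n N ρ =>
  let ⟨c, p, B, q, a⟩ := raw_near h hR n N ρ
  ⟨c, p, B, q, fun x d y r d0 d1 e =>
    a x d y r d0 d1 fun i => (P354BO.q2_mono _ _ (n.le_add_right 4) _).trans (e i)⟩

theorem rawl : RAWL := fun _ h hR _ N k =>
  let ⟨c, p, B, q, a⟩ := raw_lay h hR N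
  ⟨c, p, B, q, fun x e e0 e1 b => (a x e e0 e1 fun i =>
    (P354BO.q2_mono _ _ (N.le_add_right 2) _).trans (b i)).mono h.is k le_rfl le_rfl⟩

variable {c : Cs}

/-- The decay of the distance to Kerr. -/
theorem d_dec (o : c.Ok) {ρ : ℝ} (hρ : c.R1 + 3 ≤ ρ) : ∃ C ≥ 0, ∀ E L ε, Bo c E L ε → c.L0 ≤ L →
    ε ≤ 1 / 2 → ∀ x ∈ E.O1, An x → Est.Fa c x → x.2.1 ≤ ρ → ∀ i,
      P354Z.q2 (lt (hp _) (E.p2 c)) x c.N0 (E.d2 c i) ≤
        (C * (ε * (1 + |x.1|) ^ (-(7 / 5) : ℝ))) ^ 2 := by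
  obtain ⟨w, hw⟩ := exists_nat_ge (c.B + c.t1 + c.c0 + 1)
  obtain ⟨C, hC, h⟩ := bootp (s := 7 / 5) (by norm_num) (by norm_num) w
  have p : 0 ≤ c.C ρ * C := mul_nonneg (zero_le_one.trans (o.C ρ)) hC
  have t1 := o.t1
  have c0 := o.c0
  have B := o.B
  have κ : 0 < 2 + c.t1 + c.B := by linarith
  refine ⟨c.C ρ * C * 2 * (2 + c.t1 + c.B) ^ (7 / 5 : ℝ), by positivity,
    fun E L ε b hL he x hx a f r i => ?_⟩
  have e0 := b.is.near.e0
  have e3 := b.e0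
  have e4 := b.pos
  have lo := (b.is.shape.rad1 x hx).2.2
  have j0 : (0 : ℝ) ≤ ⌊x.1 - c.t1⌋₊ := Nat.cast_nonneg _
  have u : |x.1 - c.t1 - ⌊x.1 - c.t1⌋₊| + c.c0 ≤ w ∧
      1 + |x.1| ≤ (2 + c.t1 + c.B) * (1 + ⌊x.1 - c.t1⌋₊) := by
    rcases le_total 0 (x.1 - c.t1) with u | u
    · have := abs_le.1 (fl_near u)
      rw [abs_of_nonneg (show 0 ≤ x.1 by linarith)]
      exact ⟨by linarith [fl_near u], by nlinarith⟩
    · rw [Nat.floor_of_nonpos u, Nat.cast_zero, sub_zero, abs_of_nonpos u]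
      exact ⟨by linarith, by linarith [abs_le.2 (⟨by linarith, by linarith⟩ :
        -(c.t1 + c.B) ≤ x.1 ∧ x.1 ≤ c.t1 + c.B)]⟩
  refine ((h (by linarith) (by linarith) b.is.near (b.dec0 hL) e4.le (by linarith) hρ _ x hx a r
    u.1 i).2 f).trans (pow_le_pow_left₀ (by
      have := wt_pos (-(7 / 5)) ⌊x.1 - c.t1⌋₊; positivity) ?_ 2)
  have v := Real.rpow_le_rpow_of_nonpos (by positivity) u.2 (show (-(7 / 5) : ℝ) ≤ 0 by norm_num)
  rw [Real.mul_rpow κ.le (by positivity), Real.rpow_neg κ.le, inv_mul_le_iff₀ (by positivity)] at v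
  exact (mul_le_mul (mul_le_mul_of_nonneg_left (show _ ≤ 2 * ε by linarith) p) v
    (wt_pos _ _).le (by positivity)).trans_eq (by ring)

/-- All states over c, with the least radius. -/
def vn (c : Cs) : Fm :=
  ⟨{E : Est // E.Is c}, c.M, fun _ => c, Subtype.val, fun _ => c.R1 + 3, fun _ => c.R1 + 3⟩

theorem vn_ok (o : c.Ok) : (vn c).Ok :=
  ⟨fun _ => rfl, fun j => j.2.shape.co2, fun j => j.2.eqs, fun _ =>
    ⟨show 1 ≤ c.R1 + 3 by linarith [o.R1, (ok_pos o).1], le_rfl⟩⟩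

/-- The tables on bounded radii, in all charts. -/
theorem near_tb (o : c.Ok) {n L : ℕ} {ρ : ℝ} (hn : n + 2 ≤ c.N0) (hL : c.L0 ≤ L)
    (hρ : c.R1 + 3 ≤ ρ) (hs : ρ + 1 ≤ c.Rs) : ∃ δ > 0, ∃ B ≥ 0, ∀ (Φ : Fm) (h : Φ.Ok)
      (x : h.ch.Pt) ε (q : Od), Φ.c x.1 = c → Bo c (Φ.E x.1) L ε → ε ≤ δ → c.R1 + 3 ≤ Φ.R0 x.1 →
      h.ch.rr x ≤ ρ → q.m ≤ n ∧ q.m' ≤ n ∧ q.ia ≤ n ∧ q.N ≤ L →
      Tb h.ch Φ.nf Φ.nf0 (Vw Φ.nf Φ.nf0 h.ch) q (B * ε * Φ.U0 x.1 ^ 3) x := by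
  have M0 := (ok_pos o).1
  obtain ⟨δ1, p1, C1, c1, a1⟩ := P354FX.tubeb c.M ρ L
  obtain ⟨δ2, p2, C2, c2, a2⟩ := P354PA.low2 c.M ρ
  obtain ⟨δ3, p3, C3, c3, a3⟩ := raw_near (vn_ok o)
    (fun _ => show 4 * c.M ≤ c.R1 + 3 by linarith [o.R1]) n L ρ
  obtain ⟨δ4, p4, a4⟩ := P354FY.pe_of o hρ p1
  obtain ⟨D, d0, a5⟩ := d_dec o hρ
  have x0 := Real.exp_pos (4 + 2 * L)
  set X := Real.exp (4 + 2 * L)
  refine ⟨min (min δ4 (1 / 2)) (min (δ1 / (X + C2 * D + 1)) (min δ2 δ3 / (D + 1))), by positivity,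
    2 * (C3 * (C1 * (X + C2 * D) + D)) * (3 * (1 + 4 * c.M ^ 2)) ^ (7 / 5 : ℝ), by positivity,
    fun Φ h x ε q hc b e1 r0 r k => ?_⟩
  obtain ⟨m2, an, w1, w2⟩ := h.pt_mem x
  have hM : Φ.M0 = c.M := (h.M x.1).symm.trans (congrArg Cs.M hc)
  have fa : Est.Fa c (h.pt x) := ⟨r0.trans w1, hM ▸ w2⟩
  rw [h.rr_eq] at r
  have m1 := b.is.shape.low _ m2 fa (by linarith)
  have e0 := b.pos
  have t0 : 0 < 1 + |(h.pt x).1| := by positivity
  obtain ⟨z, hz⟩ : ∃ z, z = ε * (1 + |(h.pt x).1|) ^ (-(7 / 5) : ℝ) := ⟨_, rfl⟩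
  have z0 : 0 ≤ z := by rw [hz]; positivity
  have z1 : z ≤ ε := hz ▸ mul_le_of_le_one_right e0.le (Real.rpow_le_one_of_one_le_of_nonpos
    (le_add_of_nonneg_right (abs_nonneg _)) (by norm_num))
  have f1 := (le_div_iff₀ (by positivity)).1
    (z1.trans (e1.trans ((min_le_right ..).trans (min_le_left ..))))
  have f2 := (le_div_iff₀ (by positivity)).1
    (z1.trans (e1.trans ((min_le_right ..).trans (min_le_right ..))))
  have g1 := mul_nonneg x0.le z0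
  have g2 := mul_nonneg d0 z0
  have g3 := mul_nonneg c2 g2
  have η : (Φ.E x.1).eta L (h.pt x) ≤ (X * z) ^ 2 := by
    have nr : P354XR.Nr c (Φ.E x.1) :=
      ⟨b.is.shape.co1, b.is.eqs, ((abs_nonneg _).trans_lt b.is.eqs.par.1).ne'⟩
    obtain ⟨y, m, n1, e, -, g⟩ := nr.eta_An m1 an
    rw [mul_pow, hz, ← e]
    exact (g L).1.trans (mul_le_mul_of_nonneg_left (b.dec y m n1) (sq_nonneg _))
  have dd := a5 _ L ε b hL (e1.trans ((min_le_left ..).trans (min_le_right ..))) _ m1 an fa r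
  rw [← hz] at dd
  have v := a1 c _ _ rfl (a4 _ L ε b hL (e1.trans ((min_le_left ..).trans (min_le_left ..))) _ m1 an
    fa r) ((P354CO.eta_mono (Nat.div_le_self L 2) _).trans (η.trans
      (pow_le_pow_left₀ g1 (by linarith) 2))) (C2 * (D * z)) (by linarith)
    (a2 c _ _ rfl o b.is.shape b.is.eqs m2 an fa r _ g2 (by linarith [min_le_left δ2 δ3])
      fun i => (P354BO.q2_mono _ _ (by omega) _).trans (dd i)) _ g1 η
  let y := (vn_ok o).pk ⟨_, b.is⟩ (h.pt x) ⟨m2, an, fa⟩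
  have s : Same h (vn_ok o) x y := ⟨hc.symm, rfl, rfl⟩
  have R := s.raw (a3 y _ _ (((vn_ok o).rr_eq y).trans_le r) g2 (by linarith [min_le_right δ2 δ3])
    (fun i => (P354BO.q2_mono _ _ (by omega) _).trans (dd i)) v)
  have r1 := one_le_rr h.is x
  have U : 1 ≤ Φ.U0 x.1 := (h.one x.1).1.trans (h.one x.1).2
  have M2 := sq_nonneg c.M
  have a0 := abs_nonneg (h.pt x).1
  have μ0 : 1 + 4 * c.M ^ 2 + |(h.pt x).1| ≤ (1 + 4 * c.M ^ 2) * (1 + |(h.pt x).1|) := by nlinarith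
  have hμ : h.ch.ut x.1 (h.ch.uu x) ≤ (1 + 4 * c.M ^ 2) * (1 + |(h.pt x).1|) * Φ.U0 x.1 := by
    have a : |h.ch.uu x| ≤ |(h.pt x).1| + 4 * c.M ^ 2 := by
      rw [h.uu_eq, uu, ← h.rr_eq, hM]
      refine (abs_add_le _ _).trans (add_le_add le_rfl ?_)
      rw [abs_of_nonneg (by positivity)]
      exact div_le_self (by positivity) r1
    refine (P354FS.ut_le h.is _ _).trans (le_trans ?_ (mul_le_mul_of_nonneg_right μ0 (by linarith)))
    change _ + Φ.U0 x.1 ≤ _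
    nlinarith [mul_nonneg (sub_nonneg.2 U) (add_nonneg a0 M2), mul_nonneg (sub_nonneg.2 U) M2]
  have μ1 := (one_le_ut h.is _ _).trans hμ
  refine (raw_tb h.is μ1 (hμ.trans (le_mul_of_one_le_right (by linarith) r1)) R k).mono h.is
    (by positivity) ?_
  have u3 : Φ.U0 x.1 ^ (7 / 5 : ℝ) ≤ Φ.U0 x.1 ^ 3 :=
    (Real.rpow_le_rpow_of_exponent_le U (by norm_num)).trans_eq (Real.rpow_natCast _ 3)
  refine le_trans (le_of_eq ?_) (mul_le_mul_of_nonneg_left u3 (by positivity))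
  rw [← mul_assoc 3, ← mul_assoc 3, Real.mul_rpow (by positivity) (by linarith),
    Real.mul_rpow (by positivity) t0.le, hz, Real.rpow_neg t0.le]
  have := Real.rpow_pos_of_pos t0 (7 / 5)
  field_simp

end Vale.Agent.P354YF
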