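import Vale.Agent.P354YF.Cmp
import Vale.Agent.P354YS.Wt

/-!
The Hardy inequality in the far chart with a causal factor.
-/

noncomputable section

namespace Vale.Agent.P354YF

open Vale.Agent.P354XG (Der D_mul)
open Vale.Agent.P354XI Vale.Agent.P354XZ Finset
open Vale.Agent.P354YS (Ps ps_mon)

variable {A : Type} [CommRing A] [Algebra ℂ A] {C : Ch A} {K : Cut C} {F : NF A} {j : C.J}
  {ps : A}

theorem vl_rl (h : C.Is) (t : ℝ) (f : A) (x : C.Pt) : C.val x (Ibp.rl A t * f) = t * C.val x f := by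
  rw [Ch.val, (h.ibp x.1).val_mul ((h.ibp x.1).re_rl t), (h.ibp x.1).val_rl]; rfl

theorem E_add (f g : A) : K.E j ps (f + g) = K.E j ps f + K.E j ps g := by
  rw [Cut.E, mul_add, Ibp.J_add]; rfl
theorem L_add (f g : A) : K.L j ps (f + g) = K.L j ps f + K.L j ps g := by
  rw [Cut.L, mul_add, Ibp.J_add]; rfl
theorem E_zero : K.E j ps 0 = 0 := by rw [Cut.E, mul_zero, Ibp.J_zero]
theorem L_zero : K.L j ps 0 = 0 := by rw [Cut.L, mul_zero, Ibp.J_zero]
theorem E_rl (t : ℝ) (f : A) : K.E j ps (Ibp.rl A t * f) = t * K.E j ps f := by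
  rw [Cut.E, mul_left_comm, Ibp.J_rl]; rfl
theorem E_sum {ι : Type} (s : Finset ι) (f : ι → A) :
    K.E j ps (∑ i ∈ s, f i) = ∑ i ∈ s, K.E j ps (f i) := by
  rw [Cut.E, mul_sum, Ibp.J_sum]; rfl
theorem L_sum {ι : Type} (s : Finset ι) (f : ι → A) :
    K.L j ps (∑ i ∈ s, f i) = ∑ i ∈ s, K.L j ps (f i) := by
  rw [Cut.L, mul_sum, Ibp.J_sum]; rfl

variable (h : C.Is) (hK : K.Is) (c : K.Cau F j ps)
include h hK c

theorem wt_chi : (C.B j).Wt (ps * C.fn K.chi) :=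
  ⟨c.cpt.1, by rw [Ibp.Re, h.c_eq, map_mul, c.re, h.fn_c _ hK.sm.1], fun x => by
    have := vl_mul (x := ⟨j, x⟩) h c.re (C.fn K.chi)
    rw [vl_fn (x := ⟨j, x⟩) h hK.sm.1] at this
    exact this.ge.trans' (mul_nonneg (c.pos ⟨j, x⟩ rfl).1 (hK.rng _ _ (h.dom ⟨j, x⟩)).1.1)⟩

theorem wt_lay : (C.B j).Wt (ps * C.fn K.lay) :=
  ⟨c.cpt.2.1, by rw [Ibp.Re, h.c_eq, map_mul, c.re, h.fn_c _ hK.sm.2.1], fun x => by
    have := vl_mul (x := ⟨j, x⟩) h c.re (C.fn K.lay)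
    rw [vl_fn (x := ⟨j, x⟩) h hK.sm.2.1] at this
    exact this.ge.trans' (mul_nonneg (c.pos ⟨j, x⟩ rfl).1 (hK.rng _ _ (h.dom ⟨j, x⟩)).2.1)⟩

omit hK c in
theorem J_wt {w f g : A} (hw : (C.B j).Wt w) (e : ∀ x : C.Pt, x.1 = j → C.val x f ≤ C.val x g) :
    (C.B j).J (w * f) ≤ (C.B j).J (w * g) :=
  (h.ibp j).J_le (Ideal.mul_mem_right _ _ hw.K) (Ideal.mul_mem_right _ _ hw.K) fun x => by
    rw [(h.ibp j).val_mul hw.re, (h.ibp j).val_mul hw.re]
    exact mul_le_mul_of_nonneg_left (e ⟨j, x⟩ rfl) (hw.pos x)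

theorem E_le {f g : A} (e : ∀ x : C.Pt, x.1 = j → C.val x f ≤ C.val x g) :
    K.E j ps f ≤ K.E j ps g := J_wt h (wt_chi h hK c) e
theorem L_le {f g : A} (e : ∀ x : C.Pt, x.1 = j → C.val x f ≤ C.val x g) :
    K.L j ps f ≤ K.L j ps g := J_wt h (wt_lay h hK c) e
theorem E_pos {f : A} (e : ∀ x : C.Pt, x.1 = j → 0 ≤ C.val x f) : 0 ≤ K.E j ps f :=
  E_zero.ge.trans (E_le h hK c fun x hx => vl_zero.le.trans (e x hx))
theorem L_pos {f : A} (e : ∀ x : C.Pt, x.1 = j → 0 ≤ C.val x f) : 0 ≤ K.L j ps f :=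
  L_zero.ge.trans (L_le h hK c fun x hx => vl_zero.le.trans (e x hx))

omit h hK c

/-- The weights which are admissible for the damping k. -/
structure Hd (k : ℕ) (Z : Fam C.J) : Prop where
  ps : Ps Z
  le : ∀ x : C.Pt, C.rr x * deriv (Z x.1 (C.uu x)) (C.rr x) ≤ (2 * k - 1 - 1 / 100) * C.at' Z x

theorem hardyE (h : C.Is) (hK : K.Is) : ∃ M, 0 ≤ M ∧ ∀ (k : ℕ) (Z : Fam C.J), Hd k Z →
    ∀ (F : NF A) j ps, K.Cau F j ps → ∀ n f G, C.X 1 f = -((k : A) * f) + G →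
      K.E j ps (C.fn Z * C.sl n f) ≤
        M * (K.L j ps (C.fn Z * C.sl n f) + K.E j ps (C.fn Z * C.sl n G)) := by
  obtain ⟨L, hL⟩ := hK.dchi
  refine ⟨200 * (|L| + 200), by positivity, fun k Z hZ F j ps c n => ?_⟩
  have b := h.ibp j
  have z : (C.B j).Re (C.fn Z) := by rw [Ibp.Re, h.c_eq, h.fn_c _ hZ.ps.sm]
  have z0 : ∀ x, 0 ≤ (C.B j).val x (C.fn Z) := fun x =>
    (vl_fn (x := ⟨j, x⟩) h hZ.ps.sm).ge.trans' (hZ.ps.at h _).le
  have w := b.wt_mul (wt_chi h hK c) z z0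
  have y := b.wt_mul (wt_lay h hK c) z z0
  have base : ∀ f G, C.X 1 f = -((k : A) * f) + G → K.E j ps (C.fn Z * (f * C.c f)) ≤
      200 * (|L| + 200) * (K.L j ps (C.fn Z * (f * C.c f)) + K.E j ps (C.fn Z * (G * C.c G))) := by
    intro f G e
    have := hardy (X := C.X) b (L := C.X 1) (d := 1) (((h.skR j).dv.smul C.r).congr
      (by rw [mul_zero, zero_add, R_r h])) (fun f => by rw [h.c_eq]; exact X_c h j 1 f) (X1_X h)
      (k := k) w (b.wt_rl w (t := 1 / 200) (by norm_num)).K (b.wt_rl w (t := 1 / 200) (by norm_num))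
      (b.wt_rl w (t := 200) (by norm_num)) (b.wt_rl y (abs_nonneg L)).K (fun x => ?_) (fun x => ?_)
      0 (f := f) (G := G) (by rw [e, Ibp.rl, Complex.ofReal_natCast, map_natCast])
    · simp only [nj_rl_w] at this
      simp only [nj_zero, Ibp.nsq, Ibp.bil, h.c_eq] at this
      have p := L_pos h hK c (f := C.fn Z * (f * C.c f)) fun x _ => by
        rw [vl_fn_mul h hZ.ps.sm, vl_nsq h]; have := hZ.ps.at h x; positivity
      have q := E_pos h hK c (f := C.fn Z * (G * C.c G)) fun x _ => by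
        rw [vl_fn_mul h hZ.ps.sm, vl_nsq h]; have := hZ.ps.at h x; positivity
      simp only [Cut.E, Cut.L, ← mul_assoc _ (C.fn Z)] at p q ⊢
      nlinarith [mul_nonneg (abs_nonneg L) q]
    · let x' : C.Pt := ⟨j, x⟩
      change C.val x' _ + C.val x' _ + C.val x' _ ≤ 2 * k * C.val x' _ + C.val x' _
      have e1 : C.X 1 (ps * C.fn K.chi * C.fn Z) + 1 * (ps * C.fn K.chi * C.fn Z) =
          C.r * (C.fn K.chi * (C.fn Z * C.R ps)) + ps * (C.fn Z * (C.r * C.R (C.fn K.chi))) +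
          ps * (C.fn K.chi * (C.r * C.R (C.fn Z))) + ps * C.fn K.chi * C.fn Z := by
        rw [X1, D_mul, D_mul]; ring
      rw [e1]
      simp only [vl_add, vl_rl h, mul_assoc ps, vl_mul h c.re, vl_mul h h.c_r,
        vl_fn_mul h hK.sm.1, vl_fn_mul h hK.sm.2.1, vl_fn_mul h hZ.ps.sm, vl_fn h hZ.ps.sm,
        vl_R_fn h hK.sm.1, vl_R_fn h hZ.ps.sm]
      obtain ⟨p0, p1, -⟩ := c.pos x' rfl
      obtain ⟨⟨c0, -⟩, l0, -⟩ := hK.rng _ _ (h.dom x')
      have zz := (hZ.ps.at h x').le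
      have r := (rr_pos h x').le
      have d := (hL _ _ (h.dom x')).2
      change 0 ≤ C.at' K.chi x' at c0
      change 0 ≤ C.at' K.lay x' at l0
      change C.rr x' * _ ≤ L * C.at' K.lay x' at d
      have d1 : C.rr x' * deriv (K.chi x'.1 (C.uu x')) (C.rr x') ≤ |L| * C.at' K.lay x' :=
        (mul_le_mul_of_nonneg_left ((le_abs_self _).trans (le_add_of_nonneg_left (abs_nonneg _)))
          r).trans (d.trans (mul_le_mul_of_nonneg_right (le_abs_self L) l0))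
      have a1 := mul_nonneg r (mul_nonneg c0 (mul_nonneg zz (neg_nonneg.2 p1)))
      have a2 := mul_le_mul_of_nonneg_left (mul_le_mul_of_nonneg_left d1 zz) p0
      have a3 := mul_le_mul_of_nonneg_left (mul_le_mul_of_nonneg_left (hZ.le x') c0) p0
      rw [show C.val x' C.r = C.rr x' from rfl]
      linarith
    · rw [b.val_mul (b.re_rl _), b.val_mul (b.re_rl _), b.val_rl, b.val_rl]
      exact le_of_eq (by ring)
  induction n with
  | zero => intro f G _; simp [Ch.sl, E_zero, L_zero]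
  | succ n ih =>
    intro f G e
    have := sum_le_sum fun a (_ : a ∈ univ) => ih _ _ (eq_X h e a)
    rw [← mul_sum, sum_add_distrib] at this
    simp only [sl_succ, mul_add (C.fn Z), mul_sum, E_add, L_add, E_sum, L_sum]
    linarith [base f G e]

theorem hd_mon (h : C.Is) (k : ℕ) {a b : ℝ} (e : ℝ) (hb : 0 ≤ b)
    (c : a + b ≤ 2 * k - 1 - 1 / 100) : Hd k (C.mon a b e) :=
  ⟨ps_mon h .., fun x => by
    obtain ⟨q, -, q1, hq⟩ := ratio h x
    rw [(mon_deriv a b e x.1 (C.uu x) (rr_pos h x)).deriv, hq]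
    exact mul_le_mul_of_nonneg_right (by nlinarith) (at_pos h ..).le⟩

theorem ps_p (hK : K.Is) : Ps K.p := ⟨hK.sm.2.2, hK.pos⟩

theorem hd_h (h : C.Is) (hK : K.Is) {l : ℝ} (hl : l ∈ Set.Icc (0 : ℝ) (1 / 100)) (i : Fin 2) :
    Hd 2 (C.Zh K.p l i) := by
  fin_cases i
  · refine ⟨(ps_p hK).mul (ps_mon h ..), fun x => ?_⟩
    have r := rr_pos h x
    have v := two_le_vv x.1 (C.uu x) (C.rr x)
    have v0 : 0 < C.vv x.1 (C.uu x) (C.rr x) := by linarith
    have d := ((smF_diff hK.sm.2.2 x.1 (C.uu x) r).hasDerivAt.mul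
      (mon_deriv (-17 / 20) (14 / 5 - l) 0 x.1 (C.uu x) r)).deriv
    change deriv (C.Zh K.p l 0 x.1 (C.uu x)) (C.rr x) = _ at d
    change C.rr x * deriv (C.Zh K.p l 0 x.1 (C.uu x)) (C.rr x) ≤
      _ * (K.p x.1 (C.uu x) (C.rr x) * C.mon (-17 / 20) (14 / 5 - l) 0 x.1 (C.uu x) (C.rr x))
    rw [d]
    have m := (mn_pos h (-17 / 20) (14 / 5 - l) 0 x.1 (C.uu x) r).le
    have p := (hK.pos x.1 (C.uu x) _ r).le
    have a := mul_le_mul_of_nonneg_right (hK.dp _ _ (h.dom x)).2 m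
    have e : C.rr x * (-17 / 20 / C.rr x + 2 * (14 / 5 - l) / C.vv x.1 (C.uu x) (C.rr x)) =
        -17 / 20 + (28 / 5 - 2 * l) * (C.rr x / C.vv x.1 (C.uu x) (C.rr x)) := by
      field_simp; ring
    have q := mul_nonneg (mul_nonneg hl.1 (div_pos r v0).le) (mul_nonneg p m)
    rw [mul_div_assoc] at a
    dsimp only at a
    push_cast
    nlinarith [mul_nonneg p m, congrArg (· * (K.p x.1 (C.uu x) (C.rr x) *
      C.mon (-17 / 20) (14 / 5 - l) 0 x.1 (C.uu x) (C.rr x))) e]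
  · exact hd_mon h 2 0 (by linarith [hl.2]) (by push_cast; linarith [hl.1])

end Vale.Agent.P354YF
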