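import Vale.Agent.P354YF.Hy
import Vale.Agent.P354YF.Sup

/-!
The transport in the mean: the calculus of the bounds.
-/

noncomputable section

namespace Vale.Agent.P354YF

open Vale.Agent.P354XI Vale.Agent.P354XZ Finset
open Vale.Agent.P354YS (Ps ps_mon ps_Dw ps_Zh val_dn le_dn dn_nonneg)

variable {A : Type} [CommRing A] [Algebra ℂ A] {C : Ch A}

/-- The data of the statement. -/
structure D2 (F : NF A) (U : Un A) (K : Cut C) (n : ℕ) where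
  k : ℕ
  m : ℕ
  j : C.J
  l : ℝ
  ps : A
  c : ℝ
  tab : C.TabG m K.ep U Set.univ
  ta : C.TabA (n + k) K.ep F.al
  hm : n + k ≤ 2 * m
  hl : l ∈ Set.Icc (0 : ℝ) (1 / 100)
  cau : K.Cau F j ps
  c0 : 0 ≤ c
  hc : ∀ x : C.Pt, x.1 = j → (C.rr x)⁻¹ ≤ c

variable {F : NF A} {U : Un A} {K : Cut C} {n : ℕ} {ι κ : Type} [Fintype ι] [Fintype κ]

namespace D2
variable (d : D2 F U K n)

def dV : A := C.dn (C.Dw K.p d.l) (C.sl (n + 1)) (U.map (C.T)^[d.k]).V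
def dG : A := C.dG K.p d.l (C.sl (n + 1)) (U.map (C.T)^[d.k])
def dA : A := C.dA d.l (C.sl (n + 1)) ((C.T)^[d.k] F.al)
def dQ : A := C.dG K.p d.l (C.sl (n + d.k + 1)) U
def E (f : A) : ℝ := K.E d.j d.ps f
def R1 : ℝ := d.E d.dV + K.L d.j d.ps d.dG + d.E d.dA
def R2 : ℝ := K.ep d.j ^ 2 * K.pm d.j * d.E d.dQ

end D2

/-- The density is bounded by an element whose integral is controlled. -/
def P2 (φ : D2 F U K n → C.Pt → ℝ) (X : D2 F U K n → ℝ) : Prop :=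
  ∃ c0, 0 < c0 ∧ ∃ B, 0 ≤ B ∧ ∃ B' : ℕ → ℝ, (∀ k, 0 ≤ B' k) ∧ ∀ d : D2 F U K n, d.c ≤ c0 →
    ∃ y, (∀ x : C.Pt, x.1 = d.j → φ d x ≤ C.val x y) ∧
      d.E y ≤ B * (d.R1 + d.c ^ 2 * X d) + B' d.k * d.R2

/-- Quadratic densities. -/
def Pq (φ : D2 F U K n → C.Pt → ℝ) : Prop := ∃ M : ℕ → ℝ, (∀ k, 0 ≤ M k) ∧
  ∀ (d : D2 F U K n) (x : C.Pt), x.1 = d.j →
    φ d x ≤ M d.k * (K.ep d.j ^ 2 * K.pm d.j * C.val x d.dQ)

variable {φ ψ : D2 F U K n → C.Pt → ℝ} {X : D2 F U K n → ℝ}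

theorem P2.add (a : P2 φ X) (b : P2 ψ X) : P2 (fun d x => φ d x + ψ d x) X := by
  obtain ⟨c, c0, B, B0, M, M0, a⟩ := a
  obtain ⟨c', c0', B', B0', M', M0', b⟩ := b
  refine ⟨min c c', lt_min c0 c0', B + B', add_nonneg B0 B0', M + M',
    fun k => add_nonneg (M0 k) (M0' k), fun d e => ?_⟩
  obtain ⟨y, p, q⟩ := a d (e.trans (min_le_left ..))
  obtain ⟨y', p', q'⟩ := b d (e.trans (min_le_right ..))
  refine ⟨y + y', fun x hx => by rw [vl_add]; exact add_le_add (p x hx) (p' x hx), ?_⟩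
  rw [D2.E, E_add, Pi.add_apply]
  rw [D2.E] at q q'
  linarith

theorem P2.le (h : C.Is) (a : P2 φ X) {L : ℝ} (L0 : 0 ≤ L)
    (e : ∀ d x, x.1 = d.j → ψ d x ≤ L * φ d x) : P2 ψ X := by
  obtain ⟨c, c0, B, B0, M, M0, a⟩ := a
  refine ⟨c, c0, L * B, mul_nonneg L0 B0, fun k => L * M k, fun k => mul_nonneg L0 (M0 k),
    fun d e' => ?_⟩
  obtain ⟨y, p, q⟩ := a d e'
  refine ⟨Ibp.rl A L * y, fun x hx => ?_, ?_⟩
  · rw [vl_rl h]; exact (e d x hx).trans (mul_le_mul_of_nonneg_left (p x hx) L0)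
  · rw [D2.E, E_rl]
    exact (mul_le_mul_of_nonneg_left q L0).trans (le_of_eq (by ring))

theorem p2_zero (e : ∀ d x, φ d x = 0) : P2 φ X :=
  ⟨1, one_pos, 0, le_rfl, 0, fun _ => le_rfl, fun d _ =>
    ⟨0, fun x _ => by rw [e, vl_zero], by simp [D2.E, E_zero]⟩⟩

theorem p2_sum {f : ι → D2 F U K n → C.Pt → ℝ} (a : ∀ i, P2 (f i) X) :
    P2 (fun d x => ∑ i, f i d x) X := by
  classical
  suffices ∀ s : Finset ι, P2 (fun d x => ∑ i ∈ s, f i d x) X from this univ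
  intro s
  induction s using Finset.induction_on with
  | empty => exact p2_zero fun _ _ => sum_empty
  | insert i s hi ih => simpa only [sum_insert hi] using (a i).add ih

theorem P2.wk (a : P2 φ 0) (hX : ∀ d, 0 ≤ X d) : P2 φ X := by
  obtain ⟨c, c0, B, B0, M, M0, a⟩ := a
  refine ⟨c, c0, B, B0, M, M0, fun d e => ?_⟩
  obtain ⟨y, p, q⟩ := a d e
  refine ⟨y, p, q.trans ?_⟩
  have := mul_nonneg B0 (mul_nonneg (sq_nonneg d.c) (hX d))
  rw [Pi.zero_apply]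
  linarith

theorem Pq.p2 (h : C.Is) (a : Pq φ) : P2 φ X := by
  obtain ⟨M, M0, a⟩ := a
  refine ⟨1, one_pos, 0, le_rfl, M, M0, fun d _ =>
    ⟨Ibp.rl A (M d.k * (K.ep d.j ^ 2 * K.pm d.j)) * d.dQ, fun x hx => ?_, ?_⟩⟩
  · rw [vl_rl h, mul_assoc]; exact a d x hx
  · rw [D2.E, E_rl, zero_mul, zero_add, mul_assoc]; rfl

variable {Z : D2 F U K n → C.Pt → ℝ}

theorem P2.sq_add (h : C.Is) (hZ : ∀ d x, 0 ≤ Z d x) (a : P2 (fun d x => Z d x * φ d x ^ 2) X)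
    (b : P2 (fun d x => Z d x * ψ d x ^ 2) X) : P2 (fun d x => Z d x * (φ d x + ψ d x) ^ 2) X :=
  (a.add b).le h zero_le_two fun d x _ => by
    nlinarith [mul_nonneg (hZ d x) (sq_nonneg (φ d x - ψ d x))]

theorem sq_sum_le {z : ℝ} (hz : 0 ≤ z) (f : ι → ℝ) :
    z * (∑ i, f i) ^ 2 ≤ Fintype.card ι * ∑ i, z * f i ^ 2 := by
  rw [← mul_sum, mul_left_comm]
  exact mul_le_mul_of_nonneg_left sq_sum_le_card_mul_sum_sq hz

theorem p2_L (h : C.Is) (hZ : ∀ d x, 0 ≤ Z d x) {v w a e : A} {P : ι → A} {Q : κ → A}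
    (h1 : P2 (fun d x => Z d x * (C.rr x * c1 C v n d.k x) ^ 2) X)
    (h2 : P2 (fun d x => Z d x * (C.rr x * c1 C w n d.k x) ^ 2) X)
    (h3 : ∀ i, P2 (fun d x => Z d x * c1 C (P i) n d.k x ^ 2) X)
    (h4 : P2 (fun d x => Z d x * ((C.rr x)⁻¹ * cS C Q n d.k x) ^ 2) X)
    (h5 : P2 (fun d x => Z d x * ((C.rr x)⁻¹ * c1 C a n d.k x) ^ 2) X)
    (h6 : P2 (fun d x => Z d x * c1 C e n d.k x ^ 2) X) :
    P2 (fun d x => Z d x * L6 C v w P Q a e n d.k x ^ 2) X :=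
  ((((h1.sq_add h hZ h2).sq_add h hZ ((p2_sum h3).le h (Nat.cast_nonneg _) fun d x _ =>
    sq_sum_le (hZ d x) _)).sq_add h hZ h4).sq_add h hZ h5).sq_add h hZ h6

theorem p2_0 (c : C.Pt → ℝ) : P2 (fun d x => Z d x * (c x * c1 C 0 n d.k x) ^ 2) X :=
  p2_zero fun d x => by rw [c1_null]; ring

theorem p2_0' : P2 (fun d x => Z d x * c1 C 0 n d.k x ^ 2) X :=
  p2_zero fun d x => by rw [c1_null]; ring

variable (h : C.Is)
include h

theorem jet_dn {D : ι → Fam C.J} (a : ∀ i, Ps (D i)) (n : ℕ) (V : ι → A) (i : ι) (x : C.Pt) :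
    C.at' (D i) x * C.jet n (V i) x ^ 2 ≤ 10 ^ n * C.val x (C.dn D (C.sl (n + 1)) V) := by
  refine (mul_le_mul_of_nonneg_left (jet_sq_le h n _) ((a i).at h x).le).trans ?_
  rw [mul_left_comm]
  exact mul_le_mul_of_nonneg_left (le_dn h a (vl_sl0 h _) V i) (by positivity)

theorem dn_jet {D : ι → Fam C.J} (a : ∀ i, Ps (D i)) (n : ℕ) (V : ι → A) (x : C.Pt) :
    C.val x (C.dn D (C.sl (n + 1)) V) ≤ ∑ i, C.at' (D i) x * C.jet n (V i) x ^ 2 := by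
  rw [val_dn h a]
  exact sum_le_sum fun i _ => mul_le_mul_of_nonneg_left (vl_sl_le h n _) ((a i).at h x).le

variable (hK : K.Is)
include hK

theorem dG_ge (l : ℝ) (n : ℕ) (U : Un A) (x : C.Pt) :
    C.val x (C.dn (fun _ => C.Zb l) (C.sl n) U.b) ≤ C.val x (C.dG K.p l (C.sl n) U) ∧
    C.val x (C.dn (fun _ => C.Zg l) (C.sl n) U.g) ≤ C.val x (C.dG K.p l (C.sl n) U) ∧
    C.val x (C.dn (C.Zh K.p l) (C.sl n) U.h) ≤ C.val x (C.dG K.p l (C.sl n) U) ∧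
    0 ≤ C.val x (C.dG K.p l (C.sl n) U) := by
  have a := dn_nonneg h (D := fun _ => C.Zb l) (fun _ => ps_mon h ..) (vl_sl0 (x := x) h n) U.b
  have b := dn_nonneg h (D := fun _ => C.Zg l) (fun _ => ps_mon h ..) (vl_sl0 (x := x) h n) U.g
  have c := dn_nonneg h (ps_Zh h (ps_p hK) l) (vl_sl0 (x := x) h n) U.h
  rw [Ch.dG, vl_add, vl_add]
  exact ⟨by linarith, by linarith, by linarith, by linarith⟩

theorem R1_ge (d : D2 F U K n) : d.E d.dV ≤ d.R1 ∧ K.L d.j d.ps d.dG ≤ d.R1 ∧ d.E d.dA ≤ d.R1 ∧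
    0 ≤ d.R1 := by
  have a : 0 ≤ d.E d.dV := E_pos h hK d.cau fun x _ =>
    dn_nonneg h (ps_Dw h (ps_p hK) _) (vl_sl0 h _) _
  have b : 0 ≤ K.L d.j d.ps d.dG := L_pos h hK d.cau fun x _ => (dG_ge h hK ..).2.2.2
  have c : 0 ≤ d.E d.dA := E_pos h hK d.cau fun x _ => by
    rw [D2.dA, Ch.dA, Ch.Zg, vl_fn_mul h (smF_mul (smF_mon h _ _ _) (smF_mon h _ _ _))]
    exact mul_nonneg (mul_pos (at_pos h ..) (at_pos h ..)).le (vl_sl0 h ..)
  rw [D2.R1]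
  exact ⟨by linarith, by linarith, by linarith, by linarith⟩

omit hK in
theorem p2_of (Y : D2 F U K n → A) {L : ℝ} (L0 : 0 ≤ L)
    (e : ∀ d x, x.1 = d.j → φ d x ≤ L * C.val x (Y d))
    (b : ∀ d, d.E (Y d) ≤ d.R1 + d.c ^ 2 * X d) : P2 φ X :=
  P2.le h (φ := fun d x => C.val x (Y d)) ⟨1, one_pos, 1, zero_le_one, 0, fun _ => le_rfl,
    fun d _ => ⟨Y d, fun _ _ => le_rfl, by simpa using b d⟩⟩ L0 e

theorem p2_V (i : Fin 5) (hX : ∀ d, 0 ≤ X d)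
    (hZ : ∀ d x, C.rr x ^ 2 * Z d x ≤ 64 * C.at' (C.Dw K.p d.l i) x) :
    P2 (fun d x => Z d x * (C.rr x * c1 C (U.V i) n d.k x) ^ 2) X :=
  p2_of h D2.dV (L := 64 * 10 ^ n) (by positivity) (fun d x _ => by
    have a := jet_dn h (ps_Dw h (ps_p hK) d.l) n (U.map (C.T)^[d.k]).V i x
    have b := mul_le_mul_of_nonneg_right (hZ d x) (sq_nonneg (c1 C (U.V i) n d.k x))
    change _ * c1 C (U.V i) n d.k x ^ 2 ≤ _ * C.val x d.dV at a
    linarith)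
    fun d => le_add_of_le_of_nonneg (R1_ge h hK d).1 (mul_nonneg (sq_nonneg _) (hX d))

theorem p2_al (hX : ∀ d, 0 ≤ X d) (hZ : ∀ d x, Z d x ≤ 64 * C.at' (C.Zg d.l) x) :
    P2 (fun d x => Z d x * ((C.rr x)⁻¹ * c1 C F.al n d.k x) ^ 2) X :=
  p2_of h D2.dA (L := 64 * 10 ^ n) (by positivity) (fun d x _ => by
    rw [D2.dA, Ch.dA, Ch.Zg, vl_fn_mul h (smF_mul (smF_mon h _ _ _) (smF_mon h _ _ _)), at_mul, at_r,
      Real.rpow_neg (rr_pos h x).le, Real.rpow_two, ← inv_pow]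
    have a := mul_le_mul_of_nonneg_left (jet_sq_le (x := x) h n ((C.T)^[d.k] F.al))
      (mul_nonneg (sq_nonneg (C.rr x)⁻¹) (at_pos h (-17 / 20) (46 / 25) (24 / 25 - d.l) x).le)
    have b := mul_le_mul_of_nonneg_right (hZ d x) (sq_nonneg ((C.rr x)⁻¹ * c1 C F.al n d.k x))
    simp only [c1, Ch.Zg] at a b ⊢
    linarith)
    fun d => le_add_of_le_of_nonneg (R1_ge h hK d).2.2.1 (mul_nonneg (sq_nonneg _) (hX d))

theorem p2_sm {Q : κ → A} (hZ : ∀ d x, 0 ≤ Z d x) (Y : D2 F U K n → A)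
    (hQ : ∀ d x i, Z d x * c1 C (Q i) n d.k x ^ 2 ≤ 10 ^ n * C.val x (Y d)) :
    P2 (fun d x => Z d x * ((C.rr x)⁻¹ * cS C Q n d.k x) ^ 2) fun d => d.E (Y d) :=
  p2_of h (fun d => Ibp.rl A (d.c ^ 2) * Y d) (L := Fintype.card κ * (Fintype.card κ * 10 ^ n))
    (by positivity) (fun d x hx => by
      have a := sq_sum_le (hZ d x) fun i => c1 C (Q i) n d.k x
      have b := sum_le_card_nsmul univ _ _ fun i _ => hQ d x i
      rw [card_univ, nsmul_eq_mul] at b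
      have c := a.trans (mul_le_mul_of_nonneg_left b (Nat.cast_nonneg _))
      have e := pow_le_pow_left₀ (inv_nonneg.2 (rr_pos h x).le) (d.hc x hx) 2
      have := mul_le_mul e c (mul_nonneg (hZ d x) (sq_nonneg _)) (sq_nonneg _)
      rw [vl_rl h, cS]
      linarith)
    fun d => by rw [D2.E, E_rl]; exact le_add_of_nonneg_left (R1_ge h hK d).2.2.2

omit hK in
theorem pq_Q (hK : K.Is) {P : ι → A} {Q : κ → A} (hZ : ∀ d x, 0 ≤ Z d x)
    (hP : ∀ (d : D2 F U K n) x i, C.rr x * C.jet d.m (P i) x ≤ 64 * K.ep x.1)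
    (hQ : ∀ (d : D2 F U K n) x i, C.rr x * C.jet d.m (Q i) x ≤ 64 * K.ep x.1)
    (gP : ∀ d x i, Z d x * C.jet (n + d.k) (P i) x ^ 2 ≤
      64 * 10 ^ (n + d.k) * (K.pm x.1 * C.val x d.dQ))
    (gQ : ∀ d x i, Z d x * C.jet (n + d.k) (Q i) x ^ 2 ≤
      64 * 10 ^ (n + d.k) * (K.pm x.1 * C.val x d.dQ)) :
    Pq fun d x => Z d x * Q3 C P Q F.al (n + d.k) d.m x ^ 2 := by
  let a : ℝ := Fintype.card ι
  let b : ℝ := Fintype.card κ
  refine ⟨fun k => (64 * a + 64 * b + 1) ^ 2 * (2 * (a * a + b * b) * (64 * 10 ^ (n + k))),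
    fun k => by positivity, fun d x hx => ?_⟩
  have r := rr_pos h x
  have ep := hK.ep x.1
  have a0 : 0 ≤ a := Nat.cast_nonneg _
  have b0 : 0 ≤ b := Nat.cast_nonneg _
  have p1 : C.rr x * cS C P d.m 0 x ≤ a * (64 * K.ep x.1) := by
    rw [cS, mul_sum, ← nsmul_eq_mul, ← card_univ]
    exact sum_le_card_nsmul _ _ _ fun i _ => hP d x i
  have p2 : C.rr x * cS C Q d.m 0 x ≤ b * (64 * K.ep x.1) := by
    rw [cS, mul_sum, ← nsmul_eq_mul, ← card_univ]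
    exact sum_le_card_nsmul _ _ _ fun i _ => hQ d x i
  have p3 : C.rr x * c1 C F.al (n + d.k) 0 x ≤ K.ep x.1 := by
    have := mul_le_mul_of_nonneg_left (d.ta x) r.le
    rwa [at_r, Real.rpow_neg_one, mul_left_comm, mul_inv_cancel₀ r.ne', mul_one] at this
  have q1 := (sq_sum_le (hZ d x) _).trans (mul_le_mul_of_nonneg_left
    (sum_le_card_nsmul univ _ _ fun i _ => gP d x i) a0)
  have q2 := (sq_sum_le (hZ d x) _).trans (mul_le_mul_of_nonneg_left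
    (sum_le_card_nsmul univ _ _ fun i _ => gQ d x i) b0)
  rw [card_univ, nsmul_eq_mul] at q1 q2
  change Z d x * cS C P (n + d.k) 0 x ^ 2 ≤ a * (a * _) at q1
  change Z d x * cS C Q (n + d.k) 0 x ^ 2 ≤ b * (b * _) at q2
  have s1 := cS_0 P (n + d.k) 0 x
  have s2 := cS_0 Q (n + d.k) 0 x
  have t : Q3 C P Q F.al (n + d.k) d.m x ≤ (64 * a + 64 * b + 1) * K.ep x.1 *
      (cS C P (n + d.k) 0 x + cS C Q (n + d.k) 0 x) := by
    rw [Q3]
    nlinarith [mul_le_mul_of_nonneg_right p1 s2, mul_le_mul_of_nonneg_right p2 s1,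
      mul_le_mul_of_nonneg_right p3 s2, mul_nonneg (mul_nonneg a0 ep) s1,
      mul_nonneg (mul_nonneg b0 ep) s2, mul_nonneg ep s1]
  have t0 : 0 ≤ Q3 C P Q F.al (n + d.k) d.m x := by
    have := cS_0 P d.m 0 x
    have := cS_0 Q d.m 0 x
    have := c1_0 F.al (n + d.k) 0 x
    rw [Q3]; positivity
  have u := mul_le_mul_of_nonneg_left (pow_le_pow_left₀ t0 t 2) (hZ d x)
  have v : Z d x * (cS C P (n + d.k) 0 x + cS C Q (n + d.k) 0 x) ^ 2 ≤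
      2 * (a * a + b * b) * (64 * 10 ^ (n + d.k) * (K.pm x.1 * C.val x d.dQ)) := by
    nlinarith [mul_nonneg (hZ d x) (sq_nonneg (cS C P (n + d.k) 0 x - cS C Q (n + d.k) 0 x))]
  have w := mul_le_mul_of_nonneg_left v (sq_nonneg ((64 * a + 64 * b + 1) * K.ep x.1))
  rw [← hx]
  linarith

theorem p2_row {k : ℕ} {f : A} {L Q : Bd C} (e : Eqn k f L Q) {W : ℝ → Fam C.J}
    (hW : ∀ d : D2 F U K n, Hd k (W d.l)) (hX : ∀ d, 0 ≤ X d)
    (h0 : ∀ (d : D2 F U K n) x,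
      C.at' (W d.l) x * C.val x (C.sl (n + 1) ((C.T)^[d.k] f)) ≤ C.val x d.dG)
    (hL : P2 (fun d x => C.at' (W d.l) x * L n d.k x ^ 2) X)
    (hQ : Pq fun (d : D2 F U K n) x => C.at' (W d.l) x * Q (n + d.k) d.m x ^ 2) :
    P2 (fun d x => C.at' (W d.l) x * c1 C f n d.k x ^ 2) X := by
  obtain ⟨G1, G2, e, l, q⟩ := e
  obtain ⟨K1, p1, l⟩ := l n
  choose K2 p2 q using q
  have z : ∀ (d : D2 F U K n) x, 0 ≤ C.at' (W d.l) x := fun d x => ((hW d).ps.at h x).le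
  have a1 : P2 (fun d x => C.at' (W d.l) x * c1 C G1 n d.k x ^ 2) X :=
    hL.le h (sq_nonneg K1) fun d x _ => by
      have := mul_le_mul_of_nonneg_left (pow_le_pow_left₀ (c1_0 ..) (l d.k x) 2) (z d x)
      linarith
  have a2 : P2 (fun d x => C.at' (W d.l) x * c1 C G2 n d.k x ^ 2) X := by
    obtain ⟨M, M0, hQ⟩ := hQ
    refine Pq.p2 h ⟨fun k => K2 (n + k) ^ 2 * M k, fun k => mul_nonneg (sq_nonneg _) (M0 k),
      fun d x hx => ?_⟩
    have := mul_le_mul_of_nonneg_left (pow_le_pow_left₀ (c1_0 G2 n d.k x) ((jet_Tk ..).trans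
      (q (n + d.k) d.m x (d.hm.trans (Nat.le_succ _)))) 2) (z d x)
    linarith [mul_le_mul_of_nonneg_left (hQ d x hx) (sq_nonneg (K2 (n + d.k)))]
  obtain ⟨c, c0, B, B0, M, M0, a⟩ := a1.sq_add h z a2
  obtain ⟨H, H0, hH⟩ := hardyE h hK
  refine ⟨c, c0, 10 ^ n * (H * (1 + B)), by positivity, fun k => 10 ^ n * (H * M k),
    fun k => by have := M0 k; positivity, fun d hc => ?_⟩
  obtain ⟨y, p, q⟩ := a d hc
  refine ⟨Ibp.rl A (10 ^ n) * (C.fn (W d.l) * C.sl (n + 1) ((C.T)^[d.k] f)), fun x _ => ?_, ?_⟩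
  · rw [vl_rl h, vl_fn_mul h (hW d).ps.sm, mul_left_comm]
    exact mul_le_mul_of_nonneg_left (jet_sq_le h n _) (z d x)
  · have b1 := hH k _ (hW d) F d.j d.ps d.cau (n + 1) _ _ (eq_Tk h (e.trans (add_assoc ..)) d.k)
    have b2 : K.L d.j d.ps (C.fn (W d.l) * C.sl (n + 1) ((C.T)^[d.k] f)) ≤ d.R1 :=
      (L_le h hK d.cau fun x _ => by rw [vl_fn_mul h (hW d).ps.sm]; exact h0 d x).trans
        (R1_ge h hK d).2.1
    have b3 : K.E d.j d.ps (C.fn (W d.l) * C.sl (n + 1) ((C.T)^[d.k] (G1 + G2))) ≤ d.E y :=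
      E_le h hK d.cau fun x hx => by
        rw [vl_fn_mul h (hW d).ps.sm, Tk_add]
        exact (mul_le_mul_of_nonneg_left ((vl_sl_le h n _).trans
          (pow_le_pow_left₀ (jet0 ..) (jet_add ..) 2)) (z d x)).trans (p x hx)
    have b4 := mul_nonneg (sq_nonneg d.c) (hX d)
    have b5 := b1.trans (mul_le_mul_of_nonneg_left (add_le_add (le_add_of_le_of_nonneg b2 b4)
      (b3.trans q)) H0)
    rw [D2.E, E_rl]
    exact (mul_le_mul_of_nonneg_left b5 (by positivity)).trans (le_of_eq (by ring))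

theorem P2.absorb {Y : D2 F U K n → A} (a : P2 φ fun d => d.E (Y d))
    (y0 : ∀ d x, 0 ≤ C.val x (Y d)) (y1 : ∀ d x, C.val x (Y d) ≤ φ d x) : P2 φ 0 := by
  obtain ⟨c, c0, B, B0, M, M0, a⟩ := a
  refine ⟨min c (1 / (B + 2)), lt_min c0 (by positivity), 2 * B, by positivity, fun k => 2 * M k,
    fun k => by linarith [M0 k], fun d e => ?_⟩
  obtain ⟨y, p, q⟩ := a d (e.trans (min_le_left ..))
  refine ⟨y, p, ?_⟩
  have b0 : 0 ≤ d.E (Y d) := E_pos h hK d.cau fun x _ => y0 d x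
  have b1 : d.E (Y d) ≤ d.E y := E_le h hK d.cau fun x hx => (y1 d x).trans (p x hx)
  have b2 := (le_div_iff₀ (by positivity)).1 (e.trans (min_le_right ..))
  have b3 : B * d.c ^ 2 ≤ 1 / 2 := by
    nlinarith [d.c0, mul_nonneg B0 d.c0, mul_le_mul_of_nonneg_left b2 d.c0]
  have := mul_le_mul_of_nonneg_right b3 b0
  rw [Pi.zero_apply]
  linarith

end Vale.Agent.P354YF
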