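import Vale.Agent.P354XR.Kil

/-!
The GHP equations in the outgoing gauge (thorn is N R, kappa is zero), divided by the powers of N.
-/

namespace Vale.Agent.P354YF

open Vale.Agent.P354XG Vale.Agent.P354XR Vale.Agent.P354XR.KC

/-- The components of degree zero. -/
structure Rd (A : Type*) where
  nT : A
  nR : A
  nP : A
  nH : A
  mT : A
  mR : A
  mP : A
  mQ : A
  mH : A
  mB : A
  rh : A
  si : A
  ta : A
  rh' : A
  si' : A
  ta' : A
  ka' : A
  V0 : A
  V1 : A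
  V2 : A
  V3 : A
  V4 : A

namespace Rd

variable {A : Type*} [CommRing A] [Algebra ℂ A] (K : KC A) (F : Rd A)

/-- The fields n, m and the conjugate of m. -/
noncomputable def n : Der A := K.V F.nT F.nR F.nP (K.c F.nP) F.nH (K.c F.nH)
noncomputable def m : Der A := K.V F.mT F.mR F.mP F.mQ F.mH F.mB
noncomputable def mb : Der A :=
  K.V (K.c F.mT) (K.c F.mR) (K.c F.mQ) (K.c F.mP) (K.c F.mB) (K.c F.mH)

/-- The GHP data. -/
noncomputable def ghp : GHP A where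
  c := K.c
  th := K.N • K.R
  tp := K.Ni • F.n K
  et := F.m K
  ep := F.mb K
  H := K.H
  Hb := K.B
  ka := 0
  si := K.N * F.si
  rh := K.N * F.rh
  ta := F.ta
  ka' := K.Ni * K.Ni * F.ka'
  si' := K.Ni * F.si'
  rh' := K.Ni * F.rh'
  ta' := F.ta'
  P0 := K.N * K.N * F.V0
  P1 := K.N * F.V1
  P2 := F.V2
  P3 := K.Ni * F.V3
  P4 := K.Ni * K.Ni * F.V4

/-- The logarithmic derivatives of N. -/
def gn : A := F.nH + K.c F.nH
def gm : A := F.mH + F.mB

/-- The commutators. -/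
structure Cm : Prop where
  Rn : ∀ f, K.R (F.n K f) = F.n K (K.R f) + F.gn K * K.R f + (K.c F.ta - F.ta') * F.m K f +
    (F.ta - K.c F.ta') * F.mb K f - (F.V2 - F.ta * F.ta') * K.H f -
    K.c (F.V2 - F.ta * F.ta') * K.B f
  Rm : ∀ f, K.R (F.m K f) = F.m K (K.R f) + (F.gm - K.c F.ta') * K.R f + K.c F.rh * F.m K f +
    F.si * F.mb K f - (F.V1 - F.ta' * F.si) * K.H f + K.c (F.rh * F.ta') * K.B f
  nm : ∀ f, F.n K (F.m K f) = F.m K (F.n K f) - (F.gm + F.ta) * F.n K f + F.rh' * F.m K f +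
    K.c F.si' * F.mb K f - K.c F.ka' * K.R f + (F.si * F.ka' - F.rh' * F.ta) * K.H f +
    K.c (F.rh * F.ka' - F.ta * F.si' + F.V3) * K.B f
  mm : ∀ f, F.m K (F.mb K f) = F.mb K (F.m K f) + (K.c F.rh' - F.rh') * K.R f +
    (F.rh - K.c F.rh) * F.n K f + (F.rh * F.rh' - F.si * F.si' + F.V2) * K.H f -
    K.c (F.rh * F.rh' - F.si * F.si' + F.V2) * K.B f

/-- The transport equations along R. -/
structure Tr : Prop where
  rh : K.R F.rh = F.rh * F.rh + F.si * K.c F.si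
  si : K.R F.si = (F.rh + K.c F.rh) * F.si + F.V0
  ta : K.R F.ta = (F.ta - K.c F.ta') * F.rh + (K.c F.ta - F.ta') * F.si + F.V1
  si' : K.R F.si' = F.rh * F.si' + K.c F.si * F.rh' + F.mb K F.ta' - F.ta' * F.ta'
  rh' : K.R F.rh' = F.rh' * K.c F.rh + F.si' * F.si + F.m K F.ta' - F.ta' * K.c F.ta' - F.V2
  ka' : K.R F.ka' = F.n K F.ta' - (F.ta' - K.c F.ta) * F.rh' - (K.c F.ta' - F.ta) * F.si' - F.V3
  mT : K.R F.mT = K.c F.rh * F.mT + F.si * K.c F.mT
  mR : K.R F.mR = K.c F.rh * F.mR + F.si * K.c F.mR + F.gm - K.c F.ta'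
  mP : K.R F.mP = K.c F.rh * F.mP + F.si * K.c F.mQ
  mQ : K.R F.mQ = K.c F.rh * F.mQ + F.si * K.c F.mP
  mH : K.R F.mH = K.c F.rh * F.mH + F.si * K.c F.mB - (F.V1 - F.ta' * F.si)
  mB : K.R F.mB = K.c F.rh * F.mB + F.si * K.c F.mH + K.c F.rh * K.c F.ta'
  nT : K.R F.nT = (K.c F.ta - F.ta') * F.mT + (F.ta - K.c F.ta') * K.c F.mT
  nR : K.R F.nR = (K.c F.ta - F.ta') * F.mR + (F.ta - K.c F.ta') * K.c F.mR + F.gn K
  nP : K.R F.nP = (K.c F.ta - F.ta') * F.mP + (F.ta - K.c F.ta') * K.c F.mQ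
  nH : K.R F.nH = (K.c F.ta - F.ta') * F.mH + (F.ta - K.c F.ta') * K.c F.mB -
    (F.V2 - F.ta * F.ta')

/-- The Bianchi equations. -/
structure Bi : Prop where
  l1 : K.R F.V1 = F.mb K F.V0 + (2 * K.c F.gm - F.ta') * F.V0 + 4 * F.rh * F.V1
  l2 : K.R F.V2 = F.mb K F.V1 + (K.c F.gm - 2 * F.ta') * F.V1 + 3 * F.rh * F.V2 + F.si' * F.V0
  l3 : K.R F.V3 = F.mb K F.V2 - 3 * F.ta' * F.V2 + 2 * F.rh * F.V3 + 2 * F.si' * F.V1
  l4 : K.R F.V4 = F.mb K F.V3 - (K.c F.gm + 4 * F.ta') * F.V3 + F.rh * F.V4 + 3 * F.si' * F.V2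
  n0 : F.n K F.V0 = F.m K F.V1 + (F.gm - 4 * F.ta) * F.V1 + (F.rh' - 2 * F.gn K) * F.V0 +
    3 * F.si * F.V2
  n1 : F.n K F.V1 = F.m K F.V2 - 3 * F.ta * F.V2 + (2 * F.rh' - F.gn K) * F.V1 +
    2 * F.si * F.V3 - F.ka' * F.V0
  n2 : F.n K F.V2 = F.m K F.V3 - (F.gm + 2 * F.ta) * F.V3 + 3 * F.rh' * F.V2 + F.si * F.V4 -
    2 * F.ka' * F.V1
  n3 : F.n K F.V3 = F.m K F.V4 - (2 * F.gm + F.ta) * F.V4 + (4 * F.rh' + F.gn K) * F.V3 -
    3 * F.ka' * F.V2

variable {K F}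

theorem V_N (h : K.Is) (e1 e2 e3 e4 e5 e6 : A) : K.V e1 e2 e3 e4 e5 e6 K.N = (e5 + e6) * K.N := by
  simp only [V_ap, h.tab]; ring

theorem V_Ni (h : K.Is) (e1 e2 e3 e4 e5 e6 : A) :
    K.V e1 e2 e3 e4 e5 e6 K.Ni = -((e5 + e6) * K.Ni) := by
  simp only [V_ap, h.tab]; ring

theorem n_N (h : K.Is) : F.n K K.N = F.gn K * K.N := V_N h ..
theorem n_Ni (h : K.Is) : F.n K K.Ni = -(F.gn K * K.Ni) := V_Ni h ..
theorem m_N (h : K.Is) : F.m K K.N = F.gm * K.N := V_N h ..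
theorem m_Ni (h : K.Is) : F.m K K.Ni = -(F.gm * K.Ni) := V_Ni h ..
theorem mb_N (h : K.Is) : F.mb K K.N = K.c F.gm * K.N := by
  rw [mb, V_N h, gm, map_add, add_comm]
theorem mb_Ni (h : K.Is) : F.mb K K.Ni = -(K.c F.gm * K.Ni) := by
  rw [mb, V_Ni h, gm, map_add, add_comm]

theorem canc (h : K.Is) {f g : A} (e : K.N * f = K.N * g) : f = g := by
  linear_combination K.Ni * e - (f - g) * h.hN
theorem canc' (h : K.Is) {f g : A} (e : K.Ni * f = K.Ni * g) : f = g := by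
  linear_combination K.N * e - (f - g) * h.hN

theorem R_V (h : K.Is) (e1 e2 e3 e4 e5 e6 f : A) : K.R (K.V e1 e2 e3 e4 e5 e6 f) =
    K.V e1 e2 e3 e4 e5 e6 (K.R f) +
      K.V (K.R e1) (K.R e2) (K.R e3) (K.R e4) (K.R e5) (K.R e6) f := by
  simp only [V_ap, D_add, D_mul, h.R_T, h.P_R, h.Q_R, h.H_R, h.B_R]
  ring

theorem cm (h : K.Is) (g : (F.ghp K).Is) : F.Cm K where
  Rn f := by
    have := g.th_tp f
    simp only [ghp, Derivation.smul_apply, smul_eq_mul, D_mul, h.R_Ni, n_N h, map_zero] at this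
    simp only [map_sub, map_mul]
    linear_combination this - (K.R (F.n K f) - F.n K (K.R f) - F.gn K * K.R f) * h.hN
  Rm f := by
    have := g.th_et f
    simp only [ghp, Derivation.smul_apply, smul_eq_mul, D_mul, m_N h, map_zero, map_mul,
      h.c_N] at this
    simp only [map_mul]
    exact canc h (by linear_combination this)
  nm f := by
    have := g.tp_et f
    simp only [ghp, Derivation.smul_apply, smul_eq_mul, D_mul, m_Ni h, map_mul, h.c_N,
      h.c_Ni] at this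
    simp only [map_sub, map_mul, map_add]
    exact canc' h (by
      linear_combination this + (K.Ni * (F.si * F.ka' * K.H f - K.c F.ka' * K.R f +
        K.c F.rh * K.c F.ka' * K.B f)) * h.hN)
  mm f := by
    have := g.et_ep f
    simp only [ghp, Derivation.smul_apply, smul_eq_mul, map_mul, h.c_N, h.c_Ni] at this
    simp only [map_sub, map_mul, map_add]
    linear_combination this + ((K.c F.rh' - F.rh') * K.R f + (F.rh - K.c F.rh) * F.n K f +
      (F.rh * F.rh' - F.si * F.si') * K.H f -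
      (K.c F.rh * K.c F.rh' - K.c F.si * K.c F.si') * K.B f) * h.hN

theorem tr (h : K.Is) (hf : K.Free) (g : (F.ghp K).Is) : F.Tr K := by
  have c := cm h g
  obtain ⟨a1, a2, a3, a4, a5, a6⟩ := hf (K.R F.mT - (K.c F.rh * F.mT + F.si * K.c F.mT))
    (K.R F.mR - (K.c F.rh * F.mR + F.si * K.c F.mR + F.gm - K.c F.ta'))
    (K.R F.mP - (K.c F.rh * F.mP + F.si * K.c F.mQ))
    (K.R F.mQ - (K.c F.rh * F.mQ + F.si * K.c F.mP))
    (K.R F.mH - (K.c F.rh * F.mH + F.si * K.c F.mB - (F.V1 - F.ta' * F.si)))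
    (K.R F.mB - (K.c F.rh * F.mB + F.si * K.c F.mH + K.c F.rh * K.c F.ta')) fun f => by
      have := c.Rm f
      rw [m, R_V h] at this
      simp only [mb, V_ap, map_mul] at this ⊢
      linear_combination this
  obtain ⟨b1, b2, b3, -, b5, -⟩ := hf
    (K.R F.nT - ((K.c F.ta - F.ta') * F.mT + (F.ta - K.c F.ta') * K.c F.mT))
    (K.R F.nR - ((K.c F.ta - F.ta') * F.mR + (F.ta - K.c F.ta') * K.c F.mR + F.gn K))
    (K.R F.nP - ((K.c F.ta - F.ta') * F.mP + (F.ta - K.c F.ta') * K.c F.mQ))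
    (K.R (K.c F.nP) - ((K.c F.ta - F.ta') * F.mQ + (F.ta - K.c F.ta') * K.c F.mP))
    (K.R F.nH - ((K.c F.ta - F.ta') * F.mH + (F.ta - K.c F.ta') * K.c F.mB -
      (F.V2 - F.ta * F.ta')))
    (K.R (K.c F.nH) - ((K.c F.ta - F.ta') * F.mB + (F.ta - K.c F.ta') * K.c F.mH -
      K.c (F.V2 - F.ta * F.ta'))) fun f => by
      have := c.Rn f
      rw [n, R_V h] at this
      simp only [m, mb, V_ap] at this ⊢
      linear_combination this
  have r1 := g.r1
  have r2 := g.r2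
  have r3 := g.r3
  have r4 := g.r5'
  have r5 := g.r6'
  have r6 := g.r3'
  simp only [ghp, Derivation.smul_apply, smul_eq_mul, D_mul, h.R_N, h.R_Ni, map_zero, map_mul,
    h.c_N, h.c_Ni] at r1 r2 r3 r4 r5 r6
  exact
    { rh := canc h (canc h (by linear_combination r1))
      si := canc h (canc h (by linear_combination r2))
      ta := canc h (by linear_combination r3)
      si' := by
        linear_combination -r4 - (K.R F.si' - F.rh * F.si' - K.c F.si * F.rh') * h.hN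
      rh' := by
        linear_combination -r5 - (K.R F.rh' - F.rh' * K.c F.rh - F.si' * F.si) * h.hN
      ka' := canc' h (by linear_combination -r6 - K.Ni * K.R F.ka' * h.hN)
      mT := sub_eq_zero.1 a1
      mR := sub_eq_zero.1 a2
      mP := sub_eq_zero.1 a3
      mQ := sub_eq_zero.1 a4
      mH := sub_eq_zero.1 a5
      mB := sub_eq_zero.1 a6
      nT := sub_eq_zero.1 b1
      nR := sub_eq_zero.1 b2
      nP := sub_eq_zero.1 b3
      nH := sub_eq_zero.1 b5 }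

theorem bi (h : K.Is) (g : (F.ghp K).Is) : F.Bi K := by
  have b1 := g.b1
  have b2 := g.b2
  have b3 := g.b3
  have b4 := g.b4
  have c1 := g.b4'
  have c2 := g.b3'
  have c3 := g.b2'
  have c4 := g.b1'
  simp only [ghp, Derivation.smul_apply, smul_eq_mul, D_mul, h.R_N, h.R_Ni, n_N h, n_Ni h, m_N h,
    m_Ni h, mb_N h, mb_Ni h] at b1 b2 b3 b4 c1 c2 c3 c4
  exact
    { l1 := canc h (canc h (by linear_combination b1))
      l2 := canc h (by linear_combination b2 + K.N * F.si' * F.V0 * h.hN)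
      l3 := by
        linear_combination b3 - (K.R F.V3 - 2 * F.rh * F.V3 - 2 * F.si' * F.V1) * h.hN
      l4 := canc' h (by linear_combination b4 - K.Ni * (K.R F.V4 - F.rh * F.V4) * h.hN)
      n0 := canc h (by
        linear_combination c1 - K.N * (F.n K F.V0 + 2 * F.gn K * F.V0 - F.rh' * F.V0) * h.hN)
      n1 := by
        linear_combination c2 - (F.n K F.V1 + F.gn K * F.V1 - 2 * F.si * F.V3 - 2 * F.rh' * F.V1 +
          F.ka' * F.V0 * (1 + K.N * K.Ni)) * h.hN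
      n2 := canc' h (by
        linear_combination c3 + K.Ni * (F.si * F.V4 - 2 * F.ka' * F.V1) * h.hN)
      n3 := canc' h (canc' h (by linear_combination c4)) }

end Rd
end Vale.Agent.P354YF
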