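import Vale.Agent.P354YF.Sy
import Vale.Agent.P354XZ.Props

/-!
The transport equations along R of a solution in the outgoing gauge.
-/

namespace Vale.Agent.P354YF

open Vale.Agent.P354XG (Der D_mul D_add D_sub D_neg D_alg D_zero D_one D_num)
open Vale.Agent.P354XI Vale.Agent.P354XZ Vale.Agent.P354XZ.NF

variable {A : Type} [CommRing A] [Algebra ℂ A] {C : Ch A} {F : NF A}

/-- One half. -/
noncomputable def hf (A : Type) [CommRing A] [Algebra ℂ A] : A := Ibp.rl A (1 / 2)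

theorem two_hf : 2 * hf A = 1 := by
  rw [hf, ← Ibp.rl_two, ← Ibp.rl_mul, show (2 : ℝ) * (1 / 2) = 1 by norm_num, Ibp.rl_one]
theorem hf_canc {f : A} (e : hf A * f = 0) : f = 0 := by
  linear_combination 2 * e - f * two_hf (A := A)
theorem D_hf (D : Der A) : D (hf A) = 0 := Ibp.D_rl D _
theorem c_hf (c : A →+* A) : c (hf A) = hf A := by
  have := congrArg c (two_hf (A := A))
  rw [map_mul, map_ofNat, map_one] at this
  linear_combination hf A * this - c (hf A) * two_hf (A := A)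

/-! ### Powers of N -/

theorem nz_add (a b : ℤ) : nz C (a + b) = nz C a * nz C b := by
  rw [nz, nz, nz, neg_add, zpow_add, Units.val_mul]
theorem nz_zero : nz C 0 = 1 := by simp [nz]
theorem nz_m1 : nz C (-1) = C.N := by simp [nz]
theorem N_nz : C.N * nz C 1 = 1 := by rw [← nz_m1, ← nz_add]; exact nz_zero
theorem nz_two : nz C 2 = nz C 1 * nz C 1 := nz_add 1 1
theorem nz_m2 : nz C (-2) = C.N * C.N := by rw [← nz_m1, ← nz_add]; rfl

theorem D_nz {D : Der A} (e : D C.N = 0) (b : ℤ) : D (nz C b) = 0 := by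
  have e1 : D (nz C 1) = 0 := by
    have := congrArg D (N_nz (C := C))
    rw [D_mul, e, D_one] at this
    linear_combination nz C 1 * this - D (nz C 1) * N_nz (C := C)
  induction b using Int.induction_on with
  | zero => rw [nz_zero, D_one]
  | succ b ih => rw [nz_add, D_mul, ih, e1, mul_zero, mul_zero, add_zero]
  | pred b ih => rw [sub_eq_add_neg, nz_add, D_mul, ih, nz_m1, e, mul_zero, mul_zero, add_zero]

theorem c_nz (h : C.Is) (b : ℤ) : C.c (nz C b) = nz C b := by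
  have e1 : C.c (nz C 1) = nz C 1 := by
    have := congrArg C.c (N_nz (C := C))
    rw [map_mul, h.c_N, map_one] at this
    linear_combination nz C 1 * this - C.c (nz C 1) * N_nz (C := C)
  induction b using Int.induction_on with
  | zero => rw [nz_zero, map_one]
  | succ b ih => rw [nz_add, map_mul, ih, e1]
  | pred b ih => rw [sub_eq_add_neg, nz_add, map_mul, ih, nz_m1, h.c_N]

theorem cancN {f g : A} (e : C.N * f = C.N * g) : f = g := by
  linear_combination nz C 1 * e - (f - g) * N_nz (C := C)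
theorem cancI {f g : A} (e : nz C 1 * f = nz C 1 * g) : f = g := by
  linear_combination C.N * e - (f - g) * N_nz (C := C)

/-! ### Tangent fields -/

theorem c_Q (h : C.Is) (j : C.J) (f : A) : C.c (C.an 1 f) = C.an 0 (C.c f) := by
  have := congrArg C.c (h.c_P (C.c f))
  rw [cc h j, cc h j] at this
  exact this.symm

theorem c_vf (h : C.Is) (j : C.J) (a : Fin 5 → A) (f : A) :
    C.c (C.vf a f) = C.vf (C.cj a) (C.c f) := by
  simp only [vf_ap, map_add, map_mul, T_c h j, R_c h j, h.c_P, c_Q h j, h.c_V, Ch.cj,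
    Matrix.cons_val]
  ring

theorem R_vf (h : C.Is) (a : Fin 5 → A) (f : A) :
    C.R (C.vf a f) = C.vf a (C.R f) + C.vf (fun i => C.R (a i)) f := by
  have e0 : C.R (C.T f) = C.T (C.R f) := h.R_D 0 f
  have e2 : C.R (C.an 0 f) = C.an 0 (C.R f) := h.R_D 2 f
  have e3 : C.R (C.an 1 f) = C.an 1 (C.R f) := h.R_D 3 f
  have e4 : C.R (C.an 2 f) = C.an 2 (C.R f) := h.R_D 4 f
  simp only [vf_ap, D_add, D_mul, e0, e2, e3, e4]
  ring

theorem vf_N (h : C.Is) (a : Fin 5 → A) : C.vf a C.N = 0 := by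
  simp [vf_ap, show C.T C.N = 0 from h.D_N 0, show C.R C.N = 0 from h.D_N 1,
    show C.an 0 C.N = 0 from h.D_N 2, show C.an 1 C.N = 0 from h.D_N 3,
    show C.an 2 C.N = 0 from h.D_N 4]

theorem H_eq (g : F.Is C) (f : A) : F.G.H f = hf A * (C.S f + C.an 2 f) := by
  linear_combination hf A * (g.HS f + g.HV f) - F.G.H f * two_hf (A := A)
theorem Hb_eq (g : F.Is C) (f : A) : F.G.Hb f = hf A * (C.S f - C.an 2 f) := by
  linear_combination hf A * (g.HS f - g.HV f) - F.G.Hb f * two_hf (A := A)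
theorem et_eq (g : F.Is C) (f : A) : F.G.et f = F.m C f + hf A * F.be * C.S f := by
  rw [NF.m]; linear_combination hf A * g.et f - (F.G.et f - C.vf F.mc f) * two_hf (A := A)
theorem tp_eq (g : F.Is C) (f : A) : F.G.tp f = nz C 1 * (F.n C f + hf A * F.ga * C.S f) := by
  refine cancN (C := C) ?_
  rw [NF.n]
  linear_combination hf A * g.tp f - (C.N * F.G.tp f - C.vf F.nc f) * two_hf (A := A) -
    (C.vf F.nc f + hf A * F.ga * C.S f) * N_nz (C := C)
theorem c_m (h : C.Is) (j : C.J) (f : A) : C.c (F.m C f) = F.mb C (C.c f) := c_vf h j _ f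
theorem c_mb (h : C.Is) (j : C.J) (f : A) : C.c (F.mb C f) = F.m C (C.c f) := by
  have := congrArg C.c (c_m (F := F) h j (C.c f))
  rw [cc h j, cc h j] at this
  exact this.symm
theorem ep_eq (h : C.Is) (j : C.J) (g : F.Is C) (f : A) :
    F.G.ep f = F.mb C f + hf A * C.c F.be * C.S f := by
  have := g.is.c_et (C.c f)
  rw [g.c_eq, cc h j, et_eq g, map_add, c_m h j, map_mul, map_mul, c_hf, h.c_S, cc h j] at this
  exact this.symm

/-- The field n is real. -/
theorem n_real (h : C.Is) (j : C.J) (g : F.Is C) : C.cj F.nc = F.nc ∧ C.c F.ga = F.ga := by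
  obtain ⟨a, b⟩ := h.indep (C.cj F.nc - F.nc) (hf A * (C.c F.ga - F.ga)) fun f => by
    have := g.is.c_tp (C.c f)
    rw [g.c_eq, cc h j, tp_eq g, tp_eq g, map_mul, c_nz h, map_add, NF.n, c_vf h j, map_mul,
      map_mul, c_hf, h.c_S, cc h j] at this
    have := cancI this
    simp only [vf_ap, Pi.sub_apply] at this ⊢
    linear_combination this
  exact ⟨sub_eq_zero.1 a, sub_eq_zero.1 (hf_canc b)⟩

theorem c_n (h : C.Is) (j : C.J) (g : F.Is C) (f : A) : C.c (F.n C f) = F.n C (C.c f) := by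
  rw [NF.n, c_vf h j, (n_real h j g).1]

/-! ### The normalised quantities -/

variable (F C) in
/-- sigma, rho, sigma', rho', kappa' and the curvature, without boost weight. -/
noncomputable def qs : A := nz C 1 * F.G.si
variable (F C) in
noncomputable def qr : A := nz C 1 * F.G.rh
variable (F C) in
noncomputable def qs' : A := nz C (-1) * F.G.si'
variable (F C) in
noncomputable def qr' : A := nz C (-1) * F.G.rh'
variable (F C) in
noncomputable def qk' : A := nz C (-2) * F.G.ka'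
variable (F C) in
noncomputable def qV (i : Fin 5) : A := nw C F.W i

theorem si_eq : F.G.si = C.N * qs C F := by rw [qs, ← mul_assoc, N_nz, one_mul]
theorem rh_eq : F.G.rh = C.N * qr C F := by rw [qr, ← mul_assoc, N_nz, one_mul]
theorem si'_eq : F.G.si' = nz C 1 * qs' C F := by
  rw [qs', ← mul_assoc, nz_m1, mul_comm (nz C 1), N_nz, one_mul]
theorem rh'_eq : F.G.rh' = nz C 1 * qr' C F := by
  rw [qr', ← mul_assoc, nz_m1, mul_comm (nz C 1), N_nz, one_mul]
theorem ka'_eq : F.G.ka' = nz C 1 * (nz C 1 * qk' C F) := by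
  rw [qk', nz_m2]
  linear_combination -F.G.ka' * (1 + C.N * nz C 1) * N_nz (C := C)
theorem P0_eq : F.G.P0 = C.N * (C.N * qV C F 0) := by
  change F.G.P0 = C.N * (C.N * (nz C 2 * F.G.P0))
  rw [nz_two]
  linear_combination -F.G.P0 * (1 + C.N * nz C 1) * N_nz (C := C)
theorem P1_eq : F.G.P1 = C.N * qV C F 1 := by
  change F.G.P1 = C.N * (nz C 1 * F.G.P1)
  rw [← mul_assoc, N_nz, one_mul]
theorem P2_eq : F.G.P2 = qV C F 2 := by
  change F.G.P2 = nz C 0 * F.G.P2
  rw [nz_zero, one_mul]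
theorem P3_eq : F.G.P3 = nz C 1 * qV C F 3 := by
  change F.G.P3 = nz C 1 * (nz C (-1) * F.G.P3)
  rw [← mul_assoc, nz_m1, mul_comm (nz C 1), N_nz, one_mul]
theorem P4_eq : F.G.P4 = nz C 1 * (nz C 1 * qV C F 4) := by
  change F.G.P4 = nz C 1 * (nz C 1 * (nz C (-2) * F.G.P4))
  rw [nz_m2]
  linear_combination -F.G.P4 * (1 + C.N * nz C 1) * N_nz (C := C)

variable (F C) in
/-- The transport equations. -/
structure Tr : Prop where
  rh : C.R (qr C F) = qr C F * qr C F + qs C F * C.c (qs C F)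
  si : C.R (qs C F) = (qr C F + C.c (qr C F)) * qs C F + qV C F 0
  ta : C.R F.G.ta = (F.G.ta - C.c F.G.ta') * qr C F + (C.c F.G.ta - F.G.ta') * qs C F + qV C F 1
  si' : C.R (qs' C F) = qr C F * qs' C F + C.c (qs C F) * qr' C F + F.mb C F.G.ta' -
    F.G.ta' * F.G.ta'
  rh' : C.R (qr' C F) = qr' C F * C.c (qr C F) + qs' C F * qs C F + F.m C F.G.ta' -
    F.G.ta' * C.c F.G.ta' - qV C F 2
  ka' : C.R (qk' C F) = F.n C F.G.ta' - (F.G.ta' - C.c F.G.ta) * qr' C F -
    (C.c F.G.ta' - F.G.ta) * qs' C F - qV C F 3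
  m0 : C.R (F.mc 0) = C.c (qr C F) * F.mc 0 + qs C F * C.c (F.mc 0)
  m1 : C.R (F.mc 1) = C.c (qr C F) * F.mc 1 + qs C F * C.c (F.mc 1) + F.be - C.c F.G.ta'
  m2 : C.R (F.mc 2) = C.c (qr C F) * F.mc 2 + qs C F * C.c (F.mc 3)
  m3 : C.R (F.mc 3) = C.c (qr C F) * F.mc 3 + qs C F * C.c (F.mc 2)
  m4 : C.R (F.mc 4) = C.c (qr C F) * F.mc 4 - qs C F * C.c (F.mc 4) -
    hf A * (qV C F 1 - F.G.ta' * qs C F + C.c (qr C F) * C.c F.G.ta')
  be : C.R F.be = C.c (qr C F) * F.be + qs C F * C.c F.be - qV C F 1 + F.G.ta' * qs C F +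
    C.c (qr C F) * C.c F.G.ta'
  n0 : C.R (F.nc 0) = (C.c F.G.ta - F.G.ta') * F.mc 0 + (F.G.ta - C.c F.G.ta') * C.c (F.mc 0)
  n1 : C.R (F.nc 1) = (C.c F.G.ta - F.G.ta') * F.mc 1 + (F.G.ta - C.c F.G.ta') * C.c (F.mc 1) +
    F.ga
  n2 : C.R (F.nc 2) = (C.c F.G.ta - F.G.ta') * F.mc 2 + (F.G.ta - C.c F.G.ta') * C.c (F.mc 3)
  n3 : C.R (F.nc 3) = (C.c F.G.ta - F.G.ta') * F.mc 3 + (F.G.ta - C.c F.G.ta') * C.c (F.mc 2)
  n4 : C.R (F.nc 4) = (C.c F.G.ta - F.G.ta') * F.mc 4 - (F.G.ta - C.c F.G.ta') * C.c (F.mc 4) -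
    hf A * (qV C F 2 - F.G.ta * F.G.ta' - C.c (qV C F 2) + C.c F.G.ta * C.c F.G.ta')
  ga : C.R F.ga = (C.c F.G.ta - F.G.ta') * F.be + (F.G.ta - C.c F.G.ta') * C.c F.be -
    (qV C F 2 - F.G.ta * F.G.ta' + C.c (qV C F 2) - C.c F.G.ta * C.c F.G.ta')

theorem tr (h : C.Is) (j : C.J) (g : F.Is C) : Tr C F := by
  have RN : C.R C.N = 0 := h.D_N 1
  have RI := D_nz RN 1
  have SR : ∀ f, C.S (C.R f) = C.R (C.S f) := h.S_D 1
  have hN := N_nz (C := C)
  have h2 := two_hf (A := A)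
  have St : C.S F.G.ta' = 0 := by rw [← g.HS, g.is.H_ta', g.is.Hb_ta', neg_add_cancel]
  obtain ⟨a, a5⟩ := h.indep
    ![C.R (F.mc 0) - (C.c (qr C F) * F.mc 0 + qs C F * C.c (F.mc 0)),
      C.R (F.mc 1) - (C.c (qr C F) * F.mc 1 + qs C F * C.c (F.mc 1) + F.be - C.c F.G.ta'),
      C.R (F.mc 2) - (C.c (qr C F) * F.mc 2 + qs C F * C.c (F.mc 3)),
      C.R (F.mc 3) - (C.c (qr C F) * F.mc 3 + qs C F * C.c (F.mc 2)),
      C.R (F.mc 4) - (C.c (qr C F) * F.mc 4 - qs C F * C.c (F.mc 4) -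
        hf A * (qV C F 1 - F.G.ta' * qs C F + C.c (qr C F) * C.c F.G.ta'))]
    (hf A * (C.R F.be - (C.c (qr C F) * F.be + qs C F * C.c F.be - qV C F 1 + F.G.ta' * qs C F +
      C.c (qr C F) * C.c F.G.ta'))) fun f => by
      have := g.is.th_et f
      rw [g.ka, si_eq (C := C), rh_eq (C := C), P1_eq (C := C)] at this
      simp only [g.th, et_eq g, ep_eq h j g, H_eq g, Hb_eq g, g.c_eq, NF.m, NF.mb, D_add, D_mul,
        R_vf h, vf_N h, h.S_N, SR, D_hf, map_mul, map_zero, h.c_N] at this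
      simp only [vf_ap, Ch.cj, Matrix.cons_val] at this ⊢
      exact cancN (C := C) (by linear_combination this + C.N * F.be * C.R f * h2)
  obtain ⟨b, b5⟩ := h.indep
    ![C.R (F.nc 0) - ((C.c F.G.ta - F.G.ta') * F.mc 0 + (F.G.ta - C.c F.G.ta') * C.c (F.mc 0)),
      C.R (F.nc 1) - ((C.c F.G.ta - F.G.ta') * F.mc 1 + (F.G.ta - C.c F.G.ta') * C.c (F.mc 1) +
        F.ga),
      C.R (F.nc 2) - ((C.c F.G.ta - F.G.ta') * F.mc 2 + (F.G.ta - C.c F.G.ta') * C.c (F.mc 3)),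
      C.R (F.nc 3) - ((C.c F.G.ta - F.G.ta') * F.mc 3 + (F.G.ta - C.c F.G.ta') * C.c (F.mc 2)),
      C.R (F.nc 4) - ((C.c F.G.ta - F.G.ta') * F.mc 4 - (F.G.ta - C.c F.G.ta') * C.c (F.mc 4) -
        hf A * (qV C F 2 - F.G.ta * F.G.ta' - C.c (qV C F 2) + C.c F.G.ta * C.c F.G.ta'))]
    (hf A * (C.R F.ga - ((C.c F.G.ta - F.G.ta') * F.be + (F.G.ta - C.c F.G.ta') * C.c F.be -
      (qV C F 2 - F.G.ta * F.G.ta' + C.c (qV C F 2) - C.c F.G.ta * C.c F.G.ta')))) fun f => by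
      have := g.is.th_tp f
      rw [g.ka, P2_eq (C := C)] at this
      simp only [g.th, tp_eq g, et_eq g, ep_eq h j g, H_eq g, Hb_eq g, g.c_eq, NF.m, NF.mb, NF.n,
        D_add, D_mul, R_vf h, vf_N h, h.S_N, SR, D_hf, RI, map_zero] at this
      simp only [vf_ap, Ch.cj, Matrix.cons_val] at this ⊢
      linear_combination this + F.ga * C.R f * h2 - (C.R (F.nc 0) * C.T f + C.R (F.nc 1) * C.R f +
        C.R (F.nc 2) * C.an 0 f + C.R (F.nc 3) * C.an 1 f + C.R (F.nc 4) * C.an 2 f +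
        hf A * C.R F.ga * C.S f - 2 * hf A * F.ga * C.R f) * hN
  have r1 := g.is.r1
  have r2 := g.is.r2
  have r3 := g.is.r3
  have r4 := g.is.r5'
  have r5 := g.is.r6'
  have r6 := g.is.r3'
  rw [g.ka] at r1 r2 r3 r4 r5
  rw [si_eq (C := C), rh_eq (C := C)] at r1 r2 r3 r4 r5
  rw [si'_eq (C := C), rh'_eq (C := C)] at r4 r5 r6
  rw [P0_eq (C := C)] at r2
  rw [P1_eq (C := C)] at r3
  rw [P2_eq (C := C)] at r5
  rw [P3_eq (C := C), ka'_eq (C := C)] at r6
  simp only [g.th, tp_eq g, et_eq g, ep_eq h j g, g.c_eq, D_mul, RN, RI, St, map_zero, map_mul,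
    h.c_N] at r1 r2 r3 r4 r5 r6
  exact
    { rh := cancN (C := C) (cancN (C := C) (by linear_combination r1))
      si := cancN (C := C) (cancN (C := C) (by linear_combination r2))
      ta := cancN (C := C) (by linear_combination r3)
      si' := by
        linear_combination -r4 - (C.R (qs' C F) - qr C F * qs' C F - C.c (qs C F) * qr' C F) * hN
      rh' := by
        linear_combination -r5 - (C.R (qr' C F) - qr' C F * C.c (qr C F) - qs' C F * qs C F) * hN
      ka' := cancI (C := C) (by linear_combination -r6 - nz C 1 * C.R (qk' C F) * hN)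
      m0 := sub_eq_zero.1 (congrFun a 0)
      m1 := sub_eq_zero.1 (congrFun a 1)
      m2 := sub_eq_zero.1 (congrFun a 2)
      m3 := sub_eq_zero.1 (congrFun a 3)
      m4 := sub_eq_zero.1 (congrFun a 4)
      be := sub_eq_zero.1 (hf_canc a5)
      n0 := sub_eq_zero.1 (congrFun b 0)
      n1 := sub_eq_zero.1 (congrFun b 1)
      n2 := sub_eq_zero.1 (congrFun b 2)
      n3 := sub_eq_zero.1 (congrFun b 3)
      n4 := sub_eq_zero.1 (congrFun b 4)
      ga := sub_eq_zero.1 (hf_canc b5) }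

end Vale.Agent.P354YF
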